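import Vale.Agent.P366.T4.Touch92
import Vale.Agent.P366.T4.Area92

/-! T5: the touching argument and the minimal enclosing area for `Bg.Fits0` (only the density of
the background is radial). -/

open MeasureTheory Metric Filter Topology Set
open scoped ContDiff ENNReal Matrix

noncomputable section
namespace Vale.Agent.T4
open Vale.Agent.P366.Stmt Vale.Agent.P366.T2
open Vale.Agent.C92 (pd_congr_outside pd_mul pd_sum pd_len pd_pd_len trS_def outside_nonneg
  theta_compare)

variable {n : ℕ}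

theorem H1_eq_bd0 {G g : Field n} {B : Bg n} (h : Lapse G g B.R) (hB : B.Fits0 G) {x : E n}
    (hx : B.R ≤ len x) : H1 G x = B.H (len x) := by
  have h0 := h.ne_zero hx
  have hr : 0 < len x := h.len_pos hx
  have key : ∀ y : E n, B.R < len y → H1 G y = B.H (len y) := by
    intro y hy
    unfold H1
    have e : ∀ i, nx i y * Lg G i y = (B.H (len y) - ((n : ℝ) - 1) / len y) *
        (nx i y * nx i y) := by
      intro i; rw [hB.hL y hy]; ring
    simp only [e, ← Finset.mul_sum, sum_nx_mul (h.ne_zero hy.le)]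
    ring
  rcases hx.lt_or_eq with hlt | heq
  · exact key x hlt
  · -- approach along the ray
    have hl : ∀ t : ℝ, 0 < t → len ((1 + t) • x) = (1 + t) * len x := by
      intro t ht
      unfold len
      rw [norm_smul, Real.norm_eq_abs, abs_of_pos (by linarith)]
    have hc : Tendsto (fun t : ℝ => (1 + t) • x) (𝓝 0) (𝓝 x) := by
      have h1 : ContinuousAt (fun t : ℝ => (1 + t) • x) 0 := by fun_prop
      have h2 := h1.tendsto
      simpa using h2
    have h1 : Tendsto (fun t : ℝ => H1 G ((1 + t) • x)) (𝓝[>] 0) (𝓝 (H1 G x)) :=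
      ((h.cont_H1 hx).tendsto.comp hc).mono_left nhdsWithin_le_nhds
    have h5 : Tendsto (fun t : ℝ => B.H ((1 + t) * len x)) (𝓝[>] 0) (𝓝 (B.H (len x))) := by
      have h6 : ContinuousAt B.H (len x) := (B.H_diff _ hx).continuousAt
      have h7 : Tendsto (fun t : ℝ => (1 + t) * len x) (𝓝 0) (𝓝 (len x)) := by
        have h8 : ContinuousAt (fun t : ℝ => (1 + t) * len x) 0 := by fun_prop
        have h9 := h8.tendsto
        simpa using h9
      exact (h6.tendsto.comp h7).mono_left nhdsWithin_le_nhds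
    have h10 : (fun t : ℝ => H1 G ((1 + t) • x)) =ᶠ[𝓝[>] 0]
        fun t : ℝ => B.H ((1 + t) * len x) := by
      filter_upwards [self_mem_nhdsWithin] with t ht
      have ht' : 0 < t := ht
      rw [key _ (by rw [hl t ht', ← heq]; nlinarith [B.hR]), hl t ht']
    exact tendsto_nhds_unique (h1.congr' h10) h5

/-- **[touch0]** -/
theorem touch0 (hn : 2 ≤ n) {X : Exterior n} {G : Field n} {B : Bg n} (h : Lapse G X.g B.R)
    (hB : B.Fits0 G) {κ : ℝ → ℝ}
    (hκ : ∀ x, B.R ≤ len x → √(rad X.g x) * trT G X.K x = κ (len x)) (hT : X.Trapped)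
    (hR : IsGreatest {r | ∃ x, X.F x = 0 ∧ len x = r} B.R) : B.H B.R + κ B.R ≤ 0 := by
  have hout := outside_nonneg hn X hR
  obtain ⟨x0, hF0, hx0⟩ := hR.1
  have h1 := theta_compare (g := X.g) (K := X.K) X.dom.1 B.hR hx0
    (X.pos x0 hF0.ge) (X.dom.2.1 x0 hF0) (fun x hx => by rw [hF0]; exact hout x hx)
  have h2 := h1.trans (hT x0 hF0)
  have hp := h.ppos x0 hx0.ge
  have hs : 0 < √(rad X.g x0) := Real.sqrt_pos.2 hp
  rw [h.theta_len hx0.ge, H1_eq_bd0 h hB hx0.ge] at h2
  have h3 := hκ x0 hx0.ge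
  rw [hx0] at h2 h3
  rw [← h3]
  have h4 : √(rad X.g x0) * (B.H B.R / √(rad X.g x0) + trT G X.K x0) ≤ 0 :=
    mul_nonpos_of_nonneg_of_nonpos hs.le h2
  have h5 : √(rad X.g x0) * (B.H B.R / √(rad X.g x0) + trT G X.K x0) =
      B.H B.R + √(rad X.g x0) * trT G X.K x0 := by
    field_simp
  rw [h5] at h4
  exact h4

/-- **[area0]** -/
theorem area0 (hn : 2 ≤ n) {X : Exterior n} {G : Field n} {B : Bg n} (h : Lapse G X.g B.R)
    (hB : B.Fits0 G) (hR : IsGreatest {r | ∃ x, X.F x = 0 ∧ len x = r} B.R) {r : ℝ}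
    (hr : B.R ≤ r) : X.Amin ≤ ENNReal.ofReal (omega n * B.ar r) := by
  have hr0 : 0 < r := B.hR.trans_le hr
  have hA : ∀ x : E n, ‖x‖ = r → ∀ v : Fin n → ℝ, ∑ i, ∑ j, X.g x i j * v i * v j ≤ 1 →
      -(√((mat X.g x).det) * ∑ i, v i * (x i / ‖x‖)) ≤ B.ar r / r ^ (n - 1) := by
    intro x hx v hv
    have hlen : len x = r := hx
    have hxR : B.R ≤ len x := by rw [hlen]; exact hr
    have hp := h.ppos x hxR
    have h1 := (h.g_ge hxR v).trans hv
    have hdet : B.ar r / r ^ (n - 1) = √(mat G x).det := by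
      have := hB.hdet x hxR
      rw [hlen] at this
      rw [← this]
      field_simp
    rw [h.det_g hxR, hdet, Real.sqrt_mul hp.le]
    change -(√(rad X.g x) * √(mat G x).det * ∑ i, v i * nx i x) ≤ _
    set t := ∑ i, v i * nx i x with ht
    have h3 : √(rad X.g x) * |t| ≤ 1 := by
      have : (√(rad X.g x) * |t|) ^ 2 ≤ 1 := by
        rw [mul_pow, Real.sq_sqrt hp.le, sq_abs]; exact h1
      have h0 : 0 ≤ √(rad X.g x) * |t| := by positivity
      nlinarith
    calc -(√(rad X.g x) * √(mat G x).det * t)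
        = √(mat G x).det * (√(rad X.g x) * (-t)) := by ring
      _ ≤ √(mat G x).det * (√(rad X.g x) * |t|) := by
          gcongr
          exact neg_le_abs t
      _ ≤ √(mat G x).det * 1 := by gcongr
      _ = _ := mul_one _
  have h1 := Amin_le_general hn X hR hr hA
  refine h1.trans (le_of_eq ?_)
  rw [Vale.Agent.P366.omega_eq]
  congr 2
  field_simp

end Vale.Agent.T4
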