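import Vale.Agent.P366.T5.DefsW
import Vale.Agent.P366.T4.R68c
import Vale.Agent.P366.T2.MInv

/-! T5, block W3: the round background of a metric with radial area density. -/

open MeasureTheory Metric Filter Topology Set Asymptotics
open scoped ContDiff ENNReal Matrix

noncomputable section
namespace Vale.Agent.T4
open Vale.Agent.P366.Stmt Vale.Agent.P366.T2
open Vale.Agent.P366 (sphI sphM av)

variable {n : ℕ}

/-- Jacobi's formula -/
lemma hasDerivAt_det {A : ℝ → Matrix (Fin n) (Fin n) ℝ} {A' : Matrix (Fin n) (Fin n) ℝ} {t : ℝ}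
    (h : ∀ i j, HasDerivAt (fun s => A s i j) (A' i j) t) :
    HasDerivAt (fun s => (A s).det) (∑ i, ∑ k, (A t).adjugate i k * A' k i) t := by
  have h1 : HasDerivAt (fun s => (A s).det) (∑ σ : Equiv.Perm (Fin n),
      ((Equiv.Perm.sign σ : ℤ) : ℝ) * ∑ i, (∏ j ∈ Finset.univ.erase i, A t (σ j) j) •
        A' (σ i) i) t := by
    have e : (fun s => (A s).det) = fun s => ∑ σ : Equiv.Perm (Fin n),
        ((Equiv.Perm.sign σ : ℤ) : ℝ) * ∏ i, A s (σ i) i := by
      funext s
      rw [Matrix.det_apply']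
    rw [e]
    refine HasDerivAt.fun_sum fun σ _ => ?_
    exact (HasDerivAt.fun_finsetProd (u := Finset.univ) fun i _ => h (σ i) i).const_mul _
  refine h1.congr_deriv ?_
  have h2 : ∀ i, ∑ k, (A t).adjugate i k * A' k i = ((A t).updateCol i (fun k => A' k i)).det := by
    intro i
    rw [← Matrix.cramer_apply, Matrix.cramer_eq_adjugate_mulVec]
    rfl
  simp only [h2, Matrix.det_apply']
  rw [Finset.sum_comm]
  refine Finset.sum_congr rfl fun σ _ => ?_
  rw [Finset.mul_sum]
  refine Finset.sum_congr rfl fun i _ => ?_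
  rw [← Finset.mul_prod_erase Finset.univ _ (Finset.mem_univ i)]
  have h3 : ∏ j ∈ Finset.univ.erase i, (A t).updateCol i (fun k => A' k i) (σ j) j =
      ∏ j ∈ Finset.univ.erase i, A t (σ j) j := by
    refine Finset.prod_congr rfl fun j hj => ?_
    rw [Matrix.updateCol_ne (Finset.ne_of_mem_erase hj)]
  rw [h3, Matrix.updateCol_self, smul_eq_mul, mul_comm (A' (σ i) i)]

/-- the logarithmic derivative of the determinant -/
lemma Lapse.HP_det {G g : Field n} {R : ℝ} (h : Lapse G g R) {x : E n} (hx : R ≤ len x)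
    (i : Fin n) : HP i (fun y => (mat G y).det) (2 * (mat G x).det * Lg G i x) x := by
  have h1 := hasDerivAt_det (A := fun t : ℝ => mat G (x + t • EuclideanSpace.single i 1))
    (A' := Matrix.of fun k l => pd i (fun y => G y k l) x) (t := 0)
    (fun k l => HP.of_contDiffAt (h.Gs k l).contDiffAt i)
  have e : (∑ k, ∑ l, (mat G x).adjugate k l * pd i (fun y => G y l k) x) =
      2 * (mat G x).det * Lg G i x := by
    have hd := h.det_ne hx
    have h2 : ∀ k l, (mat G x).adjugate k l = (mat G x).det * up G k l x := by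
      intro k l
      have h3 : (mat G x)⁻¹ = ((mat G x).det)⁻¹ • (mat G x).adjugate := by
        rw [Matrix.inv_def, Ring.inverse_eq_inv']
      unfold up
      rw [h3, Matrix.smul_apply, smul_eq_mul]
      field_simp
    have h5 : ∑ k, ∑ l, (mat G x).adjugate k l * pd i (fun y => G y l k) x =
        ∑ k, ∑ l, (mat G x).det * (up G k l x * pd i (fun y => G y k l) x) := by
      rw [Finset.sum_comm]
      refine Finset.sum_congr rfl fun k _ => Finset.sum_congr rfl fun l _ => ?_
      rw [h2, h.up_symm hx l k]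
      ring
    rw [h5]
    unfold Lg
    simp only [← Finset.mul_sum]
    ring
  have e0 : (x + (0 : ℝ) • EuclideanSpace.single i (1 : ℝ) : E n) = x := by simp
  simp only [Matrix.of_apply, e0] at h1
  rw [e] at h1
  exact h1

section

variable {G g : Field n} {R : ℝ} (h : Lapse G g R) {d : ℝ → ℝ}
  (hd : ∀ x, R ≤ len x → (mat G x).det = d (len x))
include h hd

lemma d_pos (hn : 1 ≤ n) {r : ℝ} (hr : R ≤ r) : 0 < d r := by
  set e : Fin n → ℝ := _root_.Pi.single ⟨0, by omega⟩ 1 with he_def
  have he : e ⬝ᵥ e = 1 := by simp [he_def]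
  have hl : len (pt e r) = r := by
    rw [len_pt he, abs_of_pos (h.hR.trans_le hr)]
  have h1 := hd (pt e r) (by rw [hl]; exact hr)
  rw [hl] at h1
  rw [← h1]
  exact (h.pos _ (by rw [hl]; exact hr)).det_pos

/-- a smooth function `a` with `a ^ (n - 1) = det G` -/
lemma exists_a (hn : 2 ≤ n) : ∃ a : ℝ → ℝ, ContDiff ℝ ∞ a ∧ (∀ r, R ≤ r → 0 < a r) ∧
    (∀ r, R ≤ r → a r = d r ^ (1 / ((n : ℝ) - 1))) ∧ ∀ r, R ≤ r → a r ^ (n - 1) = d r := by
  set e : Fin n → ℝ := _root_.Pi.single ⟨0, by omega⟩ 1 with he_def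
  have he : e ⬝ᵥ e = 1 := by simp [he_def]
  have hl : ∀ r, R ≤ r → len (pt e r) = r := by
    intro r hr
    rw [len_pt he, abs_of_pos (h.hR.trans_le hr)]
  set D : ℝ → ℝ := fun r => (mat G (pt e r)).det with hD
  have hDs : ContDiff ℝ ∞ D := by
    have := det_smooth (M := fun r => mat G (pt e r))
      (fun i j => Quat.entry_smooth h.Gs e i j)
    exact this
  have hDd : ∀ r, R ≤ r → D r = d r := by
    intro r hr
    have h1 := hd (pt e r) (by rw [hl r hr]; exact hr)
    rw [hl r hr] at h1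
    exact h1
  have hDp : ∀ r, R ≤ r → 0 < D r := fun r hr => by
    rw [hDd r hr]; exact d_pos h hd (by omega) hr
  obtain ⟨a, ha, haD⟩ := exists_smooth_ext (f := fun r => D r ^ (1 / ((n : ℝ) - 1))) (R := R)
    (U := {r | 0 < D r}) (isOpen_lt continuous_const hDs.continuous) (fun r hr => hDp r hr)
    (fun r hr => (hDs.contDiffAt.rpow_const_of_ne (ne_of_gt hr)).contDiffWithinAt)
  have h3 : ((n - 1 : ℕ) : ℝ) = (n : ℝ) - 1 := by
    rw [Nat.cast_sub (by omega)]; push_cast; ring
  have h4 : (n : ℝ) - 1 ≠ 0 := by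
    have : (2 : ℝ) ≤ n := by exact_mod_cast hn
    linarith
  refine ⟨a, ha, fun r hr => ?_, fun r hr => ?_, fun r hr => ?_⟩
  · rw [haD r hr]; exact Real.rpow_pos_of_pos (hDp r hr) _
  · rw [haD r hr, hDd r hr]
  · rw [haD r hr, ← Real.rpow_natCast, ← Real.rpow_mul (hDp r hr).le, h3, one_div,
      inv_mul_cancel₀ h4, Real.rpow_one, hDd r hr]

end

/-- `G` has the density of the round background -/
theorem fits0_of_det (hn : 2 ≤ n) {G g : Field n} {R : ℝ} (h : Lapse G g R) {a : ℝ → ℝ}
    (hsm : ContDiff ℝ ∞ a) (hpos : ∀ r, R ≤ r → 0 < a r)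
    (hd : ∀ x, R ≤ len x → (mat G x).det = a (len x) ^ (n - 1)) :
    (bgR hn a R h.hR hsm hpos).Fits0 G where
  hdet := by
    intro x hx
    have hx' : R ≤ len x := hx
    have hr := h.hR.trans_le hx'
    have ha := hpos _ hx'
    show len x ^ (n - 1) * √(mat G x).det = rR a (len x) ^ (n - 1)
    rw [hd x hx', rR, mul_pow]
    congr 1
    rw [Real.sqrt_eq_iff_mul_self_eq (by positivity) (by positivity), ← mul_pow,
      Real.mul_self_sqrt ha.le]
  hL := by
    intro x hx i
    have hx' : R < len x := hx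
    have hr := (h.hR.trans hx').ne'
    have ha := (hpos _ hx'.le).ne'
    have hx0 := h.ne_zero hx'.le
    show Lg G i x = (rH n a (len x) - ((n : ℝ) - 1) / len x) * nx i x
    have h1 := (h.HP_det hx'.le i).pd
    have h2 : HP i (fun y => (mat G y).det)
        (((n - 1 : ℕ) : ℝ) * a (len x) ^ (n - 1 - 1) * deriv a (len x) / len x * x i) x := by
      have h3 := HP.radial hx0 ((hd1 hsm (len x)).pow (n - 1)) i
      refine h3.congr ?_
      filter_upwards [(isOpen_out R).mem_nhds hx'] with y hy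
      exact hd y (le_of_lt hy)
    rw [h2.pd, hd x hx'.le] at h1
    have h3 : ((n - 1 : ℕ) : ℝ) = (n : ℝ) - 1 := by
      rw [Nat.cast_sub (by omega)]; push_cast; ring
    have h4 : a (len x) ^ (n - 1) = a (len x) ^ (n - 1 - 1) * a (len x) := by
      rw [← pow_succ]; congr 1; omega
    have h5 : a (len x) ^ (n - 1 - 1) ≠ 0 := pow_ne_zero _ ha
    rw [h3, h4] at h1
    have h6 : Lg G i x = ((n : ℝ) - 1) * deriv a (len x) / (2 * a (len x)) * nx i x := by
      unfold nx
      field_simp
      field_simp at h1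
      linarith
    rw [h6]
    unfold rH
    field_simp
    ring

/-- the weight of the round background is exact -/
theorem bgR_lamOK (hn : 2 ≤ n) {a : ℝ → ℝ} {R : ℝ} (hR : 0 < R) (hsm : ContDiff ℝ ∞ a)
    (hpos : ∀ r, R ≤ r → 0 < a r) (G : Field n) : (bgR hn a R hR hsm hpos).LamOK G := by
  intro q _ _
  refine IsBigO.congr' (isBigO_zero _ _) ?_ EventuallyEq.rfl
  filter_upwards [eventually_ge_atTop R] with r hr
  have h0 := (rR_pos (hR.trans_le hr) (hpos r hr)).ne'
  have h2 : (2 : ℝ) ≤ n := by exact_mod_cast hn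
  have h3 : (n : ℝ) - 1 ≠ 0 := by linarith
  rw [Round.rho_eq hn hR hsm hpos hr]
  show (0 : ℝ) = 2 * (((n : ℝ) - 1) / (2 * rR a r)) * rR a r / ((n : ℝ) - 1) - 1
  field_simp
  ring

section

variable {G g : Field n} {R : ℝ} (h : Lapse G g R)
include h

lemma Lapse.ctr_II_G {x : E n} (hx : R < len x) : ctr G (IIf G) G x = H1 G x := by
  rw [← trT_IIf h hx]
  have hx' := hx.le
  unfold ctr trT
  refine Finset.sum_congr rfl fun i _ => Finset.sum_congr rfl fun j _ => ?_
  have h1 : ∀ k, ∑ l, Sm G i k x * Sm G j l x * IIf G x i j * G x k l =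
      IIf G x i j * (Sm G i k x * ((if j = k then 1 else 0) - nx j x * nx k x)) := by
    intro k
    have e : ∀ l, Sm G i k x * Sm G j l x * IIf G x i j * G x k l =
        IIf G x i j * Sm G i k x * (up G j l x * G x l k) -
          IIf G x i j * Sm G i k x * nx j x * (G x k l * nx l x) := by
      intro l
      unfold Sm
      rw [h.symm x hx' k l]
      ring
    simp only [e, Finset.sum_sub_distrib, ← Finset.mul_sum, h.G_nx hx', h.up_G hx']
    ring
  simp only [h1, ← Finset.mul_sum]
  have h2 : ∑ k, Sm G i k x * ((if j = k then 1 else 0) - nx j x * nx k x) = Sm G i j x := by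
    have e : ∀ k, Sm G i k x * ((if j = k then 1 else 0) - nx j x * nx k x) =
        (if j = k then Sm G i k x else 0) - nx j x * (Sm G i k x * nx k x) := by
      intro k; split_ifs <;> ring
    simp only [e, Finset.sum_sub_distrib, ← Finset.mul_sum, h.Sm_nx hx']
    simp
  rw [h2]; ring

lemma Lapse.ctr_G_G {x : E n} (hx : R ≤ len x) : ctr G G G x = (n : ℝ) - 1 := by
  have hx0 := h.ne_zero hx
  unfold ctr
  have h1 : ∀ i j k, ∑ l, Sm G i k x * Sm G j l x * G x i j * G x k l =
      G x i j * (Sm G i k x * ((if j = k then 1 else 0) - nx j x * nx k x)) := by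
    intro i j k
    have e : ∀ l, Sm G i k x * Sm G j l x * G x i j * G x k l =
        G x i j * Sm G i k x * (up G j l x * G x l k) -
          G x i j * Sm G i k x * nx j x * (G x k l * nx l x) := by
      intro l
      unfold Sm
      rw [h.symm x hx k l]
      ring
    simp only [e, Finset.sum_sub_distrib, ← Finset.mul_sum, h.G_nx hx, h.up_G hx]
    ring
  have h2 : ∀ i j, ∑ k, Sm G i k x * ((if j = k then 1 else 0) - nx j x * nx k x) =
      Sm G i j x := by
    intro i j
    have e : ∀ k, Sm G i k x * ((if j = k then 1 else 0) - nx j x * nx k x) =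
        (if j = k then Sm G i k x else 0) - nx j x * (Sm G i k x * nx k x) := by
      intro k; split_ifs <;> ring
    simp only [e, Finset.sum_sub_distrib, ← Finset.mul_sum, h.Sm_nx hx]
    simp
  simp only [h1, ← Finset.mul_sum, h2]
  have h3 : ∀ i, ∑ j, G x i j * Sm G i j x = 1 - nx i x * nx i x := by
    intro i
    have e : ∀ j, G x i j * Sm G i j x = up G i j x * G x j i - nx i x * (G x i j * nx j x) := by
      intro j
      unfold Sm
      rw [h.symm x hx i j]
      ring
    simp only [e, Finset.sum_sub_distrib, ← Finset.mul_sum, h.G_nx hx, h.up_G hx]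
    simp
  simp only [h3, Finset.sum_sub_distrib, sum_nx_mul hx0]
  simp

/-- `H² / (n - 1) ≤ |II|²` -/
lemma Lapse.H1_sq_le (hn : 2 ≤ n) {x : E n} (hx : R < len x) :
    H1 G x ^ 2 / ((n : ℝ) - 1) ≤ ctr G (IIf G) (IIf G) x := by
  have h2 : (2 : ℝ) ≤ n := by exact_mod_cast hn
  have h3 : 0 < (n : ℝ) - 1 := by linarith
  have h1 := h.ctr_comb hx.le (IIf G) G (H1 G x / ((n : ℝ) - 1))
  rw [h.ctr_II_G hx, h.ctr_G_G hx.le] at h1
  have e : ctr G (IIf G) (IIf G) x - 2 * (H1 G x / ((n : ℝ) - 1)) * H1 G x +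
      (H1 G x / ((n : ℝ) - 1)) ^ 2 * ((n : ℝ) - 1) =
      ctr G (IIf G) (IIf G) x - H1 G x ^ 2 / ((n : ℝ) - 1) := by
    field_simp
    ring
  rw [e] at h1
  linarith

end

/-- **Block W3.** A metric with unit lapse, radial area density and leaves whose scalar curvature
has at most the average of the round sphere of the same area realizes a background. -/
theorem fitsW_of_density (hn : 2 ≤ n) {G g : Field n} {R : ℝ} (h : Lapse G g R) {d : ℝ → ℝ}
    (hd : ∀ x, R ≤ len x → (mat G x).det = d (len x))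
    (hc : ∀ r, R < r → av (leafScal G) r ≤
      ((n : ℝ) - 1) * ((n : ℝ) - 2) / (r ^ 2 * d r ^ (1 / ((n : ℝ) - 1)))) :
    ∃ B : Bg n, B.R = R ∧ B.FitsW G ∧ B.LamOK G := by
  obtain ⟨a, hsm, hpos, had, hpow⟩ := exists_a h hd hn
  have hF0 := fits0_of_det hn h hsm hpos (fun x hx => by rw [hd x hx, hpow _ hx])
  refine ⟨bgR hn a R h.hR hsm hpos, rfl, ?_, bgR_lamOK hn h.hR hsm hpos G⟩
  refine { hF0 with hII := fun x hx => ?_, hRh := fun r hr => ?_ }
  · have hx' : R < len x := hx
    have h1 := h.H1_sq_le hn hx'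
    rw [H1_eq0 hF0 hx] at h1
    exact h1
  · have hr' : R < r := hr
    have h1 := hc r hr'
    rw [← had r hr'.le] at h1
    exact h1

end Vale.Agent.T4
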