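import Vale.Agent.P366.T4.Avg
import Vale.Agent.P366.T4.A4

/-!
T5: backgrounds `G = dr² + h(r)` whose leaves need not be homogeneous. Only the area density of
the leaves is radial; the second fundamental form and the (averaged) scalar curvature of the leaves
satisfy inequalities.
-/

open MeasureTheory Metric Filter Topology Set
open scoped ContDiff ENNReal Matrix MatrixOrder

noncomputable section
namespace Vale.Agent.T4
open Vale.Agent.P366.Stmt Vale.Agent.P366.T2
open Vale.Agent.P366 (sphI sphM av)

variable {n : ℕ}

/-- The scalar curvature of the centred sphere through `x` in the metric induced by `G` (`G` with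
unit lapse), by the Gauss equation and the Riccati equation for the mean curvature. -/
def leafScal (G : Field n) (x : E n) : ℝ :=
  scal G x + ctr G (IIf G) (IIf G) x + H1 G x ^ 2 + 2 * dN (H1 G) x

/-- The background `B` is realized by `G` up to inequalities for the second fundamental form and
for the average of the scalar curvature of the leaves. -/
structure Bg.FitsW (B : Bg n) (G : Field n) : Prop extends B.Fits0 G where
  hII : ∀ x, B.R < len x → B.II2 (len x) ≤ ctr G (IIf G) (IIf G) x
  hRh : ∀ r, B.R < r → av (leafScal G) r ≤ B.Rh r

lemma H1_eq0 {B : Bg n} {G : Field n} (hF : B.Fits0 G) {x : E n} (hx : B.R < len x) :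
    H1 G x = B.H (len x) := by
  have hx0 := ne_zero_of_len B.hR hx.le
  unfold H1
  simp only [hF.hL x hx]
  have : ∀ i, nx i x * ((B.H (len x) - ((n : ℝ) - 1) / len x) * nx i x) =
      (B.H (len x) - ((n : ℝ) - 1) / len x) * (nx i x * nx i x) := fun i => by ring
  simp only [this, ← Finset.mul_sum, sum_nx_mul hx0]
  ring

lemma dN_H10 {B : Bg n} {G : Field n} (hF : B.Fits0 G) {x : E n} (hx : B.R < len x) :
    dN (H1 G) x = deriv B.H (len x) := by
  refine dN_radial (ne_zero_of_len B.hR hx.le) (B.H_diff _ hx.le) ?_
  filter_upwards [(isOpen_out B.R).mem_nhds hx] with y hy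
  exact H1_eq0 hF hy

end Vale.Agent.T4
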