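import Vale.Agent.P366.T4.E919e
import Vale.Agent.P366.T4.StE919
import Vale.Agent.P366.T4.Touch92
import Vale.Agent.P366.T4.Area92
import Vale.Agent.P366.T5.DefsW

/-! T5, block W1: the limit of the mass function, the touching argument and the minimal area for
metrics with a radial area density. -/

open MeasureTheory Metric Filter Topology Set Asymptotics
open scoped ContDiff ENNReal Matrix

noncomputable section
namespace Vale.Agent.T4
open Vale.Agent.P366.Stmt Vale.Agent.P366.T2
open Vale.Agent.P366.T1.A919 (far far_iff far_of far_gt far_nhds O O_iff O_of_bigO O_const O_zero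
  O_of_le O_inv_mat tail_bound)
open Vale.Agent.P366.T2.E68 (O1 O2 O0)
open Vale.Agent.P366 (sphI sphM av norm_smul_sph integrable_sph isOpen_outside sphI_congr
  sphI_add sphI_sub sphI_const_mul sphI_const omega_pos')
open Vale.Agent.C92 (pd_congr_outside pd_mul pd_sum pd_len pd_pd_len trS_def outside_nonneg
  theta_compare)

variable {n : ℕ}

section

variable {G g K : Field n} {R q : ℝ}

namespace Lapse

variable (h : Lapse G g R)
include h

/-- `H - (n - 1) / r` and the radial derivative of the trace -/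
lemma H_trF (hq : 0 < q) (D : Dec g q) {B : Bg n} (hB : B.Fits0 G) :
    O (q + q + 1) (fun x => (B.H (len x) - ((n : ℝ) - 1) / len x) -
      1 / 2 * dN (fun y => ∑ i, G y i i) x) := by
  have h1 : O (q + q + 1) (fun x => 1 / 2 * ∑ i, nx i x * ∑ k, ∑ l,
      (up G k l x - if k = l then 1 else 0) * pd i (fun y => G y k l) x) := by
    refine O.const_mul _ (O.sum fun i _ => ?_)
    refine (O_nx i).mul' (q := q + q + 1) (O.sum fun k _ => O.sum fun l _ => ?_) (by linarith)
    exact (h.up0 hq D k l).mul' ((h.dec D).g1 k l i) (by linarith)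
  refine h1.congr ?_
  filter_upwards [far_gt (n := n) B.R, far_ne (n := n)] with x hx hx0
  have e1 : ∑ i, nx i x * Lg G i x = B.H (len x) - ((n : ℝ) - 1) / len x := by
    have : ∀ i, nx i x * Lg G i x = (B.H (len x) - ((n : ℝ) - 1) / len x) * (nx i x * nx i x) := by
      intro i; rw [hB.hL x hx i]; ring
    simp only [this, ← Finset.mul_sum, sum_nx_mul hx0, mul_one]
  rw [← e1]
  unfold dN
  simp only [(h.HP_trG _).pd]
  unfold Lg
  simp only [Finset.mul_sum, ← Finset.sum_sub_distrib]
  refine Finset.sum_congr rfl fun i _ => Finset.sum_congr rfl fun k _ => ?_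
  have e2 : 1 / 2 * (nx i x * pd i (fun y => G y k k) x) =
      ∑ l, 1 / 2 * (nx i x * ((if k = l then 1 else 0) * pd i (fun y => G y k l) x)) := by
    simp
  rw [e2, ← Finset.sum_sub_distrib]
  refine Finset.sum_congr rfl fun l _ => ?_
  ring

lemma ld_limF (hq : 0 < q) (D : Dec g q) {B : Bg n} (hB : B.Fits0 G) (θ : sphere (0 : E n) 1) :
    Tendsto B.ld atTop (𝓝 0) := by
  have h1 := h.det_lim hq D θ
  have h2 : Tendsto (fun s : ℝ => Real.log (√(mat G (s • (θ : E n))).det)) atTop (𝓝 0) := by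
    have := (Real.continuousAt_log (x := √1) (by simp)).tendsto.comp (h1.sqrt)
    simpa [Function.comp_def] using this
  refine h2.congr' ?_
  filter_upwards [eventually_ge_atTop B.R, eventually_gt_atTop 0] with s hs hs0
  have h3 := hB.hdet (s • (θ : E n)) (by unfold len; rw [norm_smul_sph hs0.le]; exact hs)
  unfold len at h3
  rw [norm_smul_sph hs0.le] at h3
  unfold Bg.ld
  rw [← h3]
  congr 1
  field_simp

/-- **the volume density of the background** -/
lemma ld_trF (hn : 1 ≤ n) (hq : 0 < q) (D : Dec g q) {B : Bg n} (hB : B.Fits0 G) :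
    O (q + q) (fun x => B.ld (len x) - 1 / 2 * (trG G x - n)) := by
  have h1 := h.H_trF hq D hB
  obtain ⟨C, R0, hC, hR0, hb⟩ := O_iff.mp h1
  refine O.of_bound (C := C / (q + q)) ?_
  refine far_of (max R0 B.R) fun x hx => ?_
  have hx1 : R0 < ‖x‖ := (le_max_left _ _).trans_lt hx
  have hx2 : B.R < ‖x‖ := (le_max_right _ _).trans_lt hx
  have hx0 : 0 < ‖x‖ := by linarith
  let θ : sphere (0 : E n) 1 := ⟨‖x‖⁻¹ • x, by
    rw [mem_sphere_zero_iff_norm, norm_smul, norm_inv, norm_norm, inv_mul_cancel₀ hx0.ne']⟩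
  have hθ : ‖x‖ • (θ : E n) = x := by
    show ‖x‖ • (‖x‖⁻¹ • x) = x
    rw [smul_inv_smul₀ hx0.ne']
  have key := tail_bound (φ := fun s => B.ld s - 1 / 2 * (trG G (s • (θ : E n)) - n))
    (φ' := fun s => (B.H s - ((n : ℝ) - 1) / s) - 1 / 2 * dN (trG G) (s • (θ : E n)))
    (ρ := ‖x‖) (B := C) (q := q + q) hx0 (by linarith) ?_ ?_ ?_
  · simp only [hθ] at key
    exact key
  · intro s hs
    have hs1 : B.R < s := hx2.trans_le hs
    have hs0 : 0 < s := hx0.trans_le hs
    have a1 := (((h.ray_tr θ hs0).sub_const (n : ℝ))).const_mul (1 / 2)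
    exact (B.ld_hasDerivAt hn hs1).sub a1
  · intro s hs
    have hs0 : 0 < s := hx0.trans_le hs
    have a1 := hb (s • (θ : E n)) (by rw [norm_smul_sph hs0.le]; exact hx1.trans_le hs)
    unfold len at a1
    rw [norm_smul_sph hs0.le] at a1
    exact a1
  · have a1 := h.ld_limF hq D hB θ
    have a2 := (((h.trG0 D).tendsto hq).comp (far_ray θ)).const_mul (1 / 2)
    have a3 := a1.sub a2
    simpa [Function.comp_def] using a3

lemma ld0F (hn : 1 ≤ n) (hq : 0 < q) (D : Dec g q) {B : Bg n} (hB : B.Fits0 G) :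
    O q (fun x : E n => B.ld (len x)) := by
  have h1 : O q (fun x => (B.ld (len x) - 1 / 2 * (trG G x - n)) + 1 / 2 * (trG G x - n)) :=
    ((h.ld_trF hn hq D hB).mono (by linarith)).add ((h.trG0 D).const_mul _)
  exact h1.congr (Eventually.of_forall fun x => by ring)

/-- `y = r H - (n - 1)` -/
lemma yy_trF (hq : 0 < q) (D : Dec g q) {B : Bg n} (hB : B.Fits0 G) :
    O (q + q) (fun x => (len x * B.H (len x) - ((n : ℝ) - 1)) -
      1 / 2 * (len x * dN (trG G) x)) := by
  have h1 := O_len_mul (r := q + q) (h.H_trF hq D hB) (by linarith)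
  refine h1.congr ?_
  filter_upwards [far_gt (n := n) 0] with x hx
  have hl : len x ≠ 0 := hx.ne'
  unfold trG
  field_simp

lemma yy0F (hq : 0 < q) (D : Dec g q) {B : Bg n} (hB : B.Fits0 G) :
    O q (fun x : E n => len x * B.H (len x) - ((n : ℝ) - 1)) := by
  have h1 : O q (fun x : E n => len x * dN (trG G) x) :=
    O_len_mul (r := q) (h.dN_trG D) (by linarith)
  have h2 : O q (fun x => ((len x * B.H (len x) - ((n : ℝ) - 1)) -
      1 / 2 * (len x * dN (trG G) x)) + 1 / 2 * (len x * dN (trG G) x)) :=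
    ((h.yy_trF hq D hB).mono (by linarith)).add (h1.const_mul _)
  exact h2.congr (Eventually.of_forall fun x => by ring)

end Lapse

/-- **Block E.** -/
theorem mass_limF (hn : 3 ≤ n) {X : Exterior n} {B : Bg n} (h : Lapse G X.g B.R) (hB : B.Fits0 G)
    (hq : (n : ℝ) / 2 - 1 < q) (hAF : AFq X q) {m : ℝ} (hm : X.IsEnergy m)
    (hlam : O2 q fun r => 2 * B.lam r * B.rho r / ((n : ℝ) - 1) - 1) {κ : ℝ → ℝ}
    (hκ : ∀ x, B.R ≤ len x → √(rad X.g x) * trT G X.K x = κ (len x)) :
    Tendsto (fun r => B.rho r ^ ((n : ℝ) - 2) *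
      (1 - Vav X.g r * (B.H r ^ 2 - κ r ^ 2) / (4 * B.lam r ^ 2))) atTop (𝓝 (2 * m)) ∧
    ∀ᶠ r in atTop, |κ r| < B.H r := by
  have hn3 : (3 : ℝ) ≤ n := by exact_mod_cast hn
  have hn1 : 1 ≤ n := by omega
  have : Nonempty (Fin n) := ⟨⟨0, by omega⟩⟩
  have : Nontrivial (E n) := inferInstance
  have hq0 : 0 < q := by linarith
  have hω : 0 < Vale.Agent.P366.omega n := omega_pos'
  have i0 : Fin n := ⟨0, by omega⟩
  have D : Dec X.g q := ⟨fun i j => O_of_bigO (hAF i j i0 i0).1,
    fun i j k => O_of_bigO (hAF i j k i0).2.1⟩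
  have hK : ∀ i j, O (q + 1) (fun x => X.K x i j) := fun i j =>
    O_of_bigO (hAF i j i0 i0).2.2.2.1
  set N : ℝ := (n : ℝ) - 1 with hN
  have hN0 : 0 < N := by linarith
  -- the functions
  have hl : O1 q B.ld := O1_of_O hn1 (h.ld0F hn1 hq0 D hB)
  have hy : O1 q (fun r => r * B.H r - N) := O1_of_O hn1 (h.yy0F hq0 D hB)
  have ha : O1 q (fun r => av (fun x => rad X.g x - 1) r) := av_O D.p0
  -- the average of `1 / p`
  have hvi : O q (fun x => (rad X.g x)⁻¹ - 1) := D.p0.inv hq0
  have hcr : ContinuousOn (fun x => rad X.g x - 1) {x : E n | B.R < ‖x‖} :=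
    (cont_rad h.gs h.hR.le).sub continuousOn_const
  have hV : O2 q fun r => Vav X.g r - 1 + av (fun x => rad X.g x - 1) r := by
    rw [O2_iff]
    have h1 : O (q + q) (fun x => (rad X.g x - 1) * (rad X.g x - 1) * (rad X.g x)⁻¹) :=
      (D.p0.mul D.p0).mul' (hvi.bdd hq0.le) (by linarith)
    have h2 : O (q + q) (fun x => (1 / rad X.g x - 1) + (rad X.g x - 1)) := by
      refine h1.congr ?_
      filter_upwards [far_gt (n := n) B.R] with x hx
      have := (h.ppos x hx.le).ne'
      field_simp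
      ring
    refine (av_O h2).congr' ?_ EventuallyEq.rfl
    filter_upwards [eventually_gt_atTop B.R] with r hr
    have hcv : ContinuousOn (fun x => 1 / rad X.g x) {x : E n | B.R < ‖x‖} :=
      h.contDiffOn_v.continuousOn
    have e1 := sphI_add (u := fun x => 1 / rad X.g x - 1) (v := fun x => rad X.g x - 1)
      h.hR.le hr (hcv.sub continuousOn_const) hcr
    have e2 := sphI_sub (u := fun x => 1 / rad X.g x) (v := fun _ => (1 : ℝ))
      h.hR.le hr hcv continuousOn_const
    unfold Vav av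
    rw [e1, e2, sphI_const]
    field_simp
  -- the trace of `K`
  have hk : O1 q (fun r => r * κ r) := by
    refine O1_of_O hn1 (O_len_mul (p := q + 1) (f := fun x : E n => κ (len x)) ?_ (by linarith))
    have h1 : O (q + 1) (fun x => √(rad X.g x) * trT G X.K x) :=
      ((D.p0.sqrt).bdd hq0.le).mul' (h.trK0 hq0 D hK) (by linarith)
    refine h1.congr ?_
    filter_upwards [far_gt (n := n) B.R] with x hx
    exact hκ x hx.le
  -- the energy
  have hF : O (q + q) (fun x => 2 * len x * eden X.g x - N * (rad X.g x - 1) +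
      (2 * B.ld (len x) + 2 * (len x * B.H (len x) - N))) := by
    have h1 : O (q + q) (fun x => 2 * (B.ld (len x) - 1 / 2 * (trG G x - n)) +
        2 * ((len x * B.H (len x) - N) - 1 / 2 * (len x * dN (trG G) x))) :=
      ((h.ld_trF hn1 hq0 D hB).const_mul 2).add ((h.yy_trF hq0 D hB).const_mul 2)
    refine h1.congr ?_
    filter_upwards [far_gt (n := n) B.R] with x hx
    rw [h.eden_eq hx]
    ring
  have hFav : (fun r => r * (2 * av (eden X.g) r) - N * av (fun x => rad X.g x - 1) r +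
      (2 * B.ld r + 2 * (r * B.H r - N))) =O[atTop] fun r : ℝ => r ^ (-(q + q)) := by
    refine (av_O hF).congr' ?_ EventuallyEq.rfl
    filter_upwards [eventually_gt_atTop B.R] with r hr
    have hr0 : 0 < r := h.hR.trans hr
    have e1 : sphI (fun x => 2 * len x * eden X.g x - N * (rad X.g x - 1) +
        (2 * B.ld (len x) + 2 * (len x * B.H (len x) - N))) r =
        sphI (fun x => 2 * r * eden X.g x - N * (rad X.g x - 1) +
        (2 * B.ld r + 2 * (r * B.H r - N))) r :=
      sphI_congr hr0.le fun x hx => by unfold len; rw [hx]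
    have hce := cont_eden h.gs h.hR.le
    have e2 := sphI_add (u := fun x => 2 * r * eden X.g x - N * (rad X.g x - 1))
      (v := fun _ => 2 * B.ld r + 2 * (r * B.H r - N)) h.hR.le hr
      ((continuousOn_const.mul hce).sub (continuousOn_const.mul hcr)) continuousOn_const
    have e3 := sphI_sub (u := fun x => 2 * r * eden X.g x) (v := fun x => N * (rad X.g x - 1))
      h.hR.le hr (continuousOn_const.mul hce) (continuousOn_const.mul hcr)
    unfold av
    rw [e1, e2, e3, sphI_const, sphI_const_mul, sphI_const_mul]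
    field_simp
  have hflx : Tendsto (fun r : ℝ => r ^ (N - 1) * (r * (2 * av (eden X.g) r))) atTop
      (𝓝 (2 * N * m)) := by
    refine (hm.const_mul (2 * N)).congr' ?_
    filter_upwards [eventually_gt_atTop 0] with r hr
    rw [Vale.Agent.P366.flx_eq]
    have e1 : Vale.Agent.P366.sphInt r (fun x => ∑ i, (∑ j, (pd j (fun y => X.g y i j) x -
        pd i (fun y => X.g y j j) x)) / 2 * (x i / ‖x‖)) = r ^ (n - 1) * sphI (eden X.g) r := rfl
    rw [e1]
    unfold av
    have e2 : r ^ (n - 1) = r ^ (N - 1) * r := by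
      rw [← Real.rpow_natCast, ← Real.rpow_add_one hr.ne']
      congr 1
      rw [Nat.cast_sub hn1, hN]
      push_cast
      ring
    rw [e2, ← hN]
    field_simp
  have hE : Tendsto (fun r : ℝ => r ^ (N - 1) * (N * av (fun x => rad X.g x - 1) r -
      2 * B.ld r - 2 * (r * B.H r - N))) atTop (𝓝 (2 * N * m)) := by
    have h1 : Tendsto (fun r : ℝ => r ^ (N - 1) * (r * (2 * av (eden X.g) r) -
        N * av (fun x => rad X.g x - 1) r + (2 * B.ld r + 2 * (r * B.H r - N)))) atTop
        (𝓝 0) := by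
      have h2 := IsBigO.mul (isBigO_refl (fun r : ℝ => r ^ (N - 1)) atTop) hFav
      refine h2.trans_tendsto ?_
      have h3 : Tendsto (fun r : ℝ => r ^ (-(2 * q - (N - 1)))) atTop (𝓝 0) :=
        tendsto_rpow_neg_atTop (by linarith)
      refine h3.congr' ?_
      filter_upwards [eventually_gt_atTop 0] with r hr
      rw [← Real.rpow_add hr]
      congr 1
      ring
    have h4 := hflx.sub h1
    rw [sub_zero] at h4
    refine h4.congr fun r => ?_
    ring
  refine mass_abs2 (N := N) (q := q) (m := m) (ℓ := B.ld) (y := fun r => r * B.H r - N)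
    (V := Vav X.g) (a := fun r => av (fun x => rad X.g x - 1) r)
    (w := fun r => 2 * B.lam r * B.rho r / N) (k := fun r => r * κ r) (ρ := B.rho) (H := B.H)
    (lam := B.lam) (κ := κ) hN0 hq0 (by linarith) hl hy ha hV hlam hk hE ?_ ?_
    (Eventually.of_forall fun r => rfl) (Eventually.of_forall fun r => rfl) ?_
  · filter_upwards [eventually_ge_atTop B.R, eventually_gt_atTop 0] with r hr hr0
    have har := B.ar_pos r hr
    have e1 : B.ar r = Real.exp (B.ld r) * r ^ N := by
      unfold Bg.ld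
      rw [Real.exp_log (by positivity)]
      have e2 : r ^ N = r ^ (n - 1) := by
        rw [← Real.rpow_natCast]
        congr 1
        rw [Nat.cast_sub hn1, hN]
        push_cast
        ring
      rw [e2]
      field_simp
    unfold Bg.rho
    rw [e1, Real.mul_rpow (Real.exp_pos _).le (by positivity), ← Real.rpow_mul hr0.le,
      ← Real.exp_mul]
    have e3 : N * (1 / ((n : ℝ) - 1)) = 1 := by
      rw [← hN]; field_simp
    rw [e3, Real.rpow_one, mul_comm]
    congr 2
    rw [← hN]; ring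
  · filter_upwards [eventually_gt_atTop 0] with r hr
    field_simp
    ring
  · refine Eventually.of_forall fun r => ?_
    have e : N - 1 = (n : ℝ) - 2 := by rw [hN]; ring
    rw [e]

end

theorem H1_eq_bdF {G g : Field n} {B : Bg n} (h : Lapse G g B.R) (hB : B.Fits0 G) {x : E n}
    (hx : B.R ≤ len x) : H1 G x = B.H (len x) := by
  have h0 := h.ne_zero hx
  have hr : 0 < len x := h.len_pos hx
  have key : ∀ y : E n, B.R < len y → H1 G y = B.H (len y) := by
    intro y hy
    unfold H1
    have e : ∀ i, nx i y * Lg G i y = (B.H (len y) - ((n : ℝ) - 1) / len y) *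
        (nx i y * nx i y) := by
      intro i; rw [hB.hL y hy]; ring
    simp only [e, ← Finset.mul_sum, sum_nx_mul (h.ne_zero hy.le)]
    ring
  rcases hx.lt_or_eq with hlt | heq
  · exact key x hlt
  · -- approach along the ray
    have hl : ∀ t : ℝ, 0 < t → len ((1 + t) • x) = (1 + t) * len x := by
      intro t ht
      unfold len
      rw [norm_smul, Real.norm_eq_abs, abs_of_pos (by linarith)]
    have hc : Tendsto (fun t : ℝ => (1 + t) • x) (𝓝 0) (𝓝 x) := by
      have h1 : ContinuousAt (fun t : ℝ => (1 + t) • x) 0 := by fun_prop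
      have h2 := h1.tendsto
      simpa using h2
    have h1 : Tendsto (fun t : ℝ => H1 G ((1 + t) • x)) (𝓝[>] 0) (𝓝 (H1 G x)) :=
      ((h.cont_H1 hx).tendsto.comp hc).mono_left nhdsWithin_le_nhds
    have h5 : Tendsto (fun t : ℝ => B.H ((1 + t) * len x)) (𝓝[>] 0) (𝓝 (B.H (len x))) := by
      have h6 : ContinuousAt B.H (len x) := (B.H_diff _ hx).continuousAt
      have h7 : Tendsto (fun t : ℝ => (1 + t) * len x) (𝓝 0) (𝓝 (len x)) := by
        have h8 : ContinuousAt (fun t : ℝ => (1 + t) * len x) 0 := by fun_prop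
        have h9 := h8.tendsto
        simpa using h9
      exact (h6.tendsto.comp h7).mono_left nhdsWithin_le_nhds
    have h10 : (fun t : ℝ => H1 G ((1 + t) • x)) =ᶠ[𝓝[>] 0]
        fun t : ℝ => B.H ((1 + t) * len x) := by
      filter_upwards [self_mem_nhdsWithin] with t ht
      have ht' : 0 < t := ht
      rw [key _ (by rw [hl t ht', ← heq]; nlinarith [B.hR]), hl t ht']
    exact tendsto_nhds_unique (h1.congr' h10) h5

/-- **[touchF]** -/
theorem touchF (hn : 2 ≤ n) {X : Exterior n} {G : Field n} {B : Bg n} (h : Lapse G X.g B.R)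
    (hB : B.Fits0 G) {κ : ℝ → ℝ}
    (hκ : ∀ x, B.R ≤ len x → √(rad X.g x) * trT G X.K x = κ (len x)) (hT : X.Trapped)
    (hR : IsGreatest {r | ∃ x, X.F x = 0 ∧ len x = r} B.R) : B.H B.R + κ B.R ≤ 0 := by
  have hout := outside_nonneg hn X hR
  obtain ⟨x0, hF0, hx0⟩ := hR.1
  have h1 := theta_compare (g := X.g) (K := X.K) X.dom.1 B.hR hx0
    (X.pos x0 hF0.ge) (X.dom.2.1 x0 hF0) (fun x hx => by rw [hF0]; exact hout x hx)
  have h2 := h1.trans (hT x0 hF0)
  have hp := h.ppos x0 hx0.ge
  have hs : 0 < √(rad X.g x0) := Real.sqrt_pos.2 hp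
  rw [h.theta_len hx0.ge, H1_eq_bdF h hB hx0.ge] at h2
  have h3 := hκ x0 hx0.ge
  rw [hx0] at h2 h3
  rw [← h3]
  have h4 : √(rad X.g x0) * (B.H B.R / √(rad X.g x0) + trT G X.K x0) ≤ 0 :=
    mul_nonpos_of_nonneg_of_nonpos hs.le h2
  have h5 : √(rad X.g x0) * (B.H B.R / √(rad X.g x0) + trT G X.K x0) =
      B.H B.R + √(rad X.g x0) * trT G X.K x0 := by
    field_simp
  rw [h5] at h4
  exact h4

/-- **[areaF]** -/
theorem areaF (hn : 2 ≤ n) {X : Exterior n} {G : Field n} {B : Bg n} (h : Lapse G X.g B.R)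
    (hB : B.Fits0 G) (hR : IsGreatest {r | ∃ x, X.F x = 0 ∧ len x = r} B.R) {r : ℝ}
    (hr : B.R ≤ r) : X.Amin ≤ ENNReal.ofReal (omega n * B.ar r) := by
  have hr0 : 0 < r := B.hR.trans_le hr
  have hA : ∀ x : E n, ‖x‖ = r → ∀ v : Fin n → ℝ, ∑ i, ∑ j, X.g x i j * v i * v j ≤ 1 →
      -(√((mat X.g x).det) * ∑ i, v i * (x i / ‖x‖)) ≤ B.ar r / r ^ (n - 1) := by
    intro x hx v hv
    have hlen : len x = r := hx
    have hxR : B.R ≤ len x := by rw [hlen]; exact hr
    have hp := h.ppos x hxR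
    have h1 := (h.g_ge hxR v).trans hv
    have hdet : B.ar r / r ^ (n - 1) = √(mat G x).det := by
      have := hB.hdet x hxR
      rw [hlen] at this
      rw [← this]
      field_simp
    rw [h.det_g hxR, hdet, Real.sqrt_mul hp.le]
    change -(√(rad X.g x) * √(mat G x).det * ∑ i, v i * nx i x) ≤ _
    set t := ∑ i, v i * nx i x with ht
    have h3 : √(rad X.g x) * |t| ≤ 1 := by
      have : (√(rad X.g x) * |t|) ^ 2 ≤ 1 := by
        rw [mul_pow, Real.sq_sqrt hp.le, sq_abs]; exact h1
      have h0 : 0 ≤ √(rad X.g x) * |t| := by positivity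
      nlinarith
    calc -(√(rad X.g x) * √(mat G x).det * t)
        = √(mat G x).det * (√(rad X.g x) * (-t)) := by ring
      _ ≤ √(mat G x).det * (√(rad X.g x) * |t|) := by
          gcongr
          exact neg_le_abs t
      _ ≤ √(mat G x).det * 1 := by gcongr
      _ = _ := mul_one _
  have h1 := Amin_le_general hn X hR hr hA
  refine h1.trans (le_of_eq ?_)
  rw [Vale.Agent.P366.omega_eq]
  congr 2
  field_simp

/-- **Block E.** -/
theorem stEF (hn : 3 ≤ n) {X : Exterior n} {B : Bg n} {G : Field n} (h : Lapse G X.g B.R)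
    (hB : B.Fits0 G) (hL : B.LamOK G) (hAF : X.IsAF) {m : ℝ} (hm : X.IsEnergy m) {κ : ℝ → ℝ}
    (hκ : ∀ x, B.R ≤ len x → √(rad X.g x) * trT G X.K x = κ (len x)) :
    Tendsto (fun r => B.rho r ^ ((n : ℝ) - 2) *
      (1 - Vav X.g r * (B.H r ^ 2 - κ r ^ 2) / (4 * B.lam r ^ 2))) atTop (𝓝 (2 * m)) ∧
    ∀ᶠ r in atTop, |κ r| < B.H r := by
  obtain ⟨q, hq, hAFq⟩ := hAF
  have hn3 : (3 : ℝ) ≤ n := by exact_mod_cast hn
  have i0 : Fin n := ⟨0, by omega⟩
  have h1 : AF1 q X.g := ⟨fun i j => (hAFq i j i0 i0).1, fun i j k => (hAFq i j k i0).2.1⟩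
  exact mass_limF hn h hB hq hAFq hm (hL q (by linarith) (AF1_of_lapse h h1)) hκ

end Vale.Agent.T4
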