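import Vale.Agent.P366.T5.AvgW
import Vale.Agent.P366.T5.W1
import Vale.Agent.P366.T5.W3
import Vale.Agent.P366.T4.StA765

/-! T5: assembly. -/

open MeasureTheory Metric Filter Topology Set
open scoped ContDiff ENNReal Matrix

noncomputable section
namespace Vale.Agent.T4
open Vale.Agent.P366.Stmt
open Vale.Agent.P366 (sphI sphM av norm_smul_sph integrable_sph sphI_congr sphI_continuousOn)

variable {n : ℕ}

/-- **The Penrose inequality for an arbitrary lapse over a background whose leaves need not be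
homogeneous.** -/
theorem penroseW (hn : 3 ≤ n) {X : Exterior n} {G : Field n}
    {B : Bg n} (h : Lapse G X.g B.R) (hB : B.FitsW G) (hL : B.LamOK G) (hAF : X.IsAF)
    (hDEC : X.DEC) (hT : X.Trapped) {m : ℝ} (hm : X.IsEnergy m)
    (hR : IsGreatest {r | ∃ x, X.F x = 0 ∧ len x = r} B.R) {κ : ℝ → ℝ}
    (hκ : ∀ x, B.R ≤ len x → √(rad X.g x) * trT G X.K x = κ (len x)) :
    X.Amin ≠ ⊤ ∧ 0 < m ∧
      (X.Amin.toReal / omega n) ^ (((n : ℝ) - 2) / (n - 1)) / 2 ≤ m := by
  have : Nonempty (Fin n) := ⟨⟨0, by omega⟩⟩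
  have : Nontrivial (E n) := inferInstance
  have hout := Vale.Agent.C92.outside_nonneg (by omega) X hR
  have hKsm := fun i j => (X.smooth i j).2
  obtain ⟨hlim, hinf⟩ := stEF hn h hB.toFits0 hL hAF hm hκ
  obtain ⟨r, hr, hle⟩ := B.key hn (V := Vav X.g) (V' := Vav' X.g) (kap := κ)
    (fun r hr => Vav_pos h hr) (Vav_continuousOn h) (fun r hr => Vav_hasDerivAt h hr)
    (kap_continuousOn (by omega) h hKsm hκ)
    (fun r hr => kap_differentiableAt (by omega) h hKsm hκ hr)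
    (fun r hr hlt => avg_ineqW (stA n) (stB n) h hB hKsm (fun x _ i j => (X.symm x i j).2) hκ hr
      (kap_differentiableAt (by omega) h hKsm hκ hr)
      (fun x hx => hDEC x (hout x hx.le)) hlt)
    (touchF (by omega) h hB.toFits0 hκ hT hR) hinf hlim
  have hρ := B.rho_pos hr
  have hn1 : (n : ℝ) - 1 ≠ 0 := by
    have : (3 : ℝ) ≤ n := by exact_mod_cast hn
    linarith
  have e : B.rho r ^ ((n : ℝ) - 1) = B.ar r := by
    unfold Bg.rho
    rw [← Real.rpow_mul (B.ar_pos r hr).le, one_div, inv_mul_cancel₀ hn1, Real.rpow_one]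
  have hAm : X.Amin ≤ ENNReal.ofReal (omega n * B.rho r ^ ((n : ℝ) - 1)) := by
    rw [e]
    exact areaF (by omega) h hB.toFits0 hR hr
  obtain ⟨h1, h2, h3⟩ := Vale.Agent.P366.T2.conclude hn (P := fun _ : Fin n => 0) rfl hρ hAm hle
  simp only [ne_eq, OfNat.ofNat_ne_zero, not_false_eq_true, zero_pow, Finset.sum_const_zero,
    Real.sqrt_zero, sub_zero] at h2 h3
  rw [Real.sqrt_sq h2.le] at h3
  exact ⟨h1, h2, h3⟩

/-- The same for a metric with unit lapse and radial area density whose leaves have on average at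
most the scalar curvature of the round sphere of the same area. -/
theorem penrose_density0 (hn : 3 ≤ n) {X : Exterior n} {G : Field n} {R : ℝ}
    (h : Lapse G X.g R) {d : ℝ → ℝ} (hd : ∀ x, R ≤ len x → (mat G x).det = d (len x))
    (hc : ∀ r, R < r → av (leafScal G) r ≤
      ((n : ℝ) - 1) * ((n : ℝ) - 2) / (r ^ 2 * d r ^ (1 / ((n : ℝ) - 1))))
    (hAF : X.IsAF) (hDEC : X.DEC) (hT : X.Trapped) {m : ℝ} (hm : X.IsEnergy m)
    (hR : IsGreatest {r | ∃ x, X.F x = 0 ∧ len x = r} R) {κ : ℝ → ℝ}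
    (hκ : ∀ x, R ≤ len x → √(rad X.g x) * trT G X.K x = κ (len x)) :
    X.Amin ≠ ⊤ ∧ 0 < m ∧
      (X.Amin.toReal / omega n) ^ (((n : ℝ) - 2) / (n - 1)) / 2 ≤ m := by
  obtain ⟨B, rfl, hB, hL⟩ := fitsW_of_density (by omega) h hd hc
  exact penroseW hn h hB hL hAF hDEC hT hm hR hκ

end Vale.Agent.T4
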