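import Vale.Agent.P366.T5.PointW

/-! T5: sphere averages for leaves which need not be homogeneous. -/

open MeasureTheory Metric Filter Topology Set
open scoped ContDiff ENNReal Matrix

noncomputable section
namespace Vale.Agent.T4
open Vale.Agent.P366.Stmt Vale.Agent.P366.T2
open Vale.Agent.P366 (sphI sphM av flux dvg norm_smul_sph integrable_sph sphI_hasDerivAt
  flux_hasDerivAt isOpen_outside sphI_congr sphI_continuousOn)

variable {n : ℕ}

namespace Lapse

variable {G g : Field n} {R : ℝ} (h : Lapse G g R)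
include h

lemma contOn_scal : ContinuousOn (scal G) {x : E n | R < ‖x‖} := by
  intro x hx
  have hx' : R < len x := hx
  have hev : scal G =ᶠ[𝓝 x] fun x => ∑ k, pd k (Vg G k) x -
      ∑ i, ∑ j, up G i j x * pd j (Lg G i) x + ∑ l, Lg G l x * Vg G l x -
      (1 / 2) * ((∑ k, ∑ l, up G k l x * ∑ i, ∑ j, pd k (up G i j) x *
        pd i (fun y => G y j l) x) -
      (1 / 2) * ∑ k, ∑ l, up G k l x * ∑ i, ∑ j, pd k (up G i j) x *
        pd l (fun y => G y i j) x) := by
    filter_upwards [(isOpen_out R).mem_nhds hx'] with y hy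
    exact scal_div (isOpen_out R) h.Gs (fun y hy i j => h.symm y (le_of_lt hy) i j)
      (fun y hy => (h.pos y (le_of_lt hy)).det_pos.ne') hy
  refine (ContinuousAt.congr_of_eventuallyEq ?_ hev).continuousWithinAt
  have hup := fun i j => (h.contDiffAt_up hx' i j)
  have hG : ∀ i j, ContDiffAt ℝ ∞ (fun y => G y i j) x := fun i j => (h.Gs i j).contDiffAt
  have e1 : ContDiffAt ℝ ∞ (fun x => ∑ k, pd k (Vg G k) x) x :=
    ContDiffAt.sum fun k _ => contDiffAt_pd (h.contDiffAt_Vg hx' k) k
  have e2 : ContDiffAt ℝ ∞ (fun x => ∑ i, ∑ j, up G i j x * pd j (Lg G i) x) x :=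
    ContDiffAt.sum fun i _ => ContDiffAt.sum fun j _ => (hup i j).mul
      (contDiffAt_pd (h.contDiffAt_Lg hx' i) j)
  have e3 : ContDiffAt ℝ ∞ (fun x => ∑ l, Lg G l x * Vg G l x) x :=
    ContDiffAt.sum fun l _ => (h.contDiffAt_Lg hx' l).mul (h.contDiffAt_Vg hx' l)
  have e4 : ContDiffAt ℝ ∞ (fun x => ∑ k, ∑ l, up G k l x * ∑ i, ∑ j, pd k (up G i j) x *
        pd i (fun y => G y j l) x) x :=
    ContDiffAt.sum fun k _ => ContDiffAt.sum fun l _ => (hup k l).mul
      (ContDiffAt.sum fun i _ => ContDiffAt.sum fun j _ => (contDiffAt_pd (hup i j) k).mul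
        (contDiffAt_pd (hG j l) i))
  have e5 : ContDiffAt ℝ ∞ (fun x => ∑ k, ∑ l, up G k l x * ∑ i, ∑ j, pd k (up G i j) x *
        pd l (fun y => G y i j) x) x :=
    ContDiffAt.sum fun k _ => ContDiffAt.sum fun l _ => (hup k l).mul
      (ContDiffAt.sum fun i _ => ContDiffAt.sum fun j _ => (contDiffAt_pd (hup i j) k).mul
        (contDiffAt_pd (hG i j) l))
  exact (((e1.sub e2).add e3).sub (contDiffAt_const.mul (e4.sub
    (contDiffAt_const.mul e5)))).continuousAt

lemma contDiffAt_IIf {x : E n} (hx : R < len x) (i j : Fin n) :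
    ContDiffAt ℝ ∞ (fun y => IIf G y i j) x := by
  have hx0 := h.ne_zero hx.le
  unfold IIf
  exact ((contDiffAt_dN hx0 (h.Gs i j).contDiffAt).div_const 2).add
    (((h.Gs i j).contDiffAt.sub ((contDiffAt_nx i hx0).mul (contDiffAt_nx j hx0))).div
      (contDiffAt_len hx0) (len_ne hx0))

lemma contDiffAt_ctrII {x : E n} (hx : R < len x) :
    ContDiffAt ℝ ∞ (ctr G (IIf G) (IIf G)) x := by
  unfold ctr
  exact ContDiffAt.sum fun i _ => ContDiffAt.sum fun j _ => ContDiffAt.sum fun k _ =>
    ContDiffAt.sum fun l _ => (((h.contDiffAt_Sm hx i k).mul (h.contDiffAt_Sm hx j l)).mul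
      (h.contDiffAt_IIf hx i j)).mul (h.contDiffAt_IIf hx k l)

lemma contOn_leafScal : ContinuousOn (leafScal G) {x : E n | R < ‖x‖} := by
  have h1 : ContinuousOn (fun x => ctr G (IIf G) (IIf G) x) {x : E n | R < ‖x‖} := fun x hx =>
    (h.contDiffAt_ctrII hx).continuousAt.continuousWithinAt
  have h2 : ContinuousOn (fun x => H1 G x ^ 2) {x : E n | R < ‖x‖} := fun x hx =>
    ((h.contDiffAt_H1 hx).pow 2).continuousAt.continuousWithinAt
  have h3 : ContinuousOn (fun x => 2 * dN (H1 G) x) {x : E n | R < ‖x‖} := fun x hx =>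
    (contDiffAt_const.mul (contDiffAt_dN (h.ne_zero (le_of_lt hx))
      (h.contDiffAt_H1 hx))).continuousAt.continuousWithinAt
  exact ((h.contOn_scal.add h1).add h2).add h3

end Lapse

section

variable {G g K : Field n} {B : Bg n} {kap : ℝ → ℝ}

/-- **Block C**, leaves not homogeneous: the averaged inequality. -/
theorem avg_ineqW [Nontrivial (E n)] (hA : StA n) (hB : StB n) (h : Lapse G g B.R)
    (hF : B.FitsW G) (hK : ∀ i j, Smooth (fun x => K x i j))
    (hKs : ∀ x, B.R ≤ len x → ∀ i j, K x i j = K x j i)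
    (hk : ∀ x, B.R ≤ len x → √(rad g x) * trT G K x = kap (len x)) {r : ℝ} (hr : B.R < r)
    (hkd : DifferentiableAt ℝ kap r) (hdec : ∀ x, B.R < len x → covNorm g (mom g K) x ≤ mu g K x)
    (hlt : |kap r| < B.H r) :
    Vav' g r * (B.H r ^ 2 - kap r ^ 2) +
      Vav g r * (2 * B.H r * deriv B.H r - 2 * kap r * deriv kap r) ≤
        B.H r * B.Rh r - B.H r * (Vav g r * (B.H r ^ 2 - kap r ^ 2)) -
          Vav g r * (B.H r ^ 2 - kap r ^ 2) / B.H r * B.II2 r := by
  have hω : 0 < Vale.Agent.P366.omega n := Vale.Agent.P366.omega_pos'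
  have h0 : 0 < r := B.hR.trans hr
  have hZ1 : ∀ l x, B.R < len x → ContDiffAt ℝ ∞ (glf g l) x := fun l x hx =>
    h.contDiffAt_glf hx.le l
  have hZ2 : ∀ l x, B.R < len x → ContDiffAt ℝ ∞ (bf g K l) x := fun l x hx =>
    h.contDiffAt_bf hK hx.le l
  have hHp : 0 < B.H r := (abs_nonneg _).trans_lt hlt
  set w := B.H r ^ 2 - kap r ^ 2 with hw
  have hw0 : 0 ≤ w := by
    have h2 : kap r ^ 2 ≤ B.H r ^ 2 := by
      rw [← sq_abs (kap r)]
      exact pow_le_pow_left₀ (abs_nonneg _) hlt.le 2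
    rw [hw]; linarith
  set c1 := (2 * B.H r * deriv B.H r - 2 * kap r * deriv kap r) + B.H r * w +
    w / B.H r * B.II2 r with hc1
  -- the integrand
  have hpt : ∀ x : E n, ‖x‖ = r → 0 ≤ B.H r * leafScal G x -
      (0 - (-w) * dN (fun y => 1 / rad g y) x - (-c1) * (1 / rad g x) -
        (-(2 * B.H r)) * DS G (glf g) x - (-(2 * kap r)) * DS G (bf g K) x) := by
    intro x hx
    have hx' : len x = r := hx
    have hxR : B.R < len x := by rw [hx']; exact hr
    have hp := pointwiseW hA hB h hF.toFits0 hK hKs hk hxR (by rw [hx']; exact hkd) (hdec x hxR)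
      (by rw [hx']; exact hlt)
    have h2 := hF.hII x hxR
    rw [hx'] at hp h2
    have hv : 0 ≤ 1 / rad g x := by
      have := h.ppos x hxR.le
      positivity
    have h3 : 1 / rad g x * w / B.H r * B.II2 r ≤
        1 / rad g x * w / B.H r * ctr G (IIf G) (IIf G) x :=
      mul_le_mul_of_nonneg_left h2 (by positivity)
    have e : B.H r * leafScal G x -
      (0 - (-w) * dN (fun y => 1 / rad g y) x - (-c1) * (1 / rad g x) -
        (-(2 * B.H r)) * DS G (glf g) x - (-(2 * kap r)) * DS G (bf g K) x) =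
        B.H r * leafScal G x - dN (fun y => 1 / rad g y) x * w -
      1 / rad g x * (2 * B.H r * deriv B.H r - 2 * kap r * deriv kap r) -
      B.H r * (1 / rad g x * w) - 1 / rad g x * w / B.H r * B.II2 r -
      2 * B.H r * DS G (glf g) x - 2 * kap r * DS G (bf g K) x := by
      rw [hc1]; ring
    rw [e]
    rw [hw] at h3 ⊢
    linarith
  have hnn : 0 ≤ sphI (fun x => B.H r * leafScal G x -
      (0 - (-w) * dN (fun y => 1 / rad g y) x - (-c1) * (1 / rad g x) -
        (-(2 * B.H r)) * DS G (glf g) x - (-(2 * kap r)) * DS G (bf g K) x)) r :=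
    integral_nonneg fun θ => hpt _ (norm_smul_sph h0.le θ)
  have c1' : ContinuousOn (dN fun y => 1 / rad g y) {x : E n | B.R < ‖x‖} :=
    contOn_dN h.hR.le h.contDiffOn_v
  have c2' : ContinuousOn (fun y : E n => 1 / rad g y) {x : E n | B.R < ‖x‖} :=
    h.contDiffOn_v.continuousOn
  have c3' := h.contOn_DS hZ1
  have c4' := h.contOn_DS hZ2
  have hcomb : ContinuousOn (fun x => 0 - (-w) * dN (fun y => 1 / rad g y) x -
      (-c1) * (1 / rad g x) - (-(2 * B.H r)) * DS G (glf g) x -
        (-(2 * kap r)) * DS G (bf g K) x) {x : E n | B.R < ‖x‖} :=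
    (((continuousOn_const.sub (continuousOn_const.mul c1')).sub
      (continuousOn_const.mul c2')).sub (continuousOn_const.mul c3')).sub
        (continuousOn_const.mul c4')
  rw [Vale.Agent.P366.sphI_sub (u := fun x => B.H r * leafScal G x) (v := fun x => 0 -
      (-w) * dN (fun y => 1 / rad g y) x - (-c1) * (1 / rad g x) -
        (-(2 * B.H r)) * DS G (glf g) x - (-(2 * kap r)) * DS G (bf g K) x) h.hR.le hr
      (continuousOn_const.mul h.contOn_leafScal) hcomb,
    sphI_comb h.hR.le hr c1' c2' c3' c4', h.sphI_DS hZ1 hr, h.sphI_DS hZ2 hr,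
    Vale.Agent.P366.sphI_const_mul] at hnn
  have e1 : sphI (dN fun y => 1 / rad g y) r = Vale.Agent.P366.omega n * Vav' g r := by
    unfold Vav' av
    field_simp
  have e2 : sphI (fun y => 1 / rad g y) r = Vale.Agent.P366.omega n * Vav g r := by
    unfold Vav av
    field_simp
  have e3 : sphI (leafScal G) r = Vale.Agent.P366.omega n * av (leafScal G) r := by
    unfold av
    field_simp
  have e3' : sphI (fun x => leafScal G x) r = Vale.Agent.P366.omega n * av (leafScal G) r := e3
  rw [e1, e2, e3'] at hnn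
  have h2 : 0 ≤ Vale.Agent.P366.omega n *
      (B.H r * av (leafScal G) r - w * Vav' g r - c1 * Vav g r) := by
    refine hnn.trans (le_of_eq ?_)
    ring
  have h3 : 0 ≤ B.H r * av (leafScal G) r - w * Vav' g r - c1 * Vav g r :=
    nonneg_of_mul_nonneg_right h2 hω
  have h4 : B.H r * av (leafScal G) r ≤ B.H r * B.Rh r :=
    mul_le_mul_of_nonneg_left (hF.hRh r hr) hHp.le
  rw [hc1] at h3
  have e3 : Vav g r * w / B.H r * B.II2 r = Vav g r * (w / B.H r * B.II2 r) := by ring
  rw [e3]
  linarith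

end

end Vale.Agent.T4
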