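import Vale.Agent.P366.T5.Rigid92
import Vale.Agent.P366.T4.StShift

/-! T5: the complete theorem for data of cohomogeneity one. -/

open MeasureTheory Metric Filter Topology Set
open scoped ContDiff ENNReal Matrix

noncomputable section
namespace Vale.Agent.T4
open Vale.Agent.P366.Stmt Vale.Agent.P366.T2

variable {n : ℕ}

/-- the equality case for complex data -/
def StEqU (n : ℕ) : Prop := ∀ (D : Vale.Agent.U1.Data n) {X : Exterior n},
  Vale.Agent.U1.Fits D X.g X.K → X.IsAF → X.DEC → X.Trapped → ∀ {m : ℝ} {P : Fin n → ℝ},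
  X.IsEnergy m → X.IsMomentum P → IsGreatest {r | ∃ x, X.F x = 0 ∧ len x = r} D.R →
  Outermost X → (X.Amin.toReal / omega n) ^ (((n : ℝ) - 2) / (n - 1)) / 2 = m →
  IsSlice m X.g X.K {x | D.R < len x}

/-- the equality case for quaternionic data -/
def StEqQ (n : ℕ) : Prop := ∀ (D : Data n) {be : Fin 3 → ℝ → ℝ} {X : Exterior n},
  FitsM D be X.g X.K → X.IsAF → X.DEC → X.Trapped → ∀ {m : ℝ} {P : Fin n → ℝ},
  X.IsEnergy m → X.IsMomentum P → IsGreatest {r | ∃ x, X.F x = 0 ∧ len x = r} D.R →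
  Outermost X → (X.Amin.toReal / omega n) ^ (((n : ℝ) - 2) / (n - 1)) / 2 = m →
  IsSlice m X.g X.K {x | D.R < len x}

/-- **The equality case for data of cohomogeneity one.** -/
theorem rigid_cohom (hn : 3 ≤ n) (hU : StEqU n) (hQ : StEqQ n) {X : Exterior n} (hAF : X.IsAF)
    (hDEC : X.DEC) (hT : X.Trapped) {m : ℝ} {P : Fin n → ℝ} (hm : X.IsEnergy m)
    (hP : X.IsMomentum P) {R₁ : ℝ} (hR : IsGreatest {r | ∃ x, X.F x = 0 ∧ len x = r} R₁)
    {Γ : Matrix (Fin n) (Fin n) ℝ → Prop} (hΓ : TransGroup n Γ)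
    (hg : InvUnder Γ R₁ X.g) (hK : InvUnder Γ R₁ X.K) (hO : Outermost X)
    (heq : (X.Amin.toReal / omega n) ^ (((n : ℝ) - 2) / (n - 1)) / 2 = m) :
    IsSlice m X.g X.K {x | R₁ < len x} := by
  have hout := Vale.Agent.C92.outside_nonneg (by omega) X hR
  have hR0 : 0 < R₁ :=
    (Vale.Agent.P366.Bridge.toRaw X).R1_pos (by omega) (Vale.Agent.P366.Bridge.raw_R1 X hR)
  have hpos : ∀ x, R₁ ≤ len x → (mat X.g x).PosDef := fun x hx => X.pos x (hout x hx)
  have hgs : ∀ i j, Smooth (fun x => X.g x i j) := fun i j => (X.smooth i j).1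
  have hgsy : ∀ x i j, X.g x i j = X.g x j i := fun x i j => (X.symm x i j).1
  cases hΓ with
  | so =>
    exact rigid_trans hn hAF hDEC hT hm hR TransGroup.so hg hK
      (perp_of_pair (by omega) (pairTrans_so hn) hR0 hg hgsy) hO heq
  | u J skew sq =>
    obtain ⟨D, rfl, -, hfit⟩ := Vale.Agent.U1.fits_of_U hn ⟨J, skew, sq⟩ hR0 X.smooth X.symm hpos
      hg hK
    exact hU D hfit hAF hDEC hT hm hP hR hO heq
  | su h6 J skew sq =>
    obtain ⟨D, rfl, -, hfit⟩ := Vale.Agent.U1.fits_of_SU (by omega) ⟨J, skew, sq⟩ hR0 X.smooth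
      X.symm hpos hg hK
    exact hU D hfit hAF hDEC hT hm hP hR hO heq
  | sp Q =>
    have hg' : Q.Invariant R₁ X.g := fun A h1 h2 => hg A ⟨h1, h2⟩
    have hK' : Q.Invariant R₁ X.K := fun A h1 h2 => hK A ⟨h1, h2⟩
    obtain ⟨D, be, rfl, -, hfit⟩ := fitsM_of_invariant (by omega) Q hR0 X.smooth X.symm hpos
      hg'.inv hK'.inv
    exact hQ D hfit hAF hDEC hT hm hP hR hO heq
  | g2 =>
    exact rigid_trans hn hAF hDEC hT hm hR TransGroup.g2 hg hK
      (perp_of_pair (by omega) pairTrans_g2 hR0 hg hgsy) hO heq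
  | spin7 =>
    exact rigid_trans hn hAF hDEC hT hm hR TransGroup.spin7 hg hK
      (perp_of_pair (by omega) pairTrans_spin7 hR0 hg hgsy) hO heq
  | spin9 O =>
    exact rigid_trans hn hAF hDEC hT hm hR (TransGroup.spin9 O) hg hK
      (perp_spin9 hn hR0 O hgs hgsy hpos hg) hO heq

/-- **The spacetime Penrose inequality and its equality case for data of cohomogeneity one.** -/
theorem cohom (hn : 3 ≤ n) (hU : StEqU n) (hQ : StEqQ n) {X : Exterior n} (hAF : X.IsAF)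
    (hDEC : X.DEC) (hT : X.Trapped) {m : ℝ} {P : Fin n → ℝ} (hm : X.IsEnergy m)
    (hP : X.IsMomentum P) {R₁ : ℝ} (hR : IsGreatest {r | ∃ x, X.F x = 0 ∧ len x = r} R₁)
    {Γ : Matrix (Fin n) (Fin n) ℝ → Prop} (hΓ : TransGroup n Γ)
    (hg : InvUnder Γ R₁ X.g) (hK : InvUnder Γ R₁ X.K) :
    P = 0 ∧ X.Amin ≠ ⊤ ∧ √(∑ i, P i ^ 2) < m ∧
    (X.Amin.toReal / omega n) ^ (((n : ℝ) - 2) / (n - 1)) / 2 ≤
      √(m ^ 2 - ∑ i, P i ^ 2) ∧
    (Outermost X → (X.Amin.toReal / omega n) ^ (((n : ℝ) - 2) / (n - 1)) / 2 =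
      √(m ^ 2 - ∑ i, P i ^ 2) → IsSlice m X.g X.K {x | R₁ < len x}) := by
  obtain ⟨h1, h2, h3, h4⟩ := penrose_trans hn hAF hDEC hT hm hP hR hΓ hg hK
  refine ⟨h1, h2, h3, h4, fun hO heq => ?_⟩
  refine rigid_cohom hn hU hQ hAF hDEC hT hm hP hR hΓ hg hK hO ?_
  have hm0 : 0 < m := lt_of_le_of_lt (Real.sqrt_nonneg _) h3
  rw [heq, h1]
  simp [Real.sqrt_sq hm0.le]

end Vale.Agent.T4
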