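import Vale.Agent.P366.T5.Cohom92
import Vale.Agent.P366.T4.EqU355
import Vale.Agent.P366.T4.EqQ68b
import Vale.Agent.P366.T4.ShiftF919

/-! T5: the complete theorem for data of cohomogeneity one. -/

noncomputable section
namespace Vale.Agent.T4
open Vale.Agent.P366.Stmt

variable {n : ℕ}

theorem stEqU (hn : 3 ≤ n) : StEqU n := fun D _ h hAF hDEC hT _ _ hm hP hR hO heq =>
  rigid_U1 hn (stShift (by omega)) D h hAF hDEC hT hm hP hR hO heq

theorem stEqQ (hn : 3 ≤ n) : StEqQ n := fun D _ _ h hAF hDEC hT _ _ hm hP hR hO heq =>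
  slice_fitsM (stShift (by omega)) D h hAF hDEC hT hm hP hR hO heq

end Vale.Agent.T4
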