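import Vale.Agent.P366.T5.Leaf

/-! The mean curvature and the torsion term of the centred spheres. -/

noncomputable section
namespace Vale.Agent.T4
open Vale.Agent.P366.Stmt

variable {n : ℕ}

/-- The mean curvature at `x`, with respect to the normal pointing to larger `|x|`, of the centred
sphere through `x`. -/
def sphereMean (g : Field n) (x : E n) : ℝ :=
  trS g (hess g len) len x / covNorm g (fun j => pd j len) x

/-- The quotient of the trace of `K` over the centred sphere through `x` and its mean curvature. -/
def sphereRatio (g K : Field n) (x : E n) : ℝ := trS g K len x / sphereMean g x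

/-- The torsion term `K(ν, ∇ (tr_S K / H))` at `x`: `ν` is the unit normal of the centred sphere `S`
through `x`, `H` its mean curvature, and `∇` the gradient in `S`. -/
def sphereTorsion (g K : Field n) (x : E n) : ℝ :=
  ∑ k, ∑ l, (up g k l x - nrm g len k x * nrm g len l x) * pd k (sphereRatio g K) x *
    ∑ i, K x i l * nrm g len i x

/-- The condition on `K`: for `R ≤ |x|` each centred sphere `S` has either no untrapped point, that
is `H ≤ |tr_S K|` on all of `S`, or it is untrapped, `|tr_S K| < H` on all of `S`, and the integral
of the torsion term is nonpositive. -/
def TorsionCond (g K : Field n) (R : ℝ) : Prop := ∀ r, R ≤ r →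
  (∀ x, len x = r → sphereMean g x ≤ |trS g K len x|) ∨
    ((∀ x, len x = r → |trS g K len x| < sphereMean g x) ∧
      sph (vol n) r (sphereTorsion g K) ≤ 0)

end Vale.Agent.T4
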