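import Vale.Agent.P366.T5.RigidAsm
import Vale.Agent.P366.T5.Sphere

/-!
T5, class X: `√p tr_S K` need not be radial. Each centred sphere is either nowhere untrapped, or
untrapped with a nonpositive torsion term.
-/

open MeasureTheory Metric Filter Topology Set
open scoped ContDiff ENNReal Matrix MatrixOrder

noncomputable section
namespace Vale.Agent.T4
open Vale.Agent.P366.Stmt Vale.Agent.P366.T2
open Vale.Agent.P366 (sphI sphM av)

variable {n : ℕ}

/-- the function `√p tr_S K` (`P / H` times the radial function `H √p`) -/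
def kpf (G g K : Field n) (x : E n) : ℝ := √(rad g x) * trT G K x

/-- the torsion term `K(ν, ∇ (√p tr_S K))` of the centred spheres -/
def tors (G g K : Field n) (x : E n) : ℝ := S2 G (fun k y => pd k (kpf G g K) y) (bf g K) x

/-- `av ((H² - κ²) / p)` -/
def Yav (B : Bg n) (G g K : Field n) (r : ℝ) : ℝ :=
  B.H r ^ 2 * Vav g r - av (fun x => trT G K x ^ 2) r

/-- its derivative -/
def Yav' (B : Bg n) (G g K : Field n) (r : ℝ) : ℝ :=
  2 * B.H r * deriv B.H r * Vav g r + B.H r ^ 2 * Vav' g r -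
    av (dN fun x => trT G K x ^ 2) r

/-- the hypothesis on `K` -/
def Dich (B : Bg n) (G g K : Field n) : Prop := ∀ r, B.R ≤ r →
  (∀ x, len x = r → B.H r ≤ |kpf G g K x|) ∨
    ((∀ x, len x = r → |kpf G g K x| < B.H r) ∧ av (tors G g K) r ≤ 0)

/-- equality in the pointwise inequality, class X -/
structure PtEqX (B : Bg n) (G g K : Field n) (x : E n) : Prop where
  mu0 : mu g K x = 0
  mom0 : ∀ j, mom g K j x = 0
  glf0 : ∀ i, glf g i x = dN (lf g) x * nx i x
  row0 : ∀ i, row K i x = rad K x * nx i x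
  K0 : ∀ i j, K x i j = rad K x * nx i x * nx j x +
    trT G K x / B.H (len x) * IIf G x i j
  II0 : ctr G (IIf G) (IIf G) x = B.II2 (len x)

/-- block X3: asymptotics -/
def StX3 (n : ℕ) : Prop := ∀ {X : Exterior n} {B : Bg n} {G : Field n}, Lapse G X.g B.R →
  B.Fits0 G → B.LamOK G → X.IsAF → ∀ {m : ℝ}, X.IsEnergy m →
  Tendsto (fun r => B.rho r ^ ((n : ℝ) - 2) * (1 - Yav B G X.g X.K r / (4 * B.lam r ^ 2))) atTop
    (𝓝 (2 * m)) ∧ ∀ᶠ r in atTop, ∀ x, len x = r → |kpf G X.g X.K x| < B.H r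

/-- block X4: touching -/
def StX4 (n : ℕ) : Prop := ∀ {X : Exterior n} {B : Bg n} {G : Field n}, Lapse G X.g B.R →
  B.Fits0 G → X.Trapped → IsGreatest {r | ∃ x, X.F x = 0 ∧ len x = r} B.R →
  ∃ x, len x = B.R ∧ B.H B.R + kpf G X.g X.K x ≤ 0

/-- block X1: the averaged inequality -/
def StX1 (n : ℕ) : Prop := ∀ {G g K : Field n} {B : Bg n}, Lapse G g B.R → B.FitsW G →
  (∀ i j, Smooth (fun x => K x i j)) → (∀ x, B.R ≤ len x → ∀ i j, K x i j = K x j i) →
  ∀ {r : ℝ}, B.R < r → (∀ x, B.R < len x → covNorm g (mom g K) x ≤ mu g K x) →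
  (∀ x, len x = r → |kpf G g K x| < B.H r) → av (tors G g K) r ≤ 0 →
  Yav' B G g K r ≤ B.H r * B.Rh r - B.H r * Yav B G g K r - Yav B G g K r / B.H r * B.II2 r

/-- block X1: the derivative of the averages -/
def StX1d (n : ℕ) : Prop := ∀ {G g K : Field n} {B : Bg n}, Lapse G g B.R →
  (∀ i j, Smooth (fun x => K x i j)) →
  ContinuousOn (Yav B G g K) (Ici B.R) ∧ ∀ r, B.R < r → HasDerivAt (Yav B G g K) (Yav' B G g K r) r

/-- block X6: equality in the averaged inequality -/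
def StX6 (n : ℕ) : Prop := ∀ {G g K : Field n} {B : Bg n}, Lapse G g B.R → B.FitsW G →
  (∀ i j, Smooth (fun x => K x i j)) → (∀ x, B.R ≤ len x → ∀ i j, K x i j = K x j i) →
  ∀ {r : ℝ}, B.R < r → (∀ x, B.R < len x → covNorm g (mom g K) x ≤ mu g K x) →
  (∀ x, len x = r → |kpf G g K x| < B.H r) → av (tors G g K) r ≤ 0 →
  B.H r * B.Rh r - B.H r * Yav B G g K r - Yav B G g K r / B.H r * B.II2 r ≤ Yav' B G g K r →
  ∀ x : E n, len x = r → PtEqX B G g K x

/-- block X8: the condition on `K` in terms of the problem -/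
def StX8 (n : ℕ) : Prop := ∀ {G g K : Field n} {B : Bg n}, Lapse G g B.R → B.Fits0 G →
  (∀ i j, Smooth (fun x => K x i j)) → TorsionCond g K B.R → Dich B G g K

/-- block X8: the condition holds if `√p tr_S K` is radial -/
def StX8r (n : ℕ) : Prop := ∀ {G g K : Field n} {B : Bg n}, Lapse G g B.R → B.Fits0 G →
  (∀ i j, Smooth (fun x => K x i j)) → ∀ {κ : ℝ → ℝ},
  (∀ x, B.R ≤ len x → √(rad g x) * trT G K x = κ (len x)) → TorsionCond g K B.R

/-- block X7: in the equality case `√p tr_S K` is radial -/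
def StX7 (n : ℕ) : Prop := ∀ {G g K : Field n} {B : Bg n}, Lapse G g B.R → B.Fits0 G →
  (∀ i j, Smooth (fun x => K x i j)) → (∀ x, B.R ≤ len x → ∀ i j, K x i j = K x j i) →
  B.RoundAt G → (∀ x, B.R < len x → PtEqX B G g K x) →
  (∀ x, B.R < len x → |kpf G g K x| < B.H (len x)) →
  (∀ x, len x = B.R → |kpf G g K x| = B.H B.R) →
  ∃ κ : ℝ → ℝ, ∀ x, B.R ≤ len x → √(rad g x) * trT G K x = κ (len x)

end Vale.Agent.T4
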