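import Vale.Agent.P366.T4.E919e
import Vale.Agent.P366.T4.Asm

/-! T5, block W1 (energy): the limit of the mass function when only the volume density of the
background is radial (`Bg.Fits0`). -/

open MeasureTheory Metric Filter Topology Set Asymptotics
open scoped ContDiff ENNReal

noncomputable section
namespace Vale.Agent.T4
open Vale.Agent.P366.Stmt Vale.Agent.P366.T2
open Vale.Agent.P366.T1.A919 (far far_iff far_of far_gt far_nhds O O_iff O_of_bigO O_const O_zero
  O_of_le O_inv_mat tail_bound)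
open Vale.Agent.P366.T2.E68 (O1 O2 O0)
open Vale.Agent.P366 (sphI sphM av norm_smul_sph integrable_sph isOpen_outside sphI_congr
  sphI_add sphI_sub sphI_const_mul sphI_const omega_pos')

variable {n : ℕ} {G g K : Field n} {R q : ℝ}

namespace Lapse

variable (h : Lapse G g R)
include h

/-- `H - (n - 1) / r` and the radial derivative of the trace -/
lemma H_trF (hq : 0 < q) (D : Dec g q) {B : Bg n} (hB : B.Fits0 G) :
    O (q + q + 1) (fun x => (B.H (len x) - ((n : ℝ) - 1) / len x) -
      1 / 2 * dN (fun y => ∑ i, G y i i) x) := by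
  have h1 : O (q + q + 1) (fun x => 1 / 2 * ∑ i, nx i x * ∑ k, ∑ l,
      (up G k l x - if k = l then 1 else 0) * pd i (fun y => G y k l) x) := by
    refine O.const_mul _ (O.sum fun i _ => ?_)
    refine (O_nx i).mul' (q := q + q + 1) (O.sum fun k _ => O.sum fun l _ => ?_) (by linarith)
    exact (h.up0 hq D k l).mul' ((h.dec D).g1 k l i) (by linarith)
  refine h1.congr ?_
  filter_upwards [far_gt (n := n) B.R, far_ne (n := n)] with x hx hx0
  have e1 : ∑ i, nx i x * Lg G i x = B.H (len x) - ((n : ℝ) - 1) / len x := by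
    have : ∀ i, nx i x * Lg G i x = (B.H (len x) - ((n : ℝ) - 1) / len x) * (nx i x * nx i x) := by
      intro i; rw [hB.hL x hx i]; ring
    simp only [this, ← Finset.mul_sum, sum_nx_mul hx0, mul_one]
  rw [← e1]
  unfold dN
  simp only [(h.HP_trG _).pd]
  unfold Lg
  simp only [Finset.mul_sum, ← Finset.sum_sub_distrib]
  refine Finset.sum_congr rfl fun i _ => Finset.sum_congr rfl fun k _ => ?_
  have e2 : 1 / 2 * (nx i x * pd i (fun y => G y k k) x) =
      ∑ l, 1 / 2 * (nx i x * ((if k = l then 1 else 0) * pd i (fun y => G y k l) x)) := by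
    simp
  rw [e2, ← Finset.sum_sub_distrib]
  refine Finset.sum_congr rfl fun l _ => ?_
  ring

lemma ld_limF (hq : 0 < q) (D : Dec g q) {B : Bg n} (hB : B.Fits0 G) (θ : sphere (0 : E n) 1) :
    Tendsto B.ld atTop (𝓝 0) := by
  have h1 := h.det_lim hq D θ
  have h2 : Tendsto (fun s : ℝ => Real.log (√(mat G (s • (θ : E n))).det)) atTop (𝓝 0) := by
    have := (Real.continuousAt_log (x := √1) (by simp)).tendsto.comp (h1.sqrt)
    simpa [Function.comp_def] using this
  refine h2.congr' ?_
  filter_upwards [eventually_ge_atTop B.R, eventually_gt_atTop 0] with s hs hs0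
  have h3 := hB.hdet (s • (θ : E n)) (by unfold len; rw [norm_smul_sph hs0.le]; exact hs)
  unfold len at h3
  rw [norm_smul_sph hs0.le] at h3
  unfold Bg.ld
  rw [← h3]
  congr 1
  field_simp

/-- **the volume density of the background** -/
lemma ld_trF (hn : 1 ≤ n) (hq : 0 < q) (D : Dec g q) {B : Bg n} (hB : B.Fits0 G) :
    O (q + q) (fun x => B.ld (len x) - 1 / 2 * (trG G x - n)) := by
  have h1 := h.H_trF hq D hB
  obtain ⟨C, R0, hC, hR0, hb⟩ := O_iff.mp h1
  refine O.of_bound (C := C / (q + q)) ?_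
  refine far_of (max R0 B.R) fun x hx => ?_
  have hx1 : R0 < ‖x‖ := (le_max_left _ _).trans_lt hx
  have hx2 : B.R < ‖x‖ := (le_max_right _ _).trans_lt hx
  have hx0 : 0 < ‖x‖ := by linarith
  let θ : sphere (0 : E n) 1 := ⟨‖x‖⁻¹ • x, by
    rw [mem_sphere_zero_iff_norm, norm_smul, norm_inv, norm_norm, inv_mul_cancel₀ hx0.ne']⟩
  have hθ : ‖x‖ • (θ : E n) = x := by
    show ‖x‖ • (‖x‖⁻¹ • x) = x
    rw [smul_inv_smul₀ hx0.ne']
  have key := tail_bound (φ := fun s => B.ld s - 1 / 2 * (trG G (s • (θ : E n)) - n))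
    (φ' := fun s => (B.H s - ((n : ℝ) - 1) / s) - 1 / 2 * dN (trG G) (s • (θ : E n)))
    (ρ := ‖x‖) (B := C) (q := q + q) hx0 (by linarith) ?_ ?_ ?_
  · simp only [hθ] at key
    exact key
  · intro s hs
    have hs1 : B.R < s := hx2.trans_le hs
    have hs0 : 0 < s := hx0.trans_le hs
    have a1 := (((h.ray_tr θ hs0).sub_const (n : ℝ))).const_mul (1 / 2)
    exact (B.ld_hasDerivAt hn hs1).sub a1
  · intro s hs
    have hs0 : 0 < s := hx0.trans_le hs
    have a1 := hb (s • (θ : E n)) (by rw [norm_smul_sph hs0.le]; exact hx1.trans_le hs)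
    unfold len at a1
    rw [norm_smul_sph hs0.le] at a1
    exact a1
  · have a1 := h.ld_limF hq D hB θ
    have a2 := (((h.trG0 D).tendsto hq).comp (far_ray θ)).const_mul (1 / 2)
    have a3 := a1.sub a2
    simpa [Function.comp_def] using a3

lemma ld0F (hn : 1 ≤ n) (hq : 0 < q) (D : Dec g q) {B : Bg n} (hB : B.Fits0 G) :
    O q (fun x : E n => B.ld (len x)) := by
  have h1 : O q (fun x => (B.ld (len x) - 1 / 2 * (trG G x - n)) + 1 / 2 * (trG G x - n)) :=
    ((h.ld_trF hn hq D hB).mono (by linarith)).add ((h.trG0 D).const_mul _)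
  exact h1.congr (Eventually.of_forall fun x => by ring)

/-- `y = r H - (n - 1)` -/
lemma yy_trF (hq : 0 < q) (D : Dec g q) {B : Bg n} (hB : B.Fits0 G) :
    O (q + q) (fun x => (len x * B.H (len x) - ((n : ℝ) - 1)) -
      1 / 2 * (len x * dN (trG G) x)) := by
  have h1 := O_len_mul (r := q + q) (h.H_trF hq D hB) (by linarith)
  refine h1.congr ?_
  filter_upwards [far_gt (n := n) 0] with x hx
  have hl : len x ≠ 0 := hx.ne'
  unfold trG
  field_simp

lemma yy0F (hq : 0 < q) (D : Dec g q) {B : Bg n} (hB : B.Fits0 G) :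
    O q (fun x : E n => len x * B.H (len x) - ((n : ℝ) - 1)) := by
  have h1 : O q (fun x : E n => len x * dN (trG G) x) :=
    O_len_mul (r := q) (h.dN_trG D) (by linarith)
  have h2 : O q (fun x => ((len x * B.H (len x) - ((n : ℝ) - 1)) -
      1 / 2 * (len x * dN (trG G) x)) + 1 / 2 * (len x * dN (trG G) x)) :=
    ((h.yy_trF hq D hB).mono (by linarith)).add (h1.const_mul _)
  exact h2.congr (Eventually.of_forall fun x => by ring)

end Lapse

/-- **Block E.** -/
theorem mass_limF (hn : 3 ≤ n) {X : Exterior n} {B : Bg n} (h : Lapse G X.g B.R) (hB : B.Fits0 G)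
    (hq : (n : ℝ) / 2 - 1 < q) (hAF : AFq X q) {m : ℝ} (hm : X.IsEnergy m)
    (hlam : O2 q fun r => 2 * B.lam r * B.rho r / ((n : ℝ) - 1) - 1) {κ : ℝ → ℝ}
    (hκ : ∀ x, B.R ≤ len x → √(rad X.g x) * trT G X.K x = κ (len x)) :
    Tendsto (fun r => B.rho r ^ ((n : ℝ) - 2) *
      (1 - Vav X.g r * (B.H r ^ 2 - κ r ^ 2) / (4 * B.lam r ^ 2))) atTop (𝓝 (2 * m)) ∧
    ∀ᶠ r in atTop, |κ r| < B.H r := by
  have hn3 : (3 : ℝ) ≤ n := by exact_mod_cast hn
  have hn1 : 1 ≤ n := by omega
  have : Nonempty (Fin n) := ⟨⟨0, by omega⟩⟩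
  have : Nontrivial (E n) := inferInstance
  have hq0 : 0 < q := by linarith
  have hω : 0 < Vale.Agent.P366.omega n := omega_pos'
  have i0 : Fin n := ⟨0, by omega⟩
  have D : Dec X.g q := ⟨fun i j => O_of_bigO (hAF i j i0 i0).1,
    fun i j k => O_of_bigO (hAF i j k i0).2.1⟩
  have hK : ∀ i j, O (q + 1) (fun x => X.K x i j) := fun i j =>
    O_of_bigO (hAF i j i0 i0).2.2.2.1
  set N : ℝ := (n : ℝ) - 1 with hN
  have hN0 : 0 < N := by linarith
  -- the functions
  have hl : O1 q B.ld := O1_of_O hn1 (h.ld0F hn1 hq0 D hB)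
  have hy : O1 q (fun r => r * B.H r - N) := O1_of_O hn1 (h.yy0F hq0 D hB)
  have ha : O1 q (fun r => av (fun x => rad X.g x - 1) r) := av_O D.p0
  -- the average of `1 / p`
  have hvi : O q (fun x => (rad X.g x)⁻¹ - 1) := D.p0.inv hq0
  have hcr : ContinuousOn (fun x => rad X.g x - 1) {x : E n | B.R < ‖x‖} :=
    (cont_rad h.gs h.hR.le).sub continuousOn_const
  have hV : O2 q fun r => Vav X.g r - 1 + av (fun x => rad X.g x - 1) r := by
    rw [O2_iff]
    have h1 : O (q + q) (fun x => (rad X.g x - 1) * (rad X.g x - 1) * (rad X.g x)⁻¹) :=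
      (D.p0.mul D.p0).mul' (hvi.bdd hq0.le) (by linarith)
    have h2 : O (q + q) (fun x => (1 / rad X.g x - 1) + (rad X.g x - 1)) := by
      refine h1.congr ?_
      filter_upwards [far_gt (n := n) B.R] with x hx
      have := (h.ppos x hx.le).ne'
      field_simp
      ring
    refine (av_O h2).congr' ?_ EventuallyEq.rfl
    filter_upwards [eventually_gt_atTop B.R] with r hr
    have hcv : ContinuousOn (fun x => 1 / rad X.g x) {x : E n | B.R < ‖x‖} :=
      h.contDiffOn_v.continuousOn
    have e1 := sphI_add (u := fun x => 1 / rad X.g x - 1) (v := fun x => rad X.g x - 1)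
      h.hR.le hr (hcv.sub continuousOn_const) hcr
    have e2 := sphI_sub (u := fun x => 1 / rad X.g x) (v := fun _ => (1 : ℝ))
      h.hR.le hr hcv continuousOn_const
    unfold Vav av
    rw [e1, e2, sphI_const]
    field_simp
  -- the trace of `K`
  have hk : O1 q (fun r => r * κ r) := by
    refine O1_of_O hn1 (O_len_mul (p := q + 1) (f := fun x : E n => κ (len x)) ?_ (by linarith))
    have h1 : O (q + 1) (fun x => √(rad X.g x) * trT G X.K x) :=
      ((D.p0.sqrt).bdd hq0.le).mul' (h.trK0 hq0 D hK) (by linarith)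
    refine h1.congr ?_
    filter_upwards [far_gt (n := n) B.R] with x hx
    exact hκ x hx.le
  -- the energy
  have hF : O (q + q) (fun x => 2 * len x * eden X.g x - N * (rad X.g x - 1) +
      (2 * B.ld (len x) + 2 * (len x * B.H (len x) - N))) := by
    have h1 : O (q + q) (fun x => 2 * (B.ld (len x) - 1 / 2 * (trG G x - n)) +
        2 * ((len x * B.H (len x) - N) - 1 / 2 * (len x * dN (trG G) x))) :=
      ((h.ld_trF hn1 hq0 D hB).const_mul 2).add ((h.yy_trF hq0 D hB).const_mul 2)
    refine h1.congr ?_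
    filter_upwards [far_gt (n := n) B.R] with x hx
    rw [h.eden_eq hx]
    ring
  have hFav : (fun r => r * (2 * av (eden X.g) r) - N * av (fun x => rad X.g x - 1) r +
      (2 * B.ld r + 2 * (r * B.H r - N))) =O[atTop] fun r : ℝ => r ^ (-(q + q)) := by
    refine (av_O hF).congr' ?_ EventuallyEq.rfl
    filter_upwards [eventually_gt_atTop B.R] with r hr
    have hr0 : 0 < r := h.hR.trans hr
    have e1 : sphI (fun x => 2 * len x * eden X.g x - N * (rad X.g x - 1) +
        (2 * B.ld (len x) + 2 * (len x * B.H (len x) - N))) r =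
        sphI (fun x => 2 * r * eden X.g x - N * (rad X.g x - 1) +
        (2 * B.ld r + 2 * (r * B.H r - N))) r :=
      sphI_congr hr0.le fun x hx => by unfold len; rw [hx]
    have hce := cont_eden h.gs h.hR.le
    have e2 := sphI_add (u := fun x => 2 * r * eden X.g x - N * (rad X.g x - 1))
      (v := fun _ => 2 * B.ld r + 2 * (r * B.H r - N)) h.hR.le hr
      ((continuousOn_const.mul hce).sub (continuousOn_const.mul hcr)) continuousOn_const
    have e3 := sphI_sub (u := fun x => 2 * r * eden X.g x) (v := fun x => N * (rad X.g x - 1))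
      h.hR.le hr (continuousOn_const.mul hce) (continuousOn_const.mul hcr)
    unfold av
    rw [e1, e2, e3, sphI_const, sphI_const_mul, sphI_const_mul]
    field_simp
  have hflx : Tendsto (fun r : ℝ => r ^ (N - 1) * (r * (2 * av (eden X.g) r))) atTop
      (𝓝 (2 * N * m)) := by
    refine (hm.const_mul (2 * N)).congr' ?_
    filter_upwards [eventually_gt_atTop 0] with r hr
    rw [Vale.Agent.P366.flx_eq]
    have e1 : Vale.Agent.P366.sphInt r (fun x => ∑ i, (∑ j, (pd j (fun y => X.g y i j) x -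
        pd i (fun y => X.g y j j) x)) / 2 * (x i / ‖x‖)) = r ^ (n - 1) * sphI (eden X.g) r := rfl
    rw [e1]
    unfold av
    have e2 : r ^ (n - 1) = r ^ (N - 1) * r := by
      rw [← Real.rpow_natCast, ← Real.rpow_add_one hr.ne']
      congr 1
      rw [Nat.cast_sub hn1, hN]
      push_cast
      ring
    rw [e2, ← hN]
    field_simp
  have hE : Tendsto (fun r : ℝ => r ^ (N - 1) * (N * av (fun x => rad X.g x - 1) r -
      2 * B.ld r - 2 * (r * B.H r - N))) atTop (𝓝 (2 * N * m)) := by
    have h1 : Tendsto (fun r : ℝ => r ^ (N - 1) * (r * (2 * av (eden X.g) r) -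
        N * av (fun x => rad X.g x - 1) r + (2 * B.ld r + 2 * (r * B.H r - N)))) atTop
        (𝓝 0) := by
      have h2 := IsBigO.mul (isBigO_refl (fun r : ℝ => r ^ (N - 1)) atTop) hFav
      refine h2.trans_tendsto ?_
      have h3 : Tendsto (fun r : ℝ => r ^ (-(2 * q - (N - 1)))) atTop (𝓝 0) :=
        tendsto_rpow_neg_atTop (by linarith)
      refine h3.congr' ?_
      filter_upwards [eventually_gt_atTop 0] with r hr
      rw [← Real.rpow_add hr]
      congr 1
      ring
    have h4 := hflx.sub h1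
    rw [sub_zero] at h4
    refine h4.congr fun r => ?_
    ring
  refine mass_abs2 (N := N) (q := q) (m := m) (ℓ := B.ld) (y := fun r => r * B.H r - N)
    (V := Vav X.g) (a := fun r => av (fun x => rad X.g x - 1) r)
    (w := fun r => 2 * B.lam r * B.rho r / N) (k := fun r => r * κ r) (ρ := B.rho) (H := B.H)
    (lam := B.lam) (κ := κ) hN0 hq0 (by linarith) hl hy ha hV hlam hk hE ?_ ?_
    (Eventually.of_forall fun r => rfl) (Eventually.of_forall fun r => rfl) ?_
  · filter_upwards [eventually_ge_atTop B.R, eventually_gt_atTop 0] with r hr hr0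
    have har := B.ar_pos r hr
    have e1 : B.ar r = Real.exp (B.ld r) * r ^ N := by
      unfold Bg.ld
      rw [Real.exp_log (by positivity)]
      have e2 : r ^ N = r ^ (n - 1) := by
        rw [← Real.rpow_natCast]
        congr 1
        rw [Nat.cast_sub hn1, hN]
        push_cast
        ring
      rw [e2]
      field_simp
    unfold Bg.rho
    rw [e1, Real.mul_rpow (Real.exp_pos _).le (by positivity), ← Real.rpow_mul hr0.le,
      ← Real.exp_mul]
    have e3 : N * (1 / ((n : ℝ) - 1)) = 1 := by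
      rw [← hN]; field_simp
    rw [e3, Real.rpow_one, mul_comm]
    congr 2
    rw [← hN]; ring
  · filter_upwards [eventually_gt_atTop 0] with r hr
    field_simp
    ring
  · refine Eventually.of_forall fun r => ?_
    have e : N - 1 = (n : ℝ) - 2 := by rw [hN]; ring
    rw [e]

/-- statement of block E with a radial density only -/
def StEF (n : ℕ) : Prop := ∀ (X : Exterior n) (B : Bg n) (G : Field n), Lapse G X.g B.R →
  B.Fits0 G → B.LamOK G → X.IsAF → ∀ m : ℝ, X.IsEnergy m → ∀ κ : ℝ → ℝ,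
  (∀ x, B.R ≤ len x → √(rad X.g x) * trT G X.K x = κ (len x)) →
  Tendsto (fun r => B.rho r ^ ((n : ℝ) - 2) *
    (1 - Vav X.g r * (B.H r ^ 2 - κ r ^ 2) / (4 * B.lam r ^ 2))) atTop (𝓝 (2 * m)) ∧
  ∀ᶠ r in atTop, |κ r| < B.H r

end Vale.Agent.T4
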