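import Vale.Agent.P366.T5.Union355

/-! The equality case of the inequality with nonzero momentum: conformally flat data with a radial
trace of `K`. -/

section

open Set Function Filter Topology

namespace Vale.Agent.P366

theorem omega_low68 (nn a M T m v t : ℝ) (hn : 3 ≤ nn) (ha : 0 < a) (hM : 0 < M) (hT : 0 < T)
    (hm : m = min M a) (hF : (1 - 2 * (M / T)) * a ^ 2 ≤ M ^ 2) (hv : v ^ 2 ≤ 1)
    (ht0 : 0 ≤ t) (ht1 : t ≤ 1) :
    M + t * m * v + 4 / 27 * (a ^ 2 / T) ≤ M + a ^ 2 / T + t * a * v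
      - m * a / T * (1 / nn - v ^ 2 + (1 - 1 / nn) * v) := by
  have hv1 : v ≤ 1 := (abs_le.mp ((sq_le_one_iff_abs_le_one v).mp hv)).2
  have hv1' : -1 ≤ v := (abs_le.mp ((sq_le_one_iff_abs_le_one v).mp hv)).1
  have hnn : 0 < nn := by linarith only [hn]
  have hinv0 : 0 < 1 / nn := by positivity
  have hinv : 1 / nn ≤ 1 / 3 := by
    apply one_div_le_one_div_of_le (by norm_num) hn
  set i := 1 / nn with hi
  set e : ℝ := i - v ^ 2 + (1 - i) * v with he
  have he49 : e ≤ 4 / 9 := by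
    have h1 : e = (1 + i) ^ 2 / 4 - (v - (1 - i) / 2) ^ 2 := by rw [he]; ring
    have h2 : (1 + i) ^ 2 ≤ (4 / 3) ^ 2 := pow_le_pow_left₀ (by linarith only [hinv0])
      (by linarith only [hinv]) 2
    have h3 : 0 ≤ (v - (1 - i) / 2) ^ 2 := sq_nonneg _
    rw [h1]
    norm_num at h2
    linarith only [h2, h3]
  have haT : 0 < a / T := by positivity
  have haT2 : 0 < a ^ 2 / T := by positivity
  rcases le_total a M with h | h
  · have hma : m = a := by rw [hm]; exact min_eq_right h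
    rw [hma]
    have h1 : M + a ^ 2 / T + t * a * v - a * a / T * e - (M + t * a * v) =
        a ^ 2 / T * (1 - e) := by ring
    have h2 : a ^ 2 / T * (5 / 9) ≤ a ^ 2 / T * (1 - e) :=
      mul_le_mul_of_nonneg_left (by linarith only [he49]) haT2.le
    linarith only [h2, h1, haT2]
  · have hmM : m = M := by rw [hm]; exact min_eq_left h
    rw [hmM]
    have h1 : M + a ^ 2 / T + t * a * v - M * a / T * e - (M + t * M * v) =
        a / T * (a - M * e) + t * (a - M) * v := by ring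
    have h2 : 4 / 27 * (a ^ 2 / T) ≤ a / T * (a - M * e) + t * (a - M) * v := by
      rcases le_or_gt 0 v with hv0 | hv0
      · have h3 : M * e ≤ 4 / 9 * a := by
          calc M * e ≤ M * (4 / 9) := mul_le_mul_of_nonneg_left he49 hM.le
            _ ≤ 4 / 9 * a := by linarith only [h]
        have h4 : a / T * (5 / 9 * a) ≤ a / T * (a - M * e) :=
          mul_le_mul_of_nonneg_left (by linarith only [h3]) haT.le
        have h5 : 0 ≤ t * (a - M) * v := mul_nonneg (mul_nonneg ht0 (by linarith only [h])) hv0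
        have h6 : a / T * (5 / 9 * a) = 5 / 9 * (a ^ 2 / T) := by ring
        linarith only [h5, h4, h6, haT2]
      · set w := -v with hw
        have hw0 : 0 < w := by linarith only [hv0]
        have hw1 : w ≤ 1 := by linarith only [hv1']
        have hvw : v = -w := by ring
        have hee : e = i - w ^ 2 - (1 - i) * w := by rw [he, hvw]; ring
        have hei : e ≤ 1 / 3 := by
          have h10 : 0 ≤ w ^ 2 + (1 - i) * w :=
            add_nonneg (sq_nonneg w) (mul_nonneg (by linarith only [hinv]) hw0.le)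
          rw [hee]
          linarith only [h10, hinv]
        have h6 : (a - M) * (a + M) ≤ 2 * M * a * (a / T) := by
          have : (1 - 2 * (M / T)) * a ^ 2 = a ^ 2 - 2 * M * a * (a / T) := by
            (clear * - hT ha; field_simp)
          rw [this] at hF
          have e : (a - M) * (a + M) = a ^ 2 - M ^ 2 := by ring
          rw [e]; linarith only [hF]
        have h7' : 2 / 3 * a ≤ a - M * e := by
          have : M * e ≤ M * (1 / 3) := mul_le_mul_of_nonneg_left hei hM.le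
          linarith only [this, h]
        have h7 : 0 ≤ a - M * e := by linarith only [h7', ha]
        have h8 : (a - M) * (a + M) * (a - M * e) ≤ 2 * M * a * (a / T) * (a - M * e) :=
          mul_le_mul_of_nonneg_right h6 h7
        have h9 : 2 * M * a * (w + 4 / 9) ≤ (a + M) * (a - M * e) := by
          rw [hee]
          have h10 : 0 ≤ w ^ 2 + (1 - i) * w :=
            add_nonneg (sq_nonneg w) (mul_nonneg (by linarith only [hinv]) hw0.le)
          have h11 : (a + M) * (a - M * (i - w ^ 2 - (1 - i) * w)) =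
              (a + M) * (a - M * i) + (a + M) * M * (w ^ 2 + (1 - i) * w) := by ring
          rw [h11]
          have h12 : 2 * M * (a * (1 - i)) ≤ (a + M) * (a - M * i) := by
            have e1 : a * (1 - i) ≤ a - M * i := by
              have h30 : M * i ≤ a * i := mul_le_mul_of_nonneg_right h hinv0.le
              have e : a * (1 - i) = a - a * i := by ring
              rw [e]; linarith only [h30]
            have e2 : 0 ≤ a * (1 - i) := mul_nonneg ha.le (by linarith only [hinv])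
            calc 2 * M * (a * (1 - i)) ≤ (a + M) * (a * (1 - i)) :=
                  mul_le_mul_of_nonneg_right (by linarith only [h]) e2
              _ ≤ _ := mul_le_mul_of_nonneg_left e1 (by linarith only [h, hM])
          have h13 : a * M * (w ^ 2 + (1 - i) * w) ≤ (a + M) * M * (w ^ 2 + (1 - i) * w) := by
            apply mul_le_mul_of_nonneg_right _ h10
            exact mul_le_mul_of_nonneg_right (by linarith only [hM]) hM.le
          have h14 : 0 ≤ M * a * (2 * (1 - i) + w ^ 2 + (1 - i) * w - 2 * w - 8 / 9) := by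
            apply mul_nonneg (mul_nonneg hM.le ha.le)
            have h20 : 2 / 3 ≤ 1 - i := by linarith only [hinv]
            have h21 : 2 / 3 * w ≤ (1 - i) * w := mul_le_mul_of_nonneg_right h20 hw0.le
            have h22 : 0 ≤ (w - 2 / 3) ^ 2 := sq_nonneg _
            have h23 : (w - 2 / 3) ^ 2 = w ^ 2 - 4 / 3 * w + 4 / 9 := by ring
            linarith only [h21, h20, h22, h23]
          have h24 : M * a * (2 * (1 - i) + w ^ 2 + (1 - i) * w - 2 * w - 8 / 9) =
              2 * M * (a * (1 - i)) + a * M * (w ^ 2 + (1 - i) * w) -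
                2 * M * a * (w + 4 / 9) := by ring
          linarith only [h13, h12, h14, h24]
        have h15 : (a - M) * (2 * M * a * (w + 4 / 9)) ≤ (a - M) * ((a + M) * (a - M * e)) :=
          mul_le_mul_of_nonneg_left h9 (by linarith only [h])
        have h16 : (a - M) * (w + 4 / 9) ≤ a / T * (a - M * e) := by
          have h17 : 2 * M * a * ((a - M) * (w + 4 / 9)) ≤
              2 * M * a * (a / T * (a - M * e)) := by
            calc 2 * M * a * ((a - M) * (w + 4 / 9)) = (a - M) * (2 * M * a * (w + 4 / 9)) := by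
                  ring
              _ ≤ (a - M) * ((a + M) * (a - M * e)) := h15
              _ = (a - M) * (a + M) * (a - M * e) := by ring
              _ ≤ 2 * M * a * (a / T) * (a - M * e) := h8
              _ = _ := by ring
          exact le_of_mul_le_mul_left h17 (by positivity)
        have h18 : t * (a - M) * v = -(t * ((a - M) * w)) := by rw [hvw]; ring
        have h19 : t * ((a - M) * w) ≤ 1 * ((a - M) * w) :=
          mul_le_mul_of_nonneg_right ht1 (mul_nonneg (by linarith only [h]) hw0.le)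
        have h30 : a / T * (2 / 3 * a) ≤ a / T * (a - M * e) :=
          mul_le_mul_of_nonneg_left h7' haT.le
        have h31 : a / T * (2 / 3 * a) = 2 / 3 * (a ^ 2 / T) := by ring
        have h32 : (a - M) * w ≤ (a - M) * 1 :=
          mul_le_mul_of_nonneg_left hw1 (by linarith only [h])
        have h33 : (a - M) * (w + 4 / 9) = (a - M) * w + 4 / 9 * (a - M) := by ring
        rw [h18]
        rcases le_or_gt ((a - M) * w) (a / T * (a - M * e) / 2) with h34 | h34
        · linarith only [h34, h19, h30, h31, haT2]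
        · have h35 : 1 / 3 * (a ^ 2 / T) ≤ a - M := by linarith only [h34, h32, h30, h31]
          linarith only [h35, h16, h33, h19]
    linarith only [h2, h1]

variable {n : ℕ} {S : Type*} [TopologicalSpace S] (D : SphAvg n S)

theorem sum_sq_le68 (X : Fin n → C(S, ℝ)) (x : Fin n → ℝ) (hx : ∀ i, x i = D.avg (X i)) :
    ∑ i, x i ^ 2 ≤ D.avg (∑ i, X i ^ 2) := by
  rw [map_sum]
  refine Finset.sum_le_sum fun i _ => ?_
  have h1 : 0 ≤ D.avg ((X i - ContinuousMap.const S (x i)) ^ 2) := by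
    apply D.avg_nonneg
    intro s
    simp only [ContinuousMap.coe_pow, Pi.pow_apply]
    exact sq_nonneg _
  have h2 : (X i - ContinuousMap.const S (x i)) ^ 2 =
      X i ^ 2 - (2 * x i) • X i + ContinuousMap.const S (x i ^ 2) := by
    ext s
    simp only [ContinuousMap.coe_pow, Pi.pow_apply, ContinuousMap.coe_sub, Pi.sub_apply,
      ContinuousMap.const_apply, ContinuousMap.coe_add, Pi.add_apply, ContinuousMap.coe_smul,
      Pi.smul_apply, smul_eq_mul]
    ring
  rw [h2, map_add, map_sub, map_smul, D.avg_const, ← hx i, smul_eq_mul] at h1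
  nlinarith only [h1]

theorem key_abs68 (hn : 3 ≤ n) (P x : Fin n → ℝ) (R f h c l T M A p Ns k0 ga sl : ℝ)
    (hpdef : p = ∑ i, P i ^ 2)
    (hR : 0 < R) (hf : 0 < f) (hh : 0 < h) (hM : 0 < M) (hT : 0 < T)
    (hc : c ^ 2 < h ^ 2) (hAdef : A = M + p / T) (hl : l = h - 1 / R)
    (hNs : Ns = R ^ 2 * (h ^ 2 - c ^ 2)) (hMT : 2 * (M / T) = 1 - Ns)
    (hF : 0 ≤ M ^ 2 - Ns * p)
    (mu JN Q : C(S, ℝ)) (J X : Fin n → C(S, ℝ))
    (hJN : JN = ∑ i, D.N i * J i)
    (hP : ∀ i, P i = T * R / f * x i / ((n : ℝ) - 1))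
    (hQ : ∀ s, 0 ≤ Q s) (hmu : ∀ s, 0 ≤ mu s)
    (hdec : ∀ s, ∑ i, J i s ^ 2 ≤ (f * mu s) ^ 2)
    (B : C(S, ℝ)) (hBdef : B = h • mu - (c / f) • JN + (h / f ^ 4) • (∑ i, X i ^ 2 + (1 / 2 : ℝ) • Q))
    (hB : ∀ i, D.avg (D.N i * B) = c / f ^ 3 * (x i / R))
    (hB2 : D.avg (D.q P ^ 2 * B) = p / n * D.avg B
      + 2 * c / (f ^ 3 * R) * D.avg (D.q P * ∑ i, P i • X i))
    (W : C(S, ℝ)) (hWs : W = ContinuousMap.const S (A - k0 * p / n) + (c / h - ga) • D.q P
      + k0 • D.q P ^ 2)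
    (hW0 : ∀ s, 0 ≤ W s)
    (hW1 : ∀ s, (D.q P s) ^ 2 + Ns * (p - (D.q P s) ^ 2) ≤ (W s - c / h * D.q P s) ^ 2)
    (hXf : n * (M / T) * h * p + sl ≤ (T * R ^ 2 / (((n : ℝ) - 1) * f ^ 2)) * h *
      D.avg (W * ∑ i, X i ^ 2) + ga * c * p
      - k0 * (2 * c * T * R / (((n : ℝ) - 1) * f)) * D.avg (D.q P * ∑ i, P i • X i)) :
    sl ≤ A * ((T * R ^ 2 * f ^ 2 / ((n : ℝ) - 1)) * D.avg B) - ((n : ℝ) - 2) * (M / T) * h * p
      - Ns * ∑ i, P i * (-(l / h) * (h + 1 / R) * P i
        + (T * R * f / ((n : ℝ) - 1)) * (D.avg (J i) - (l / h) * D.avg (JN * D.N i))) := by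
  have hn' : (3 : ℝ) ≤ n := by exact_mod_cast hn
  have hn1 : (0 : ℝ) < (n : ℝ) - 1 := by linarith only [hn']
  have hnpos : (0 : ℝ) < n := by linarith only [hn1]
  obtain ⟨hp0, hA, hNs1, hNs0, hpA, hcoef, hPx⟩ := key_setup hn P x R f h c l T M A p Ns hpdef
    hR hf hh hM hT hc hAdef hl hNs hMT hF hP
  rw [key_sum D P R f h l T p hpdef JN J]
  set b1 := D.avg (∑ i, P i • J i) with hb1
  set b2 := D.avg (D.q P * JN) with hb2
  -- matter
  have hG : 0 ≤ D.avg (h • (W * mu) - (c / f) • (W * JN)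
      - (Ns / (R * f)) • ((∑ i, P i • J i) - (l / h) • (D.q P * JN))) := by
    apply D.avg_nonneg
    intro s
    have := matter_pointwise2 D P (fun i => J i s) s R f h c l p Ns (mu s) (W s) (JN s)
      hpdef hR hf hh hc hl hNs (hW0 s) (hW1 s)
      (by rw [hJN]; simp only [ContinuousMap.coe_sum, ContinuousMap.coe_mul, Finset.sum_apply, Pi.mul_apply]) (hmu s) (hdec s)
    simp only [ContinuousMap.coe_sub, Pi.sub_apply, ContinuousMap.coe_smul, Pi.smul_apply,
      ContinuousMap.coe_sum, Finset.sum_apply, smul_eq_mul, ContinuousMap.coe_mul, Pi.mul_apply]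
    refine le_trans this (le_of_eq ?_)
    ring
  have hWQ : 0 ≤ D.avg (W * Q) := by
    apply D.avg_nonneg
    intro s
    simpa only [ContinuousMap.mul_apply] using mul_nonneg (hW0 s) (hQ s)
  have e1 : D.avg (W * B) = (A - k0 * p / n) * D.avg B + (c / h - ga) * D.avg (D.q P * B)
      + k0 * D.avg (D.q P ^ 2 * B) := by
    have : W * B = (A - k0 * p / n) • B + (c / h - ga) • (D.q P * B)
        + k0 • (D.q P ^ 2 * B) := by
      rw [hWs]; ext s; simp only [ContinuousMap.mul_apply, ContinuousMap.add_apply, ContinuousMap.const_apply, ContinuousMap.coe_smul, Pi.smul_apply, smul_eq_mul, ContinuousMap.coe_pow, Pi.pow_apply, ContinuousMap.coe_mul, Pi.mul_apply]; ring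
    rw [this, map_add, map_add, map_smul, map_smul, map_smul]; simp only [smul_eq_mul]
  have e2 : D.avg (W * B) = h * D.avg (W * mu) - (c / f) * D.avg (W * JN)
      + (h / f ^ 4) * (D.avg (W * ∑ i, X i ^ 2) + (1 / 2) * D.avg (W * Q)) := by
    have : W * B = h • (W * mu) - (c / f) • (W * JN)
        + (h / f ^ 4) • ((W * ∑ i, X i ^ 2) + (1 / 2 : ℝ) • (W * Q)) := by
      rw [hBdef]; ext s; simp only [one_div, smul_add, ContinuousMap.mul_apply, ContinuousMap.add_apply, ContinuousMap.sub_apply, ContinuousMap.coe_smul, Pi.smul_apply, smul_eq_mul, ContinuousMap.coe_sum, ContinuousMap.coe_pow, Finset.sum_apply, Pi.pow_apply, ContinuousMap.coe_mul, Pi.mul_apply]; ring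
    rw [this]; simp only [map_add, map_sub, map_smul, smul_eq_mul]
  have e3 : D.avg (D.q P * B) = c * ((n : ℝ) - 1) * p / (f ^ 2 * T * R ^ 2) := by
    have : D.q P * B = ∑ i, P i • (D.N i * B) := by
      ext s
      simp only [ContinuousMap.coe_mul, Pi.mul_apply, D.q_apply, ContinuousMap.coe_sum,
        Finset.sum_apply, ContinuousMap.coe_smul, Pi.smul_apply, smul_eq_mul]
      rw [Finset.sum_mul]
      refine Finset.sum_congr rfl fun i _ => by ring
    rw [this, map_sum]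
    simp only [map_smul, smul_eq_mul, hB]
    have : ∑ i, P i * (c / f ^ 3 * (x i / R)) = c / (f ^ 3 * R) * ∑ i, P i * x i := by
      rw [Finset.mul_sum]
      refine Finset.sum_congr rfl fun i _ => by (clear * - hR hf; field_simp)
    rw [this, hPx]; (clear * - hT hn1 hR hf; field_simp)
  have e4 : D.avg (h • (W * mu) - (c / f) • (W * JN)
      - (Ns / (R * f)) • ((∑ i, P i • J i) - (l / h) • (D.q P * JN))) =
      h * D.avg (W * mu) - (c / f) * D.avg (W * JN)
        - (Ns / (R * f)) * (b1 - (l / h) * b2) := by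
    simp only [map_sub, map_smul, smul_eq_mul, hb1, hb2]
  rw [e4] at hG
  rw [e3, hB2] at e1
  set a0 := D.avg B
  set a1 := D.avg (W * mu)
  set a2 := D.avg (W * JN)
  set a3 := D.avg (W * ∑ i, X i ^ 2)
  set a4 := D.avg (W * Q)
  set a5 := D.avg (D.q P * ∑ i, P i • X i)
  -- A * a0
  have e5 : A * a0 = h * a1 - (c / f) * a2 + (h / f ^ 4) * (a3 + (1 / 2) * a4)
      - (c / h - ga) * (c * ((n : ℝ) - 1) * p / (f ^ 2 * T * R ^ 2))
      - k0 * (2 * c / (f ^ 3 * R) * a5) := by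
    rw [← e2, e1]; ring
  have e6 : A * ((T * R ^ 2 * f ^ 2 / ((n : ℝ) - 1)) * a0) =
      (T * R ^ 2 * f ^ 2 / ((n : ℝ) - 1)) * (h * a1 - (c / f) * a2)
      + (T * R ^ 2 / (((n : ℝ) - 1) * f ^ 2)) * h * a3
      + (T * R ^ 2 / (((n : ℝ) - 1) * f ^ 2)) * h * ((1 / 2) * a4) - (c / h - ga) * (c * p)
      - k0 * (2 * c * T * R / (((n : ℝ) - 1) * f)) * a5 := by
    have : A * ((T * R ^ 2 * f ^ 2 / ((n : ℝ) - 1)) * a0) =
      (T * R ^ 2 * f ^ 2 / ((n : ℝ) - 1)) * (A * a0) := by ring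
    rw [this, e5]; field_simp; ring
  have e7 : Ns * (-((l / h) * (h + 1 / R)) * p + (T * R * f / ((n : ℝ) - 1)) * (b1 - (l / h) * b2))
      = -(c ^ 2 / h - 2 * (M / T) * h) * p
        + (T * R ^ 2 * f ^ 2 / ((n : ℝ) - 1)) * ((Ns / (R * f)) * (b1 - (l / h) * b2)) := by
    rw [← hcoef]; (clear * - hR hn1 hh; field_simp)
  rw [e6, e7]
  have h8 : 0 ≤ (T * R ^ 2 * f ^ 2 / ((n : ℝ) - 1)) *
      (h * a1 - (c / f) * a2 - (Ns / (R * f)) * (b1 - (l / h) * b2)) :=
    mul_nonneg (by (clear * - hT hR hf hn1; positivity)) hG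
  have h9 : 0 ≤ (T * R ^ 2 / (((n : ℝ) - 1) * f ^ 2)) * h * ((1 / 2) * a4) :=
    mul_nonneg (by (clear * - hT hR hn1 hf hh; positivity)) (by linarith only [hWQ])
  have h10 : (T * R ^ 2 * f ^ 2 / ((n : ℝ) - 1)) *
      (h * a1 - (c / f) * a2 - (Ns / (R * f)) * (b1 - (l / h) * b2)) =
      (T * R ^ 2 * f ^ 2 / ((n : ℝ) - 1)) * (h * a1 - (c / f) * a2)
      - (T * R ^ 2 * f ^ 2 / ((n : ℝ) - 1)) * ((Ns / (R * f)) * (b1 - (l / h) * b2)) := by ring
  have h11 : ((n : ℝ) - 2) * (M / T) * h * p + -(c ^ 2 / h - 2 * (M / T) * h) * p =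
      n * (M / T) * h * p - (c ^ 2 / h) * p := by ring
  have h12 : (c / h - ga) * (c * p) = (c ^ 2 / h) * p - ga * c * p := by ring
  rw [h12]
  linarith only [h8, hXf, h9]

/-- The algebraic heart is strict where the momentum is not zero. -/
theorem key_pos68 (hn : 3 ≤ n) (P x : Fin n → ℝ) (R f h c l T M A p Ns : ℝ)
    (hpdef : p = ∑ i, P i ^ 2)
    (hR : 0 < R) (hf : 0 < f) (hh : 0 < h) (hM : 0 < M) (hT : 0 < T)
    (hc : c ^ 2 < h ^ 2) (hAdef : A = M + p / T) (hl : l = h - 1 / R)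
    (hNs : Ns = R ^ 2 * (h ^ 2 - c ^ 2)) (hMT : 2 * (M / T) = 1 - Ns)
    (hF : 0 ≤ M ^ 2 - Ns * p)
    (hppos : 0 < p)
    (mu JN Q : C(S, ℝ)) (J X : Fin n → C(S, ℝ))
    (hJN : JN = ∑ i, D.N i * J i)
    (hXt : ∀ s, ∑ i, D.N i s * X i s = 0)
    (hx : ∀ i, x i = D.avg (X i)) (hP : ∀ i, P i = T * R / f * x i / ((n : ℝ) - 1))
    (hQ : ∀ s, 0 ≤ Q s) (hmu : ∀ s, 0 ≤ mu s)
    (hdec : ∀ s, ∑ i, J i s ^ 2 ≤ (f * mu s) ^ 2)
    (B : C(S, ℝ)) (hBdef : B = h • mu - (c / f) • JN + (h / f ^ 4) • (∑ i, X i ^ 2 + (1 / 2 : ℝ) • Q))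
    (hB : ∀ i, D.avg (D.N i * B) = c / f ^ 3 * (x i / R))
    (hB2 : D.avg (D.q P ^ 2 * B) = p / n * D.avg B
      + 2 * c / (f ^ 3 * R) * D.avg (D.q P * ∑ i, P i • X i)) :
    0 < A * ((T * R ^ 2 * f ^ 2 / ((n : ℝ) - 1)) * D.avg B) - ((n : ℝ) - 2) * (M / T) * h * p
      - Ns * ∑ i, P i * (-(l / h) * (h + 1 / R) * P i
        + (T * R * f / ((n : ℝ) - 1)) * (D.avg (J i) - (l / h) * D.avg (JN * D.N i))) := by
  have hn' : (3 : ℝ) ≤ n := by exact_mod_cast hn
  have hn1 : (0 : ℝ) < (n : ℝ) - 1 := by linarith only [hn']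
  have hnpos : (0 : ℝ) < n := by linarith only [hn1]
  obtain ⟨hp0, hA, hNs1, hNs0, hpA, hcoef, hPx⟩ := key_setup hn P x R f h c l T M A p Ns hpdef
    hR hf hh hM hT hc hAdef hl hNs hMT hF hP
  have hqp : ∀ s, (D.q P s) ^ 2 ≤ p := fun s => by rw [hpdef]; exact D.q_sq_le P s
  set a : ℝ := √p with hadef
  have ha : 0 < a := Real.sqrt_pos.mpr hppos
  have hap : a ^ 2 = p := Real.sq_sqrt hp0
  set m : ℝ := min M a with hmdef
  have hm0 : 0 < m := lt_min hM ha
  have hmM : m ≤ M := min_le_left _ _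
  obtain ⟨ep, hep2, hepc⟩ : ∃ ep : ℝ, ep ^ 2 = 1 ∧ ep * c = |c| := by
    rcases le_or_gt 0 c with h0 | h0
    · exact ⟨1, by norm_num, by rw [one_mul, abs_of_nonneg h0]⟩
    · exact ⟨-1, by norm_num, by rw [abs_of_neg h0]; ring⟩
  have hch : |c| < h := abs_lt_of_sq_lt_sq hc hh.le
  have haA : a ≤ A := by
    have : a ^ 2 ≤ A ^ 2 := by rw [hap]; exact hpA
    exact (abs_le_of_sq_le_sq' this hA.le).2
  have hy : 2 * (M / T) ≤ 1 := by linarith only [hNs0, hMT]
  have hNs' : Ns = 1 - 2 * (M / T) := by linarith only [hMT]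
  set g0 : ℝ := 1 - 1 / (n : ℝ) with hg0
  set k0 : ℝ := m / (T * a) with hk0
  set ga : ℝ := m / T * g0 * ep with hga
  -- the variable v = ep q / a
  have hv : ∀ s, (ep * D.q P s / a) ^ 2 ≤ 1 := by
    intro s
    rw [div_pow, mul_pow, hep2, one_mul, hap, div_le_one hppos]
    exact hqp s
  have hav : ∀ s, a * (ep * D.q P s / a) = ep * D.q P s := fun s => by (clear * - ha; field_simp)
  have havsq : ∀ s, (a * (ep * D.q P s / a)) ^ 2 = (D.q P s) ^ 2 := fun s => by
    rw [hav, mul_pow, hep2, one_mul]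
  -- the subtracted polynomial
  have hd : ∀ s, m * a / T * (1 / n - (ep * D.q P s / a) ^ 2
      + (1 - 1 / n) * (ep * D.q P s / a)) =
      k0 * p / n - k0 * (D.q P s) ^ 2 + ga * D.q P s := by
    intro s
    have e1 : (ep * D.q P s / a) ^ 2 = (D.q P s) ^ 2 / p := by
      rw [div_pow, mul_pow, hep2, one_mul, hap]
    rw [e1, hk0, hga, hg0, ← hap]
    (clear * - ha hn hT hm0; field_simp)
  have hWval : ∀ s, (ContinuousMap.const S (A - k0 * p / n) + (c / h - ga) • D.q P
      + k0 • D.q P ^ 2 : C(S, ℝ)) s = c / h * D.q P s + (A - m * a / T *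
        (1 / n - (ep * D.q P s / a) ^ 2 + (1 - 1 / n) * (ep * D.q P s / a))) := by
    intro s
    rw [hd]
    simp only [ContinuousMap.coe_add, Pi.add_apply, ContinuousMap.const_apply,
      ContinuousMap.coe_smul, Pi.smul_apply, smul_eq_mul, ContinuousMap.coe_pow, Pi.pow_apply]
    ring
  have hsq := fun s => omega_sq (n : ℝ) a A M T m (ep * D.q P s / a) hn' ha hM hT hm0 hmM haA
    hy (hv s)
  have hlow := fun s => omega_low68 (n : ℝ) a M T m (ep * D.q P s / a) (|c| / h) hn' ha hM hT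
    hmdef (by rw [hap, ← hNs']; linarith only [hF]) (hv s) (by (clear * - hh; positivity))
    (by rw [div_le_one hh]; exact hch.le)
  have hcq : ∀ s, |c| / h * a * (ep * D.q P s / a) = c / h * D.q P s := by
    intro s
    have : |c| / h * a * (ep * D.q P s / a) = |c| / h * (a * (ep * D.q P s / a)) := by ring
    rw [this, hav, ← hepc]
    have : ep * c / h * (ep * D.q P s) = ep ^ 2 * (c / h * D.q P s) := by ring
    rw [this, hep2, one_mul]
  have hcm : ∀ s, |c| / h * m * (ep * D.q P s / a) = c / h * m / a * D.q P s := by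
    intro s
    have : |c| / h * m * (ep * D.q P s / a) = (|c| / h * a * (ep * D.q P s / a)) * (m / a) := by
      (clear * - ha hm0 hh; field_simp)
    rw [this, hcq]; ring
  set t : ℝ := c * m / (h * M) with htdef
  have ht1 : t ^ 2 < 1 := by
    rw [htdef, div_pow, div_lt_one (by positivity), mul_pow, mul_pow]
    have : m ^ 2 ≤ M ^ 2 := pow_le_pow_left₀ hm0.le hmM 2
    have h0 : 0 < M ^ 2 := by positivity
    calc c ^ 2 * m ^ 2 ≤ c ^ 2 * M ^ 2 := mul_le_mul_of_nonneg_left this (sq_nonneg c)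
      _ < h ^ 2 * M ^ 2 := mul_lt_mul_of_pos_right hc h0
  set δ : ℝ := 4 / 27 * (p / T) with hδ
  have hδ0 : 0 < δ := by (clear * - hδ hppos hT; positivity)
  have hWlow : ∀ s, M * (1 + t / a * D.q P s) + δ ≤
      (ContinuousMap.const S (A - k0 * p / n) + (c / h - ga) • D.q P
      + k0 • D.q P ^ 2 : C(S, ℝ)) s := by
    intro s
    rw [hWval]
    have h1 := hlow s
    rw [hcm, hcq, hap] at h1
    have e1 : M * (1 + t / a * D.q P s) = M + c / h * m / a * D.q P s := by
      rw [htdef]; (clear * - ha hh hM; field_simp)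
    rw [e1, hAdef, hδ]
    linarith only [h1]
  set W : C(S, ℝ) := ContinuousMap.const S (A - k0 * p / n) + (c / h - ga) • D.q P
      + k0 • D.q P ^ 2 with hWdef
  have hX := X_term2 D hn P x R f h c M T p a m t hpdef hR hf hh hM hT ha hap htdef ht1
    (W - ContinuousMap.const S δ)
    (fun s => by
      have h1 := hWlow s
      simp only [ContinuousMap.coe_sub, Pi.sub_apply, ContinuousMap.const_apply]
      linarith only [h1]) X hXt hx hP
  have hsplit : D.avg ((W - ContinuousMap.const S δ) * ∑ i, X i ^ 2) =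
      D.avg (W * ∑ i, X i ^ 2) - δ * D.avg (∑ i, X i ^ 2) := by
    have h1 : (W - ContinuousMap.const S δ) * ∑ i, X i ^ 2 =
        W * ∑ i, X i ^ 2 - δ • ∑ i, X i ^ 2 := by
      ext s
      simp only [ContinuousMap.coe_mul, Pi.mul_apply, ContinuousMap.coe_sub, Pi.sub_apply,
        ContinuousMap.const_apply, ContinuousMap.coe_smul, Pi.smul_apply, smul_eq_mul]
      ring
    rw [h1, map_sub, map_smul, smul_eq_mul]
  rw [hsplit] at hX
  have hXpos : 0 < D.avg (∑ i, X i ^ 2) := by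
    refine lt_of_lt_of_le ?_ (sum_sq_le68 D X x hx)
    by_contra hle
    have hz : ∀ i, x i = 0 := by
      intro i
      have h1 : x i ^ 2 ≤ ∑ j, x j ^ 2 :=
        Finset.single_le_sum (f := fun j => x j ^ 2) (fun j _ => sq_nonneg _) (Finset.mem_univ i)
      have h2 : x i ^ 2 = 0 := le_antisymm (h1.trans (not_lt.mp hle)) (sq_nonneg _)
      exact pow_eq_zero_iff (two_ne_zero) |>.mp h2
    have hp00 : p = 0 := by
      rw [hpdef]
      refine Finset.sum_eq_zero fun i _ => ?_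
      rw [hP i, hz i]
      simp
    exact absurd hppos (by rw [hp00]; exact lt_irrefl _)
  set sl : ℝ := (T * R ^ 2 / (((n : ℝ) - 1) * f ^ 2)) * h * (δ * D.avg (∑ i, X i ^ 2)) with hsl
  have hslpos : 0 < sl := by
    have h2 : 0 < (T * R ^ 2 / (((n : ℝ) - 1) * f ^ 2)) * h := by
      (clear * - hT hR hn1 hf hh; positivity)
    exact mul_pos h2 (mul_pos hδ0 hXpos)
  refine lt_of_lt_of_le hslpos ?_
  have hWpos : ∀ s, 0 ≤ (ContinuousMap.const S (A - k0 * p / n) + (c / h - ga) • D.q P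
      + k0 • D.q P ^ 2 : C(S, ℝ)) s := by
    intro s
    refine le_trans ?_ (hWlow s)
    exact (add_pos (mul_pos hM (symm2 p (D.q P s) t a ha hap (hqp s) ht1).1) hδ0).le
  refine key_abs68 D hn P x R f h c l T M A p Ns k0 ga sl hpdef hR hf hh hM hT hc hAdef hl hNs hMT hF
    mu JN Q J X hJN hP hQ hmu hdec B hBdef hB hB2 _ rfl hWpos ?_ ?_
  · intro s
    rw [hWval]
    have h1 := (hsq s).2
    rw [havsq, hap, ← hNs'] at h1
    have e1 : c / h * D.q P s + (A - m * a / T *
        (1 / n - (ep * D.q P s / a) ^ 2 + (1 - 1 / n) * (ep * D.q P s / a)))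
        - c / h * D.q P s = A - m * a / T *
        (1 / n - (ep * D.q P s / a) ^ 2 + (1 - 1 / n) * (ep * D.q P s / a)) := by ring
    rw [e1]
    exact h1
  · -- combine
    have e1 : k0 * (2 * c * T * R / (((n : ℝ) - 1) * f)) =
        2 * c * m * R / (((n : ℝ) - 1) * f * a) := by
      rw [hk0]; (clear * - hT hf hn1 hR ha hm0; field_simp)
    have e2 : ga * c * p = |c| * m * g0 * p / T := by
      rw [hga]
      have : m / T * g0 * ep * c * p = m / T * g0 * (ep * c) * p := by ring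
      rw [this, hepc]; ring
    rw [e1, e2]
    have hg0' : 0 ≤ g0 := by
      rw [hg0, sub_nonneg, div_le_one hnpos]; linarith only [hn1]
    -- |c| m ≥ M h t²
    have e3 : (M * h / T) * (g0 * t ^ 2 * p) ≤ |c| * m * g0 * p / T := by
      have e4 : (M * h / T) * (g0 * t ^ 2 * p) =
          (|c| * m * g0 * p / T) * (|c| * m / (h * M)) := by
        rw [htdef, div_pow, mul_pow, ← sq_abs c]; (clear * - hppos hm0 hT hh hM; field_simp)
      rw [e4]
      have h5 : |c| * m / (h * M) ≤ 1 := by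
        rw [div_le_one (by positivity)]
        exact mul_le_mul hch.le hmM hm0.le hh.le
      have h6 : 0 ≤ |c| * m * g0 * p / T := by (clear * - hM hppos hg0' hT; positivity)
      exact mul_le_of_le_one_right h6 h5
    have e5 : (M * h / T) * (n * p - (1 - 1 / (n : ℝ)) * t ^ 2 * p) =
        n * (M / T) * h * p - (M * h / T) * (g0 * t ^ 2 * p) := by
      rw [hg0]; ring
    rw [e5] at hX
    linarith only [e3, hX, hsl]


namespace ReducedData2

variable {n : ℕ} {S : Type*} [TopologicalSpace S] {D : SphAvg n S} (d : ReducedData2 n S D)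

/-- `F` is strictly increasing where the momentum is not zero. -/
theorem F_deriv_pos68 (hn : 3 ≤ n) {R : ℝ} (hR : d.a < R) (hh : 0 < d.h R)
    (hc : (d.c R) ^ 2 < (d.h R) ^ 2) (hM : 0 < d.M R) (hF : 0 ≤ d.F R) (hp : 0 < d.p2 R) :
    ∃ F', HasDerivAt d.F F' R ∧ 0 < F' := by
  refine ⟨_, d.F_deriv hn hR hh.ne', ?_⟩
  have hf := d.f_pos R hR.le
  have hR0 := d.pos_of_lt hR
  have hT := d.T_pos hR.le
  have hMT := d.two_MT hR.le
  have hl : d.l R = d.h R - 1 / R := by simp [h]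
  have key := key_pos68 D hn (fun i => d.P i R) (fun i => d.x i R) R (d.f R) (d.h R) (d.c R)
    (d.l R) (d.T R) (d.M R) (d.M R + d.p2 R / d.T R) (d.p2 R) (d.Ns R) rfl hR0 hf hh hM hT hc rfl
    hl rfl hMT hF hp (d.mu R) (d.JN R) (d.Q R) (d.J R) (d.X R) rfl (d.X_tan R hR)
    (fun i => d.x_eq i R hR) (fun i => rfl) (d.Q_nonneg R hR) (d.mu_nonneg R hR) (d.dec R hR)
    (d.B R) rfl (fun i => d.avg_N_B hn hR i) (d.avg_qq_B hn hR _ _ rfl)
  linarith only [key]

/-- **Reduced theorem, with its equality case.** -/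
theorem main68 (hn : 3 ≤ n) (E : ℝ) (Pinf : Fin n → ℝ) (hE : Tendsto d.M atTop (𝓝 E))
    (hP : ∀ i, Tendsto (d.P i) atTop (𝓝 (Pinf i))) :
    ∃ R2, d.a ≤ R2 ∧ d.Ns R2 = 0 ∧ 0 < E ∧
      (d.rho R2 ^ (n - 2) / 2) ^ 2 ≤ E ^ 2 - ∑ i, Pinf i ^ 2 ∧
      ((d.rho R2 ^ (n - 2) / 2) ^ 2 = E ^ 2 - ∑ i, Pinf i ^ 2 → ∀ i, Pinf i = 0) := by
  obtain ⟨R2, hR2, hN2, hbeyond⟩ := d.exists_R2 hn
  have hM2 : d.M R2 = d.rho R2 ^ (n - 2) / 2 := by
    have h1 := d.two_MT hR2
    rw [hN2, sub_zero] at h1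
    have hT := d.T_pos hR2
    have : d.M R2 = d.T R2 / 2 := by
      field_simp at h1 ⊢
      linarith only [h1]
    rw [this, T]
  have hM2pos : 0 < d.M R2 := by
    rw [hM2]; have := d.rho_pos hR2; positivity
  have hcs : ∀ R, R2 < R → (d.c R) ^ 2 < (d.h R) ^ 2 := by
    intro R hR
    have h1 := (hbeyond R hR).1
    have hR0 : 0 < R := lt_trans (lt_of_lt_of_le d.a_pos hR2) hR
    simp only [Ns] at h1
    have h2 : 0 < (d.h R) ^ 2 - (d.c R) ^ 2 := by
      by_contra hle
      push Not at hle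
      linarith only [mul_nonneg (sub_nonneg.2 hle) (sq_nonneg R), h1]
    linarith only [h2]
  have hMmono : MonotoneOn d.M (Ici R2) := by
    apply monotoneOn_of_deriv_nonneg (convex_Ici _)
    · exact (d.M_cont hn).mono (Ici_subset_Ici.mpr hR2)
    · intro x hx
      rw [interior_Ici] at hx
      exact (d.M_deriv hn (lt_of_le_of_lt hR2 hx)).differentiableAt.differentiableWithinAt
    · intro x hx
      rw [interior_Ici] at hx
      obtain ⟨M', h1, h2⟩ := d.M_deriv_nonneg hn (lt_of_le_of_lt hR2 hx)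
        (hbeyond x hx).2 (hcs x hx)
      rw [h1.deriv]; exact h2
  have hMge : ∀ R, R2 ≤ R → d.M R2 ≤ d.M R := fun R hR => hMmono (mem_Ici.mpr le_rfl) hR hR
  have hF2 : d.F R2 = (d.M R2) ^ 2 := by simp [F, hN2]
  have hFpos2 : 0 < d.F R2 := by rw [hF2]; (clear * - hM2pos; positivity)
  have hFcont : ContinuousOn d.F (Ici R2) := (d.F_cont hn).mono (Ici_subset_Ici.mpr hR2)
  have hFge : ∀ R, R2 ≤ R → d.F R2 ≤ d.F R := by
    apply bootstrap_mono
    · exact hFcont
    · exact hFpos2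
    · intro R hR hF
      exact d.F_deriv_nonneg hn (lt_of_le_of_lt hR2 hR) (hbeyond R hR).2 (hcs R hR)
        (lt_of_lt_of_le hM2pos (hMge R hR.le)) hF
  have hEge : d.M R2 ≤ E := by
    refine ge_of_tendsto hE ?_
    filter_upwards [eventually_ge_atTop R2] with R hR
    exact hMge R hR
  have hFlim : Tendsto d.F atTop (𝓝 (E ^ 2 - ∑ i, Pinf i ^ 2)) := by
    have h1 : Tendsto d.p2 atTop (𝓝 (∑ i, Pinf i ^ 2)) :=
      tendsto_finsetSum _ fun i _ => (hP i).pow 2
    have h2 := (hE.pow 2).sub ((d.lim_Ns hn).mul h1)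
    rwa [one_mul] at h2
  refine ⟨R2, hR2, hN2, lt_of_lt_of_le hM2pos hEge, ?_, ?_⟩
  · rw [← hM2, ← hF2]
    refine ge_of_tendsto hFlim ?_
    filter_upwards [eventually_ge_atTop R2] with R hR
    exact hFge R hR
  · intro heq
    rw [← hM2, ← hF2] at heq
    have hFmono : MonotoneOn d.F (Ici R2) := by
      apply monotoneOn_of_deriv_nonneg (convex_Ici _) hFcont
      · intro x hx
        rw [interior_Ici] at hx
        obtain ⟨F', h1, _⟩ := d.F_deriv_nonneg hn (lt_of_le_of_lt hR2 hx) (hbeyond x hx).2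
          (hcs x hx) (lt_of_lt_of_le hM2pos (hMge x hx.le)) (hFpos2.le.trans (hFge x hx.le))
        exact h1.differentiableAt.differentiableWithinAt
      · intro x hx
        rw [interior_Ici] at hx
        obtain ⟨F', h1, h2⟩ := d.F_deriv_nonneg hn (lt_of_le_of_lt hR2 hx) (hbeyond x hx).2
          (hcs x hx) (lt_of_lt_of_le hM2pos (hMge x hx.le)) (hFpos2.le.trans (hFge x hx.le))
        rw [h1.deriv]; exact h2
    have hconst : ∀ R, R2 ≤ R → d.F R = d.F R2 := by
      intro R hR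
      refine le_antisymm ?_ (hFge R hR)
      rw [heq]
      refine ge_of_tendsto hFlim ?_
      filter_upwards [eventually_ge_atTop R] with R' hR'
      exact hFmono hR (hR.trans hR') hR'
    have hp2 : ∀ R, R2 < R → d.p2 R = 0 := by
      intro R hR
      have h0 : 0 ≤ d.p2 R := Finset.sum_nonneg fun i _ => sq_nonneg _
      rcases h0.eq_or_lt with h1 | h1
      · exact h1.symm
      · exfalso
        obtain ⟨F', h2, h3⟩ := d.F_deriv_pos68 hn (lt_of_le_of_lt hR2 hR) (hbeyond R hR).2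
          (hcs R hR) (lt_of_lt_of_le hM2pos (hMge R hR.le)) (hFpos2.le.trans (hFge R hR.le)) h1
        have h4 : HasDerivAt d.F 0 R := by
          refine (hasDerivAt_const R (d.F R2)).congr_of_eventuallyEq ?_
          filter_upwards [lt_mem_nhds hR] with R' hR'
          exact hconst R' hR'.le
        have h5 := h2.unique h4
        linarith only [h3, h5]
    intro i
    have h1 : Tendsto (d.P i) atTop (𝓝 0) := by
      refine tendsto_const_nhds.congr' ?_
      filter_upwards [eventually_gt_atTop R2] with R hR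
      have h2 : (d.P i R) ^ 2 ≤ d.p2 R :=
        Finset.single_le_sum (f := fun j => (d.P j R) ^ 2) (fun j _ => sq_nonneg _)
          (Finset.mem_univ i)
      rw [hp2 R hR] at h2
      exact (pow_eq_zero_iff (two_ne_zero) |>.mp (le_antisymm h2 (sq_nonneg _))).symm
    exact tendsto_nhds_unique (hP i) h1

end ReducedData2

end Vale.Agent.P366
end

section

open MeasureTheory Metric Filter Topology Set
open scoped BigOperators ENNReal ContDiff

noncomputable section
namespace Vale.Agent.P366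

variable {n : ℕ}

/-- The assembled theorem, with an explicit round cut and the equality case. -/
theorem assembled68 (hn : 3 ≤ n) (D : Exterior n) (hAF : D.IsAF) (hDEC : D.DEC)
    (hT : D.Trapped) {m : ℝ} (hm : D.IsEnergy m) {P : E n} (hP : D.IsMomentum P)
    {R1 : ℝ} (hR1 : IsGreatest (norm '' frontier D.Ω) R1) {φ : ℝ → ℝ}
    (hφ : ∀ x : E n, R1 ≤ ‖x‖ → D.g x = φ ‖x‖ • (1 : Matrix (Fin n) (Fin n) ℝ))
    (hc : ∀ x y : E n, R1 ≤ ‖x‖ → ‖x‖ = ‖y‖ → trS D.g D.K norm x = trS D.g D.K norm y) :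
    ∃ R2 ρ : ℝ, R1 ≤ R2 ∧ 0 < ρ ∧
      D.area {x : E n | R2 ≤ ‖x‖} ≤ ENNReal.ofReal (omega n * ρ ^ (n - 1)) ∧ 0 < m ∧
      (ρ ^ (n - 2) / 2) ^ 2 ≤ m ^ 2 - ‖P‖ ^ 2 ∧
      ((ρ ^ (n - 2) / 2) ^ 2 = m ^ 2 - ‖P‖ ^ 2 → ∀ i, P i = 0) := by
  have hn2 : 2 ≤ n := by omega
  have : Nonempty (Fin n) := ⟨⟨0, by omega⟩⟩
  have : Nontrivial (E n) := inferInstance
  obtain ⟨b, hb0, hbR, hbU⟩ := D.exists_b hn2 hR1
  have hout := D.outside_closed_subset hn2 hR1
  set d : RotData n := D.toRot hn2 hb0 hbR hbU hφ with hd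
  have hk : ∀ x : E n, d.a ≤ ‖x‖ → d.kE x = d.kray hn2 ‖x‖ := fun x hx =>
    d.kray_spec hn2 hc hx
  obtain ⟨q, C, R0, hq, hR0, hdec⟩ := hAF
  have hq0 : 0 < q := by
    have : (3 : ℝ) ≤ n := by exact_mod_cast hn
    linarith only [this, hq]
  have i00 : Fin n := ⟨0, by omega⟩
  have hf1 : Tendsto d.f atTop (𝓝 1) := d.lim_f' D hn2 rfl hq0 (R0 := R0) (C := C)
    (fun x hx i j => (hdec x hx i j i00 i00).1)
  have hl : ∀ᶠ R in atTop, |d.l R| ≤ C * R ^ (-q - 1) := d.decay_l D hn2 rfl hf1 (R0 := R0)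
    (fun x hx i j k => (hdec x hx i j k i00).2.1)
  have hkap : ∀ᶠ R in atTop, |d.kray hn2 R| ≤ ((n + n ^ 2 : ℝ) * C) * R ^ (-q - 1) :=
    d.decay_kap D hk hn2 rfl (R0 := R0) (fun x hx i j => (hdec x hx i j i00 i00).2.2.2.1)
  have hG : d.Good2 (d.kray hn2) :=
    { hk := hk
      kap_diff := fun r hr => d.kray_diff hn2 hr
      dec := fun x hx => hDEC x (hout hx.le)
      trapped := by
        obtain ⟨⟨x0, hx0f, hx0n⟩, _⟩ := hR1
        obtain ⟨F, hF, hth⟩ := hT x0 hx0f
        have h1 := d.touch hn2 (Ω := D.Ω) (x0 := x0) hx0n hx0f hout hF hth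
        rw [hk x0 (le_of_eq hx0n.symm)] at h1
        have h2 : ‖x0‖ = d.a := hx0n
        rw [h2] at h1
        exact h1
      lim_l := tendsto_mul_of_decay hq0 hl
      lim_kap := tendsto_mul_of_decay hq0 hkap
      lim_f := hf1 }
  have hM := d.adm_M D hn2 rfl hq hf1 hl hkap hm
  have hPl := fun i => d.adm_P D hk hn rfl rfl hf1 hP i
  obtain ⟨R2, hR2, -, hE, hfin, hfeq⟩ :=
    (d.toReduced2 hn2 hG).main68 hn m (fun i => P i) hM hPl
  have hR2' : R1 ≤ R2 := hR2
  have hfR2 : 0 < d.f R2 := d.f_pos R2 (lt_of_lt_of_le d.hba hR2)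
  have hR20 : 0 < R2 := (D.R1_pos hn2 hR1).trans_le hR2'
  refine ⟨R2, R2 * d.f R2, hR2', by (clear * - hR20 hfR2; positivity), ?_, hE, ?_⟩
  · have := D.area_round d hn2 rfl hR2' (D.round_cut hn2 hR1 hR2').2
    rwa [mul_comm (d.f R2) R2] at this
  · have h1 : ‖P‖ ^ 2 = ∑ i, P i ^ 2 := EuclideanSpace.real_norm_sq_eq P
    rw [h1]
    exact ⟨hfin, hfeq⟩

theorem penrose_stmt68 (hn : 3 ≤ n) (D : Stmt.Exterior n) (hAF : D.IsAF) (hDEC : D.DEC)
    (hT : D.Trapped) {m : ℝ} {P : Fin n → ℝ} (hm : D.IsEnergy m) (hP : D.IsMomentum P)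
    {R₁ : ℝ} (hR₁ : IsGreatest {r | ∃ x, D.F x = 0 ∧ Stmt.len x = r} R₁) {c k : ℝ → ℝ}
    (hc : ∀ x, R₁ ≤ Stmt.len x → ∀ i j, D.g x i j = if i = j then c (Stmt.len x) else 0)
    (hk : ∀ x, R₁ ≤ Stmt.len x → Stmt.trS D.g D.K Stmt.len x = k (Stmt.len x)) :
    D.Amin ≠ ⊤ ∧ √(∑ i, P i ^ 2) < m ∧
    (D.Amin.toReal / Stmt.omega n) ^ (((n : ℝ) - 2) / (n - 1)) / 2 ≤
      √(m ^ 2 - ∑ i, P i ^ 2) ∧
    ((D.Amin.toReal / Stmt.omega n) ^ (((n : ℝ) - 2) / (n - 1)) / 2 =
      √(m ^ 2 - ∑ i, P i ^ 2) → P = 0) := by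
  have hn2 : 2 ≤ n := by omega
  have : Nonempty (Fin n) := ⟨⟨0, by omega⟩⟩
  have : Nontrivial (E n) := inferInstance
  have hR := Bridge.raw_R1 D hR₁
  have hR1 : 0 < R₁ := (Bridge.toRaw D).R1_pos hn2 hR
  have hout := (Bridge.toRaw D).outside_closed_subset hn2 hR
  have hne : ∀ {x : E n}, R₁ ≤ ‖x‖ → x ≠ 0 := fun {x} hx h => by
    rw [h, norm_zero] at hx; linarith only [hx, hR1]
  have hm' : (Bridge.toRaw D).IsEnergy m := energy_bridge D hm
  have hP' : (Bridge.toRaw D).IsMomentum (WithLp.toLp 2 P) := momentum_bridge D hP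
  obtain ⟨R2, ρ, hR2, hρ, hA, hm0, hfin, hfeq⟩ := assembled68 hn (Bridge.toRaw D)
    (Bridge.raw_AF D hn hAF) (Bridge.raw_DEC D hDEC) (Bridge.raw_Trapped D hT) hm' hP' hR
    (φ := c) (fun x hx => Bridge.raw_conf D hc x hx)
    (by
      intro x y hx hxy
      have hy : R₁ ≤ ‖y‖ := hxy ▸ hx
      have h1 := Bridge.raw_trS D (hne hx)
      have h2 := Bridge.raw_trS D (hne hy)
      rw [hk x hx] at h1
      rw [hk y hy] at h2
      rw [← h1, ← h2]
      change k ‖x‖ = k ‖y‖
      rw [hxy])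
  have hR20 : 0 < R2 := lt_of_lt_of_le hR1 hR2
  have hsub : {x : E n | R2 ≤ ‖x‖} ⊆ (Bridge.toRaw D).Ω := fun x (hx : R2 ≤ ‖x‖) =>
    hout (hR2.trans hx)
  have hAm : D.Amin ≤ ENNReal.ofReal (omega n * ρ ^ (n - 1)) := by
    refine le_trans ?_ ((area_bridge D (Bridge.toRaw D) rfl rfl hR20 hsub).trans hA)
    refine sInf_le ⟨_, isExt_round hn2 hR20, ?_, rfl⟩
    intro x hx
    have hx' : R2 ≤ ‖x‖ := by
      have h : R2 ^ 2 ≤ ‖x‖ ^ 2 := by linarith only [hx]
      exact (abs_le_of_sq_le_sq' h (norm_nonneg x)).2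
    exact hsub hx'
  have hω : 0 < omega n := omega_pos'
  have hPsq : ‖(WithLp.toLp 2 P : E n)‖ ^ 2 = ∑ i, P i ^ 2 :=
    EuclideanSpace.real_norm_sq_eq _
  rw [hPsq] at hfin hfeq
  have hn1 : (0 : ℝ) < (n : ℝ) - 1 := by
    have : (3 : ℝ) ≤ n := by exact_mod_cast hn
    linarith only [this]
  have hn3 : (0 : ℝ) ≤ (n : ℝ) - 2 := by
    have : (3 : ℝ) ≤ n := by exact_mod_cast hn
    linarith only [this]
  have hρ2 : 0 < (ρ ^ (n - 2) / 2) ^ 2 := by positivity
  have hsq : √(∑ i, P i ^ 2) < m := by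
    rw [Real.sqrt_lt' hm0]
    linarith only [hρ2, hfin]
  rw [omega_eq]
  have h1 : D.Amin.toReal ≤ omega n * ρ ^ (n - 1) := by
    have := ENNReal.toReal_mono ENNReal.ofReal_ne_top hAm
    rwa [ENNReal.toReal_ofReal (by (clear * - hω hρ; positivity))] at this
  have h2 : D.Amin.toReal / omega n ≤ ρ ^ (n - 1) := by
    rw [div_le_iff₀ hω]; linarith only [h1]
  have h3 : (D.Amin.toReal / omega n) ^ (((n : ℝ) - 2) / ((n : ℝ) - 1)) ≤ ρ ^ (n - 2) := by
    calc (D.Amin.toReal / omega n) ^ (((n : ℝ) - 2) / ((n : ℝ) - 1))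
        ≤ (ρ ^ (n - 1)) ^ (((n : ℝ) - 2) / ((n : ℝ) - 1)) :=
          Real.rpow_le_rpow (by (clear * - hω; positivity)) h2 (by (clear * - hn3 hn1; positivity))
      _ = ρ ^ (n - 2) := by
          rw [← Real.rpow_natCast ρ (n - 1), ← Real.rpow_mul hρ.le,
            ← Real.rpow_natCast ρ (n - 2)]
          congr 1
          have e1 : ((n - 1 : ℕ) : ℝ) = (n : ℝ) - 1 := by
            rw [Nat.cast_sub (by omega)]; norm_num
          have e2 : ((n - 2 : ℕ) : ℝ) = (n : ℝ) - 2 := by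
            rw [Nat.cast_sub (by omega)]; norm_num
          rw [e1, e2]
          (clear * - hn1; field_simp)
  have h4 : ρ ^ (n - 2) / 2 ≤ √(m ^ 2 - ∑ i, P i ^ 2) := Real.le_sqrt_of_sq_le hfin
  refine ⟨ne_top_of_le_ne_top ENNReal.ofReal_ne_top hAm, hsq, by linarith only [h4, h3],
    fun heq => ?_⟩
  have h5 : ρ ^ (n - 2) / 2 = √(m ^ 2 - ∑ i, P i ^ 2) := by
    refine le_antisymm h4 ?_
    rw [← heq]
    linarith only [h3]
  have h6 : (ρ ^ (n - 2) / 2) ^ 2 = m ^ 2 - ∑ i, P i ^ 2 := by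
    rw [h5]
    exact Real.sq_sqrt (hρ2.le.trans hfin)
  funext i
  exact hfeq h6 i

end Vale.Agent.P366
end
end

section

open MeasureTheory Metric Filter Topology Set
open scoped ContDiff ENNReal Matrix

noncomputable section
namespace Vale.Agent.T4
open Vale.Agent.P366.Stmt Vale.Agent.P366.T2

variable {n : ℕ}

/-- The radial component of a conformally flat metric. -/
lemma radial_conf68 {g : Field n} {x : E n} (hx : len x ≠ 0) {a : ℝ}
    (h : ∀ i j, g x i j = if i = j then a else 0) : radial g x = a := by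
  unfold radial
  have h1 : ∑ i, ∑ j, g x i j * x i * x j = a * len x ^ 2 := by
    rw [len_sq, Finset.mul_sum]
    refine Finset.sum_congr rfl fun i _ => ?_
    rw [Finset.sum_eq_single i]
    · rw [h i i, if_pos rfl]; ring
    · intro j _ hj
      rw [h i j, if_neg (Ne.symm hj)]; ring
    · intro hi; exact absurd (Finset.mem_univ i) hi
  rw [h1]
  exact mul_div_cancel_right₀ a (pow_ne_zero 2 hx)

lemma perp_conf68 {g : Field n} {x : E n} (hx : len x ≠ 0) {a : ℝ}
    (h : ∀ i j, g x i j = if i = j then a else 0) (i : Fin n) :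
    ∑ j, g x i j * x j = radial g x * x i := by
  rw [radial_conf68 hx h, Finset.sum_eq_single i]
  · rw [h i i, if_pos rfl]
  · intro j _ hj
    rw [h i j, if_neg (Ne.symm hj)]; ring
  · intro hi; exact absurd (Finset.mem_univ i) hi

lemma inv_conf68 {g : Field n} {R : ℝ} (hR : 0 < R) {c : ℝ → ℝ}
    (hc : ∀ x, R ≤ len x → ∀ i j, g x i j = if i = j then c (len x) else 0) :
    InvUnder (fun A => A.transpose * A = 1 ∧ A.det = 1) R (spherical g) := by
  rintro A ⟨hA, -⟩ x y hx hy i j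
  have hx0 : len x ≠ 0 := (hR.trans_le hx).ne'
  have hAA : ∀ i j, ∑ k, A k i * A k j = if i = j then (1 : ℝ) else 0 := by
    intro i j
    have h1 := congrFun (congrFun hA i) j
    rw [Matrix.mul_apply, Matrix.one_apply] at h1
    simpa only [Matrix.transpose_apply] using h1
  have hAy : ∀ i, ∑ k, A k i * y k = x i := by
    intro i
    simp only [hy, Finset.mul_sum]
    rw [Finset.sum_comm]
    have : ∀ l, ∑ k, A k i * (A k l * x l) = (if i = l then (1 : ℝ) else 0) * x l := by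
      intro l
      rw [← hAA i l, Finset.sum_mul]
      exact Finset.sum_congr rfl fun k _ => by ring
    simp only [this]
    simp
  have hlen : len y = len x := by
    have h1 : len y ^ 2 = len x ^ 2 := by
      rw [len_sq, len_sq]
      have h2 : ∑ k, y k ^ 2 = ∑ l, (∑ k, A k l * y k) * x l := by
        simp only [Finset.sum_mul]
        rw [Finset.sum_comm]
        refine Finset.sum_congr rfl fun k _ => ?_
        rw [sq]
        nth_rewrite 2 [hy k]
        rw [Finset.mul_sum]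
        exact Finset.sum_congr rfl fun l _ => by ring
      rw [h2]
      exact Finset.sum_congr rfl fun l _ => by rw [hAy l]; ring
    exact (pow_left_inj₀ (norm_nonneg _) (norm_nonneg _) two_ne_zero).1 h1
  have hy0 : len y ≠ 0 := by rw [hlen]; exact hx0
  have hyR : R ≤ len y := by rw [hlen]; exact hx
  have hTy : ∀ k l, spherical g y k l = c (len x) * ((if k = l then (1 : ℝ) else 0) -
      y k * y l / len x ^ 2) := by
    intro k l
    unfold spherical
    rw [radial_conf68 hy0 (hc y hyR), hc y hyR, hlen]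
    split_ifs <;> ring
  have hTx : spherical g x i j = c (len x) * ((if i = j then (1 : ℝ) else 0) -
      x i * x j / len x ^ 2) := by
    unfold spherical
    rw [radial_conf68 hx0 (hc x hx), hc x hx]
    split_ifs <;> ring
  rw [hTx]
  have h1 : ∀ k l, A k i * spherical g y k l * A l j =
      c (len x) * ((A k i * A l j) * (if k = l then (1 : ℝ) else 0)) -
        c (len x) / len x ^ 2 * ((A k i * y k) * (A l j * y l)) := by
    intro k l
    rw [hTy]; ring
  simp only [h1, Finset.sum_sub_distrib, ← Finset.mul_sum]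
  have h2 : ∑ k, ∑ l, (A k i * A l j) * (if k = l then (1 : ℝ) else 0) =
      if i = j then (1 : ℝ) else 0 := by
    rw [← hAA i j]
    refine Finset.sum_congr rfl fun k _ => ?_
    simp
  rw [h2, ← Finset.sum_mul, hAy i, hAy j]
  ring

/-- **The inequality with nonzero momentum and its equality case**: conformally flat data with a
radial trace of `K`. -/
theorem penrose_conf68 (hn : 3 ≤ n) {D : Exterior n} (hAF : D.IsAF) (hDEC : D.DEC)
    (hT : D.Trapped) {m : ℝ} {P : Fin n → ℝ} (hm : D.IsEnergy m) (hP : D.IsMomentum P)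
    {R₁ : ℝ} (hR₁ : IsGreatest {r | ∃ x, D.F x = 0 ∧ len x = r} R₁) {c k : ℝ → ℝ}
    (hc : ∀ x, R₁ ≤ len x → ∀ i j, D.g x i j = if i = j then c (len x) else 0)
    (hk : ∀ x, R₁ ≤ len x → trS D.g D.K len x = k (len x)) :
    D.Amin ≠ ⊤ ∧ √(∑ i, P i ^ 2) < m ∧
    (D.Amin.toReal / omega n) ^ (((n : ℝ) - 2) / (n - 1)) / 2 ≤
      √(m ^ 2 - ∑ i, P i ^ 2) ∧
    ((D.Amin.toReal / omega n) ^ (((n : ℝ) - 2) / (n - 1)) / 2 =
      √(m ^ 2 - ∑ i, P i ^ 2) → P = 0 ∧
        (Outermost D → IsSlice m D.g D.K {x | R₁ < len x})) := by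
  obtain ⟨h1, h2, h3, h4⟩ :=
    Vale.Agent.P366.penrose_stmt68 hn D hAF hDEC hT hm hP hR₁ hc hk
  refine ⟨h1, h2, h3, fun heq => ?_⟩
  have hP0 : P = 0 := h4 heq
  refine ⟨hP0, fun hO => ?_⟩
  have hR0 : 0 < R₁ :=
    (Vale.Agent.P366.Bridge.toRaw D).R1_pos (by omega) (Vale.Agent.P366.Bridge.raw_R1 D hR₁)
  have hne : ∀ x : E n, R₁ ≤ len x → len x ≠ 0 := fun x hx => (hR0.trans_le hx).ne'
  obtain ⟨-, hm0, -, h5⟩ := lapseT hn hAF hDEC hT hm hR₁ TransGroup.so
    (fun x hx i => perp_conf68 (hne x hx) (hc x hx) i) (inv_conf68 hR0 hc)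
    (κ := fun r => √(c r) * k r)
    (fun x hx => by rw [radial_conf68 (hne x hx) (hc x hx), hk x hx])
  refine h5 hO ?_
  rw [heq, hP0]
  simp [Real.sqrt_sq hm0.le]

end Vale.Agent.T4
end
end
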