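import Vale.Agent.P366.T4.Point
import Vale.Agent.P366.T4.Touch92
import Vale.Agent.P366.T4.B4m

/-! T5: definiteness of the tangential contractions. -/

open MeasureTheory Metric Filter Topology Set
open scoped ContDiff ENNReal Matrix MatrixOrder

noncomputable section
namespace Vale.Agent.T4
open Vale.Agent.P366.Stmt Vale.Agent.P366.T2

variable {n : ℕ}

namespace Lapse

variable {G g : Field n} {R : ℝ} (h : Lapse G g R)
include h

/-- Gram decomposition of the tangential inverse metric -/
lemma gram {x : E n} (hx : R ≤ len x) : ∃ M : Matrix (Fin n) (Fin n) ℝ,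
    (∀ i k, Sm G i k x = ∑ a, M a i * M a k) ∧ ∀ A C : Field n, ctr G A C x =
      ∑ a, ∑ b, (∑ i, ∑ j, M a i * M b j * A x i j) * (∑ k, ∑ l, M a k * M b l * C x k l) := by
  obtain ⟨M, hM⟩ : ∃ M : Matrix (Fin n) (Fin n) ℝ, (Matrix.of fun i j => Sm G i j x) = Mᴴ * M := by
    have h0 := h.Sm_posSemidef hx
    exact CStarAlgebra.nonneg_iff_eq_star_mul_self.mp h0.nonneg
  have hS : ∀ i k, Sm G i k x = ∑ a, M a i * M a k := by
    intro i k
    have := congrFun (congrFun hM i) k
    rw [Matrix.mul_apply] at this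
    simpa using this
  refine ⟨M, hS, fun A C => ?_⟩
  unfold ctr
  have e1 : ∀ i j k l, Sm G i k x * Sm G j l x * A x i j * C x k l =
      ∑ a, ∑ b, (M a i * M b j * A x i j) * (M a k * M b l * C x k l) := by
    intro i j k l
    rw [hS i k, hS j l, Finset.sum_mul_sum, Finset.sum_mul, Finset.sum_mul]
    refine Finset.sum_congr rfl fun a _ => ?_
    rw [Finset.sum_mul, Finset.sum_mul]
    exact Finset.sum_congr rfl fun b _ => by ring
  simp only [e1]
  have e2 : ∀ a b, (∑ i, ∑ j, M a i * M b j * A x i j) * (∑ k, ∑ l, M a k * M b l * C x k l) =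
      ∑ i, ∑ j, ∑ k, ∑ l, (M a i * M b j * A x i j) * (M a k * M b l * C x k l) := by
    intro a b
    rw [Finset.sum_mul]
    refine Finset.sum_congr rfl fun i _ => ?_
    rw [Finset.sum_mul]
    refine Finset.sum_congr rfl fun j _ => ?_
    rw [Finset.mul_sum]
    refine Finset.sum_congr rfl fun k _ => ?_
    rw [Finset.mul_sum]
  simp only [e2]
  -- move the sums over `a, b` outside
  have e3 : ∀ F : Fin n → Fin n → Fin n → Fin n → Fin n → Fin n → ℝ,
      ∑ i, ∑ j, ∑ k, ∑ l, ∑ a, ∑ b, F i j k l a b =
      ∑ a, ∑ b, ∑ i, ∑ j, ∑ k, ∑ l, F i j k l a b := by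
    intro F
    calc ∑ i, ∑ j, ∑ k, ∑ l, ∑ a, ∑ b, F i j k l a b
        = ∑ i, ∑ j, ∑ k, ∑ a, ∑ b, ∑ l, F i j k l a b := by
          refine Finset.sum_congr rfl fun i _ => Finset.sum_congr rfl fun j _ =>
            Finset.sum_congr rfl fun k _ => ?_
          rw [Finset.sum_comm]
          exact Finset.sum_congr rfl fun a _ => Finset.sum_comm
      _ = ∑ i, ∑ j, ∑ a, ∑ b, ∑ k, ∑ l, F i j k l a b := by
          refine Finset.sum_congr rfl fun i _ => Finset.sum_congr rfl fun j _ => ?_
          rw [Finset.sum_comm]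
          exact Finset.sum_congr rfl fun a _ => Finset.sum_comm
      _ = ∑ i, ∑ a, ∑ b, ∑ j, ∑ k, ∑ l, F i j k l a b := by
          refine Finset.sum_congr rfl fun i _ => ?_
          rw [Finset.sum_comm]
          exact Finset.sum_congr rfl fun a _ => Finset.sum_comm
      _ = ∑ a, ∑ b, ∑ i, ∑ j, ∑ k, ∑ l, F i j k l a b := by
          rw [Finset.sum_comm]
          exact Finset.sum_congr rfl fun a _ => Finset.sum_comm
  exact e3 _

/-- `P A P` -/
lemma proj_proj {x : E n} {A : Field n} (hs : ∀ i j, A x i j = A x j i) (r s : Fin n) :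
    ∑ i, ∑ j, ((if r = i then 1 else 0) - nx r x * nx i x) *
      ((if s = j then 1 else 0) - nx s x * nx j x) * A x i j =
      A x r s - nx r x * row A s x - row A r x * nx s x + rad A x * nx r x * nx s x := by
  have e1 : ∀ i, ∑ j, ((if r = i then 1 else 0) - nx r x * nx i x) *
      ((if s = j then 1 else 0) - nx s x * nx j x) * A x i j =
      ((if r = i then 1 else 0) - nx r x * nx i x) * (A x i s - nx s x * row A i x) := by
    intro i
    have e2 : ∀ j, ((if r = i then 1 else 0) - nx r x * nx i x) *
        ((if s = j then 1 else 0) - nx s x * nx j x) * A x i j =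
        ((if r = i then 1 else 0) - nx r x * nx i x) * ((if s = j then A x i j else 0) -
          nx s x * (A x i j * nx j x)) := by
      intro j
      split_ifs <;> ring
    simp only [e2, ← Finset.mul_sum, Finset.sum_sub_distrib]
    unfold row
    simp
  simp only [e1]
  have e3 : ∀ i, ((if r = i then 1 else 0) - nx r x * nx i x) * (A x i s - nx s x * row A i x) =
      (if r = i then A x i s - nx s x * row A i x else 0) - nx r x * (A x s i * nx i x) +
        nx r x * nx s x * (nx i x * row A i x) := by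
    intro i
    rw [hs s i]
    split_ifs <;> ring
  simp only [e3, Finset.sum_add_distrib, Finset.sum_sub_distrib, ← Finset.mul_sum, ← rad_eq]
  unfold row
  simp
  ring

/-- a symmetric tensor whose tangential part is killed by the Gram factor -/
lemma tang_zero {x : E n} (hx : R ≤ len x) {M : Matrix (Fin n) (Fin n) ℝ}
    (hS : ∀ i k, Sm G i k x = ∑ a, M a i * M a k) {A : Field n} (hs : ∀ i j, A x i j = A x j i)
    (h0 : ∀ a b, ∑ i, ∑ j, M a i * M b j * A x i j = 0) (r s : Fin n) :
    A x r s = nx r x * row A s x + row A r x * nx s x - rad A x * nx r x * nx s x := by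
  -- `S A S = 0`
  have h1 : ∀ p q, ∑ i, ∑ j, Sm G p i x * Sm G q j x * A x i j = 0 := by
    intro p q
    have e : ∀ i j, Sm G p i x * Sm G q j x * A x i j =
        ∑ a, ∑ b, M a p * M b q * (M a i * M b j * A x i j) := by
      intro i j
      rw [hS p i, hS q j, Finset.sum_mul_sum, Finset.sum_mul]
      refine Finset.sum_congr rfl fun a _ => ?_
      rw [Finset.sum_mul]
      exact Finset.sum_congr rfl fun b _ => by ring
    simp only [e]
    have e3 : ∑ i, ∑ j, ∑ a, ∑ b, M a p * M b q * (M a i * M b j * A x i j) =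
        ∑ a, ∑ b, M a p * M b q * ∑ i, ∑ j, M a i * M b j * A x i j := by
      simp only [Finset.mul_sum]
      calc ∑ i, ∑ j, ∑ a, ∑ b, M a p * M b q * (M a i * M b j * A x i j)
          = ∑ i, ∑ a, ∑ b, ∑ j, M a p * M b q * (M a i * M b j * A x i j) := by
            refine Finset.sum_congr rfl fun i _ => ?_
            rw [Finset.sum_comm]
            exact Finset.sum_congr rfl fun a _ => Finset.sum_comm
        _ = ∑ a, ∑ b, ∑ i, ∑ j, M a p * M b q * (M a i * M b j * A x i j) := by
            rw [Finset.sum_comm]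
            exact Finset.sum_congr rfl fun a _ => Finset.sum_comm
    rw [e3]
    simp only [h0, mul_zero, Finset.sum_const_zero]
  -- `G S = P`
  have hGS : ∀ r i, ∑ p, G x r p * Sm G p i x = (if r = i then 1 else 0) - nx r x * nx i x := by
    intro r i
    have e : ∀ p, G x r p * Sm G p i x = Sm G i p x * G x p r := by
      intro p
      rw [h.Sm_symm hx p i, h.symm x hx r p]; ring
    simp only [e, h.Sm_G hx]
    simp only [eq_comm (a := i) (b := r)]
    ring
  have h2 : ∑ i, ∑ j, ((if r = i then 1 else 0) - nx r x * nx i x) *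
      ((if s = j then 1 else 0) - nx s x * nx j x) * A x i j = 0 := by
    have e : ∀ i j, ((if r = i then 1 else 0) - nx r x * nx i x) *
        ((if s = j then 1 else 0) - nx s x * nx j x) * A x i j =
        ∑ p, ∑ q, G x r p * G x s q * (Sm G p i x * Sm G q j x * A x i j) := by
      intro i j
      rw [← hGS r i, ← hGS s j, Finset.sum_mul_sum, Finset.sum_mul]
      refine Finset.sum_congr rfl fun p _ => ?_
      rw [Finset.sum_mul]
      exact Finset.sum_congr rfl fun q _ => by ring
    simp only [e]
    have e3 : ∑ i, ∑ j, ∑ p, ∑ q, G x r p * G x s q * (Sm G p i x * Sm G q j x * A x i j) =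
        ∑ p, ∑ q, G x r p * G x s q * ∑ i, ∑ j, Sm G p i x * Sm G q j x * A x i j := by
      simp only [Finset.mul_sum]
      calc ∑ i, ∑ j, ∑ p, ∑ q, G x r p * G x s q * (Sm G p i x * Sm G q j x * A x i j)
          = ∑ i, ∑ p, ∑ q, ∑ j, G x r p * G x s q * (Sm G p i x * Sm G q j x * A x i j) := by
            refine Finset.sum_congr rfl fun i _ => ?_
            rw [Finset.sum_comm]
            exact Finset.sum_congr rfl fun a _ => Finset.sum_comm
        _ = ∑ p, ∑ q, ∑ i, ∑ j, G x r p * G x s q * (Sm G p i x * Sm G q j x * A x i j) := by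
            rw [Finset.sum_comm]
            exact Finset.sum_congr rfl fun a _ => Finset.sum_comm
    rw [e3]
    simp only [h1, mul_zero, Finset.sum_const_zero]
  rw [proj_proj h hs] at h2
  linarith

/-- the tangential contraction of covectors is definite -/
lemma S2_zero {x : E n} (hx : R ≤ len x) {u : Fin n → E n → ℝ} (h0 : S2 G u u x ≤ 0) (i : Fin n) :
    u i x = (∑ k, nx k x * u k x) * nx i x := by
  obtain ⟨M, hS, -⟩ := h.gram hx
  have h1 : S2 G u u x = ∑ a, (∑ k, M a k * u k x) ^ 2 := by
    unfold S2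
    have e : ∀ k l, Sm G k l x * u k x * u l x =
        ∑ a, (M a k * u k x) * (M a l * u l x) := by
      intro k l
      rw [hS k l, Finset.sum_mul, Finset.sum_mul]
      exact Finset.sum_congr rfl fun a _ => by ring
    simp only [e, sq, Finset.sum_mul_sum]
    rw [Finset.sum_comm]
    calc ∑ l, ∑ k, ∑ a, M a k * u k x * (M a l * u l x)
        = ∑ l, ∑ a, ∑ k, M a k * u k x * (M a l * u l x) :=
          Finset.sum_congr rfl fun l _ => Finset.sum_comm
      _ = ∑ a, ∑ l, ∑ k, M a k * u k x * (M a l * u l x) := Finset.sum_comm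
      _ = ∑ a, ∑ k, ∑ l, M a k * u k x * (M a l * u l x) :=
          Finset.sum_congr rfl fun a _ => Finset.sum_comm
  have h2 : ∀ a, ∑ k, M a k * u k x = 0 := by
    have h3 : ∑ a, (∑ k, M a k * u k x) ^ 2 = 0 :=
      le_antisymm (h1 ▸ h0) (Finset.sum_nonneg fun a _ => sq_nonneg _)
    intro a
    have h4 := (Finset.sum_eq_zero_iff_of_nonneg fun a _ => sq_nonneg _).1 h3 a (Finset.mem_univ a)
    exact pow_eq_zero_iff (two_ne_zero) |>.1 h4
  have h3 : ∀ p, ∑ k, Sm G p k x * u k x = 0 := by
    intro p
    have e : ∀ k, Sm G p k x * u k x = ∑ a, M a p * (M a k * u k x) := by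
      intro k
      rw [hS p k, Finset.sum_mul]
      exact Finset.sum_congr rfl fun a _ => by ring
    simp only [e]
    rw [Finset.sum_comm]
    simp only [← Finset.mul_sum, h2, mul_zero, Finset.sum_const_zero]
  have h4 : ∑ p, G x i p * ∑ k, Sm G p k x * u k x = u i x - (∑ k, nx k x * u k x) * nx i x := by
    simp only [Finset.mul_sum]
    rw [Finset.sum_comm]
    have e : ∀ k, ∑ p, G x i p * (Sm G p k x * u k x) =
        (if i = k then u k x else 0) - nx i x * (nx k x * u k x) := by
      intro k
      have e2 : ∀ p, G x i p * (Sm G p k x * u k x) = u k x * (Sm G k p x * G x p i) := by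
        intro p
        rw [h.Sm_symm hx p k, h.symm x hx i p]; ring
      simp only [e2, ← Finset.mul_sum, h.Sm_G hx]
      by_cases hik : i = k
      · subst hik; simp; ring
      · rw [if_neg hik, if_neg (Ne.symm hik)]; ring
    simp only [e, Finset.sum_sub_distrib, ← Finset.mul_sum]
    simp
    ring
  simp only [h3, mul_zero, Finset.sum_const_zero] at h4
  linarith

/-- equality in the Cauchy–Schwarz inequality for the tangential contraction of tensors -/
lemma ctr_comb_zero {x : E n} (hx : R ≤ len x) {A C : Field n} (hA : ∀ i j, A x i j = A x j i)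
    (hC : ∀ i j, C x i j = C x j i) {t : ℝ}
    (h0 : ctr G A A x - 2 * t * ctr G A C x + t ^ 2 * ctr G C C x ≤ 0) (r s : Fin n) :
    A x r s - t * C x r s = nx r x * (row A s x - t * row C s x) +
      (row A r x - t * row C r x) * nx s x - (rad A x - t * rad C x) * nx r x * nx s x := by
  obtain ⟨M, hS, hM⟩ := h.gram hx
  rw [hM A A, hM A C, hM C C] at h0
  have e5 : ∀ α γ : Fin n → Fin n → ℝ, ∑ a, ∑ b, α a b * α a b -
      2 * t * ∑ a, ∑ b, α a b * γ a b + t ^ 2 * ∑ a, ∑ b, γ a b * γ a b =
      ∑ a, ∑ b, (α a b - t * γ a b) ^ 2 := by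
    intro α γ
    simp only [Finset.mul_sum, ← Finset.sum_add_distrib, ← Finset.sum_sub_distrib]
    exact Finset.sum_congr rfl fun a _ => Finset.sum_congr rfl fun b _ => by ring
  rw [e5 (fun a b => ∑ i, ∑ j, M a i * M b j * A x i j)
    (fun a b => ∑ i, ∑ j, M a i * M b j * C x i j)] at h0
  have h1 : ∀ a b, (∑ i, ∑ j, M a i * M b j * A x i j) -
      t * (∑ i, ∑ j, M a i * M b j * C x i j) = 0 := by
    have h2 := le_antisymm h0 (Finset.sum_nonneg fun a _ => Finset.sum_nonneg fun b _ =>
      sq_nonneg _)
    intro a b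
    have h3 := (Finset.sum_eq_zero_iff_of_nonneg fun a _ => Finset.sum_nonneg fun b _ =>
      sq_nonneg _).1 h2 a (Finset.mem_univ a)
    have h4 := (Finset.sum_eq_zero_iff_of_nonneg fun b _ => sq_nonneg _).1 h3 b (Finset.mem_univ b)
    exact pow_eq_zero_iff (two_ne_zero) |>.1 h4
  have h5 := h.tang_zero hx hS (A := fun y i j => A y i j - t * C y i j)
    (fun i j => by simp only [hA i j, hC i j]) (fun a b => by
      rw [← h1 a b, Finset.mul_sum, ← Finset.sum_sub_distrib]
      refine Finset.sum_congr rfl fun i _ => ?_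
      rw [Finset.mul_sum, ← Finset.sum_sub_distrib]
      exact Finset.sum_congr rfl fun j _ => by ring) r s
  have hrow : ∀ i, row (fun y i j => A y i j - t * C y i j) i x = row A i x - t * row C i x := by
    intro i
    unfold row
    rw [Finset.mul_sum, ← Finset.sum_sub_distrib]
    exact Finset.sum_congr rfl fun j _ => by ring
  have hrad : rad (fun y i j => A y i j - t * C y i j) x = rad A x - t * rad C x := by
    unfold rad
    rw [Finset.mul_sum, ← Finset.sum_sub_distrib]
    refine Finset.sum_congr rfl fun i _ => ?_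
    rw [Finset.mul_sum, ← Finset.sum_sub_distrib]
    exact Finset.sum_congr rfl fun j _ => by ring
  rw [hrow, hrow, hrad] at h5
  exact h5

end Lapse

end Vale.Agent.T4
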