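import Vale.Agent.P366.T5.PointEq
import Vale.Agent.P366.T5.Gram

/-! T5, block R2b: equality in the averaged inequality. -/

open MeasureTheory Metric Filter Topology Set
open scoped ContDiff ENNReal Matrix

noncomputable section
namespace Vale.Agent.T4
open Vale.Agent.P366.Stmt Vale.Agent.P366.T2
open Vale.Agent.P366 (sphI sphM av flux dvg norm_smul_sph integrable_sph sphI_hasDerivAt
  flux_hasDerivAt isOpen_outside sphI_congr sphI_continuousOn)

variable {n : ℕ}

/-- a nonnegative continuous function with vanishing sphere integral vanishes on the sphere -/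
lemma eq_zero_of_sphI [Nontrivial (E n)] {b r : ℝ} (hb : 0 ≤ b) (hr : b < r) {f : E n → ℝ}
    (hf : ContinuousOn f {x | b < ‖x‖}) (h0 : ∀ x, ‖x‖ = r → 0 ≤ f x) (hI : sphI f r ≤ 0)
    {x : E n} (hx : ‖x‖ = r) : f x = 0 := by
  have hr0 : 0 < r := hb.trans_lt hr
  have hc : Continuous fun θ : sphere (0 : E n) 1 => f (r • (θ : E n)) := by
    rw [← continuousOn_univ]
    refine ContinuousOn.comp (g := f) (f := fun θ : sphere (0 : E n) 1 => r • (θ : E n)) hf
      (by fun_prop) fun θ _ => ?_
    show b < ‖r • (θ : E n)‖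
    rw [norm_smul_sph hr0.le]; exact hr
  have hnn : 0 ≤ fun θ : sphere (0 : E n) 1 => f (r • (θ : E n)) := fun θ =>
    h0 _ (norm_smul_sph hr0.le θ)
  have hint : Integrable (fun θ : sphere (0 : E n) 1 => f (r • (θ : E n))) (sphM n) :=
    integrable_sph hb hr hf
  have h1 : sphI f r = 0 := le_antisymm hI (integral_nonneg hnn)
  have h2 := (integral_eq_zero_iff_of_nonneg hnn hint).1 h1
  have hop : (sphM n).IsOpenPosMeasure := by
    unfold sphM
    infer_instance
  have h3 : (fun θ : sphere (0 : E n) 1 => f (r • (θ : E n))) = fun _ => 0 :=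
    (hc.ae_eq_iff_eq (sphM n) continuous_const).1 h2
  have hne : ‖x‖ ≠ 0 := by rw [hx]; exact hr0.ne'
  let θ : sphere (0 : E n) 1 := ⟨‖x‖⁻¹ • x, by
    rw [mem_sphere_zero_iff_norm, norm_smul, norm_inv, norm_norm, inv_mul_cancel₀ hne]⟩
  have h4 := congrFun h3 θ
  have h5 : r • (θ : E n) = x := by
    show r • (‖x‖⁻¹ • x) = x
    rw [← hx, smul_inv_smul₀ hne]
  simp only [h5] at h4
  exact h4

section

variable {G g K : Field n} {B : Bg n} {kap : ℝ → ℝ}

/-- equality in the pointwise inequality -/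
structure PtEq (B : Bg n) (G g K : Field n) (kap : ℝ → ℝ) (x : E n) : Prop where
  mu0 : mu g K x = 0
  mom0 : ∀ j, mom g K j x = 0
  glf0 : ∀ i, glf g i x = dN (lf g) x * nx i x
  row0 : ∀ i, row K i x = rad K x * nx i x
  K0 : ∀ i j, K x i j = rad K x * nx i x * nx j x +
    kap (len x) * √(1 / rad g x) / B.H (len x) * IIf G x i j
  II0 : ctr G (IIf G) (IIf G) x = B.II2 (len x)

theorem pointwise_eq (hA : StA n) (hB : StB n) (h : Lapse G g B.R) (hF : B.Fits0 G)
    (hK : ∀ i j, Smooth (fun x => K x i j))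
    (hKs : ∀ x, B.R ≤ len x → ∀ i j, K x i j = K x j i)
    (hk : ∀ x, B.R ≤ len x → √(rad g x) * trT G K x = kap (len x)) {x : E n}
    (hx : B.R < len x) (hkd : DifferentiableAt ℝ kap (len x))
    (hdec : covNorm g (mom g K) x ≤ mu g K x) (hlt : |kap (len x)| < B.H (len x))
    (hII : B.II2 (len x) ≤ ctr G (IIf G) (IIf G) x)
    (h0 : ptw B G g K kap x + 1 / rad g x * (B.H (len x) ^ 2 - kap (len x) ^ 2) /
      B.H (len x) * (ctr G (IIf G) (IIf G) x - B.II2 (len x)) ≤ 0) :
    PtEq B G g K kap x := by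
  have hp := h.ppos x hx.le
  have hx0 := h.ne_zero hx.le
  have hHp : 0 < B.H (len x) := (abs_nonneg _).trans_lt hlt
  have hid := pointwise_id hA hB h hF hK hKs hk hx hkd hHp
  rw [hid] at h0
  obtain ⟨-, -, -, b4⟩ := hB G g K B.R h hK hKs x hx
  have hc := h.S2_cross hx.le (glf g) (bf g K) hlt.le
  have hII2 := h.ctr_comb hx.le K (IIf G) (tco B g kap x)
  have hS1 := h.S2_nonneg hx.le (fun i => glf g i x)
  have hS2 := h.S2_nonneg hx.le (fun i => bf g K i x)
  have hS1' : 0 ≤ S2 G (glf g) (glf g) x := hS1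
  have hS2' : 0 ≤ S2 G (bf g K) (bf g K) x := hS2
  set s := √(1 / rad g x) with hs
  have hvp : 0 < 1 / rad g x := by positivity
  have hsp : 0 < s := Real.sqrt_pos.2 hvp
  set H := B.H (len x) with hH
  set κ := kap (len x) with hκ
  have hcov : 0 ≤ covNorm g (mom g K) x := Real.sqrt_nonneg _
  have hdec2 : s * |∑ j, nx j x * mom g K j x| ≤ covNorm g (mom g K) x := by
    calc s * |∑ j, nx j x * mom g K j x| ≤ s * (√(rad g x) * covNorm g (mom g K) x) :=
          mul_le_mul_of_nonneg_left (b4 (mom g K)) hsp.le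
      _ = covNorm g (mom g K) x := by rw [← mul_assoc, sqrt_inv_mul hp, one_mul]
  have hmu0 : 0 ≤ mu g K x := hcov.trans hdec
  have hDEC : 2 * (H - |κ|) * mu g K x ≤
      2 * H * mu g K x - 2 * κ * (s * ∑ j, nx j x * mom g K j x) := by
    have h1 : κ * (s * ∑ j, nx j x * mom g K j x) ≤ |κ| * (s * |∑ j, nx j x * mom g K j x|) := by
      have := le_abs_self (κ * (s * ∑ j, nx j x * mom g K j x))
      rwa [abs_mul, abs_mul, abs_of_pos hsp] at this
    have h2 : |κ| * (s * |∑ j, nx j x * mom g K j x|) ≤ |κ| * mu g K x :=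
      mul_le_mul_of_nonneg_left (hdec2.trans hdec) (abs_nonneg _)
    linarith
  have hsq : κ ^ 2 < H ^ 2 := by
    rw [← sq_abs κ]
    exact pow_lt_pow_left₀ hlt (abs_nonneg _) two_ne_zero
  have hw : 0 < 1 / rad g x * (H ^ 2 - κ ^ 2) / H :=
    div_pos (mul_pos hvp (by linarith)) hHp
  have hT4 : 0 ≤ 1 / rad g x * (H ^ 2 - κ ^ 2) / H *
      (ctr G (IIf G) (IIf G) x - B.II2 (len x)) :=
    mul_nonneg hw.le (by linarith)
  have hT3 : 0 ≤ H * (ctr G K K x - 2 * tco B g kap x * ctr G K (IIf G) x +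
      tco B g kap x ^ 2 * ctr G (IIf G) (IIf G) x) := mul_nonneg hHp.le hII2
  have hδ : 0 < H - |κ| := by linarith
  have hT1 : 0 ≤ 2 * (H - |κ|) * mu g K x := by positivity
  -- the four terms vanish
  have hmu : mu g K x = 0 := by
    have h1 : 2 * (H - |κ|) * mu g K x ≤ 0 := by linarith
    have h2 : mu g K x ≤ 0 := by
      by_contra hlt'
      push Not at hlt'
      have : 0 < 2 * (H - |κ|) * mu g K x := by positivity
      linarith
    exact le_antisymm h2 hmu0
  have hcross : 2 * H * (S2 G (glf g) (glf g) x + S2 G (bf g K) (bf g K) x) +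
        4 * κ * S2 G (glf g) (bf g K) x ≤ 0 := by linarith
  have hlow : 2 * (H - |κ|) * (S2 G (glf g) (glf g) x + S2 G (bf g K) (bf g K) x) ≤
      2 * H * (S2 G (glf g) (glf g) x + S2 G (bf g K) (bf g K) x) +
        4 * κ * S2 G (glf g) (bf g K) x := by
    have h1 := h.S2_cross hx.le (glf g) (bf g K) (H := |κ|) (k := κ) le_rfl
    linarith
  have hsum : S2 G (glf g) (glf g) x + S2 G (bf g K) (bf g K) x ≤ 0 := by
    by_contra hlt'
    push Not at hlt'
    have : 0 < 2 * (H - |κ|) * (S2 G (glf g) (glf g) x + S2 G (bf g K) (bf g K) x) := by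
      positivity
    linarith
  have hrow : ∀ i, row K i x = rad K x * nx i x := by
    intro i
    have h1 := h.S2_zero hx.le (u := bf g K) (by linarith) i
    unfold bf at h1
    have e : ∑ k, nx k x * (√(1 / rad g x) * row K k x) = √(1 / rad g x) * rad K x := by
      rw [rad_eq K, Finset.mul_sum]
      exact Finset.sum_congr rfl fun k _ => by ring
    rw [e, mul_assoc] at h1
    exact mul_left_cancel₀ hsp.ne' h1
  refine ⟨hmu, ?_, fun i => ?_, hrow, fun i j => ?_, ?_⟩
  · -- the momentum density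
    have h1 : covNorm g (mom g K) x = 0 := le_antisymm (hmu ▸ hdec) hcov
    unfold covNorm at h1
    have h2 : ∑ i, ∑ j, up g i j x * mom g K i x * mom g K j x =
        S2 G (mom g K) (mom g K) x + (∑ i, nx i x * mom g K i x) ^ 2 / rad g x := by
      have e : ∀ i j, up g i j x * mom g K i x * mom g K j x =
          Sm G i j x * mom g K i x * mom g K j x +
            (nx i x * mom g K i x) * (nx j x * mom g K j x) / rad g x := by
        intro i j
        rw [h.up_g hx.le]
        ring
      simp only [e, Finset.sum_add_distrib]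
      unfold S2
      congr 1
      rw [sq, Finset.sum_mul_sum, Finset.sum_div]
      exact Finset.sum_congr rfl fun i _ => by rw [Finset.sum_div]
    have h3 : 0 ≤ S2 G (mom g K) (mom g K) x := h.S2_nonneg hx.le (fun i => mom g K i x)
    have h4 : 0 ≤ (∑ i, nx i x * mom g K i x) ^ 2 / rad g x := by positivity
    rw [h2] at h1
    have h5 := (Real.sqrt_eq_zero (by linarith)).1 h1
    have h6 : S2 G (mom g K) (mom g K) x ≤ 0 := by linarith
    have h7 : (∑ i, nx i x * mom g K i x) ^ 2 / rad g x = 0 := by linarith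
    have h8 : ∑ i, nx i x * mom g K i x = 0 := by
      rw [div_eq_zero_iff] at h7
      rcases h7 with h7 | h7
      · exact pow_eq_zero_iff (two_ne_zero) |>.1 h7
      · exact absurd h7 hp.ne'
    intro j
    rw [h.S2_zero hx.le h6 j, h8, zero_mul]
  · exact h.S2_zero hx.le (u := glf g) (by linarith) i
  · have h1 : ctr G K K x - 2 * tco B g kap x * ctr G K (IIf G) x +
        tco B g kap x ^ 2 * ctr G (IIf G) (IIf G) x ≤ 0 := by
      by_contra hlt'
      push Not at hlt'
      have := mul_pos hHp hlt'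
      linarith
    have h2 := h.ctr_comb_zero hx.le (hKs x hx.le) (fun i j => IIf_symm h hx i j) h1 i j
    rw [row_IIf h hx, row_IIf h hx, rad_IIf h hx, hrow, hrow] at h2
    have h3 : tco B g kap x = κ * s / H := rfl
    rw [h3] at h2
    linarith
  · have h1 : 1 / rad g x * (H ^ 2 - κ ^ 2) / H *
        (ctr G (IIf G) (IIf G) x - B.II2 (len x)) ≤ 0 := by linarith
    have h2 : ctr G (IIf G) (IIf G) x - B.II2 (len x) ≤ 0 := by
      by_contra hlt'
      push Not at hlt'
      have := mul_pos hw hlt'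
      linarith
    linarith

/-- **Block R2b.** Equality in the averaged inequality. -/
theorem avg_eqW [Nontrivial (E n)] (hA : StA n) (hB : StB n) (h : Lapse G g B.R)
    (hF : B.FitsW G) (hK : ∀ i j, Smooth (fun x => K x i j))
    (hKs : ∀ x, B.R ≤ len x → ∀ i j, K x i j = K x j i)
    (hk : ∀ x, B.R ≤ len x → √(rad g x) * trT G K x = kap (len x)) {r : ℝ} (hr : B.R < r)
    (hkd : DifferentiableAt ℝ kap r) (hdec : ∀ x, B.R < len x → covNorm g (mom g K) x ≤ mu g K x)
    (hlt : |kap r| < B.H r)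
    (heq : B.H r * B.Rh r - B.H r * (Vav g r * (B.H r ^ 2 - kap r ^ 2)) -
          Vav g r * (B.H r ^ 2 - kap r ^ 2) / B.H r * B.II2 r ≤
      Vav' g r * (B.H r ^ 2 - kap r ^ 2) +
      Vav g r * (2 * B.H r * deriv B.H r - 2 * kap r * deriv kap r)) :
    av (leafScal G) r = B.Rh r ∧ ∀ x : E n, len x = r → PtEq B G g K kap x := by
  have hω : 0 < Vale.Agent.P366.omega n := Vale.Agent.P366.omega_pos'
  have h0 : 0 < r := B.hR.trans hr
  have hZ1 : ∀ l x, B.R < len x → ContDiffAt ℝ ∞ (glf g l) x := fun l x hx =>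
    h.contDiffAt_glf hx.le l
  have hZ2 : ∀ l x, B.R < len x → ContDiffAt ℝ ∞ (bf g K l) x := fun l x hx =>
    h.contDiffAt_bf hK hx.le l
  have hHp : 0 < B.H r := (abs_nonneg _).trans_lt hlt
  set w := B.H r ^ 2 - kap r ^ 2 with hw
  have hw0 : 0 ≤ w := by
    have h2 : kap r ^ 2 ≤ B.H r ^ 2 := by
      rw [← sq_abs (kap r)]
      exact pow_le_pow_left₀ (abs_nonneg _) hlt.le 2
    rw [hw]; linarith
  set c1 := (2 * B.H r * deriv B.H r - 2 * kap r * deriv kap r) + B.H r * w +
    w / B.H r * B.II2 r with hc1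
  set Fx : E n → ℝ := fun x => B.H r * leafScal G x -
      (0 - (-w) * dN (fun y => 1 / rad g y) x - (-c1) * (1 / rad g x) -
        (-(2 * B.H r)) * DS G (glf g) x - (-(2 * kap r)) * DS G (bf g K) x) with hFx
  -- the integrand
  have hval : ∀ x : E n, ‖x‖ = r → Fx x = ptw B G g K kap x +
      1 / rad g x * (B.H (len x) ^ 2 - kap (len x) ^ 2) /
      B.H (len x) * (ctr G (IIf G) (IIf G) x - B.II2 (len x)) := by
    intro x hx
    have hx' : len x = r := hx
    unfold ptw
    rw [hx']
    simp only [hFx, hc1, hw]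
    ring
  have hpt : ∀ x : E n, ‖x‖ = r → 0 ≤ Fx x := by
    intro x hx
    rw [hval x hx]
    have hx' : len x = r := hx
    have hxR : B.R < len x := by rw [hx']; exact hr
    have hp := pointwiseW hA hB h hF.toFits0 hK hKs hk hxR (by rw [hx']; exact hkd) (hdec x hxR)
      (by rw [hx']; exact hlt)
    have h2 := hF.hII x hxR
    have hv : 0 < 1 / rad g x := by
      have := h.ppos x hxR.le
      positivity
    have h3 : 0 ≤ 1 / rad g x * (B.H (len x) ^ 2 - kap (len x) ^ 2) / B.H (len x) *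
        (ctr G (IIf G) (IIf G) x - B.II2 (len x)) := by
      rw [hx'] at h2 ⊢
      exact mul_nonneg (div_nonneg (mul_nonneg hv.le hw0) hHp.le) (by linarith)
    have h4 : 0 ≤ ptw B G g K kap x := hp
    linarith
  have c1' : ContinuousOn (dN fun y => 1 / rad g y) {x : E n | B.R < ‖x‖} :=
    contOn_dN h.hR.le h.contDiffOn_v
  have c2' : ContinuousOn (fun y : E n => 1 / rad g y) {x : E n | B.R < ‖x‖} :=
    h.contDiffOn_v.continuousOn
  have c3' := h.contOn_DS hZ1
  have c4' := h.contOn_DS hZ2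
  have hcomb : ContinuousOn (fun x => 0 - (-w) * dN (fun y => 1 / rad g y) x -
      (-c1) * (1 / rad g x) - (-(2 * B.H r)) * DS G (glf g) x -
        (-(2 * kap r)) * DS G (bf g K) x) {x : E n | B.R < ‖x‖} :=
    (((continuousOn_const.sub (continuousOn_const.mul c1')).sub
      (continuousOn_const.mul c2')).sub (continuousOn_const.mul c3')).sub
        (continuousOn_const.mul c4')
  have hFc : ContinuousOn Fx {x : E n | B.R < ‖x‖} :=
    (continuousOn_const.mul h.contOn_leafScal).sub hcomb
  have hIv : sphI Fx r = Vale.Agent.P366.omega n *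
      (B.H r * av (leafScal G) r - w * Vav' g r - c1 * Vav g r) := by
    rw [hFx, Vale.Agent.P366.sphI_sub (u := fun x => B.H r * leafScal G x) (v := fun x => 0 -
      (-w) * dN (fun y => 1 / rad g y) x - (-c1) * (1 / rad g x) -
        (-(2 * B.H r)) * DS G (glf g) x - (-(2 * kap r)) * DS G (bf g K) x) h.hR.le hr
      (continuousOn_const.mul h.contOn_leafScal) hcomb,
      sphI_comb h.hR.le hr c1' c2' c3' c4', h.sphI_DS hZ1 hr, h.sphI_DS hZ2 hr,
      Vale.Agent.P366.sphI_const_mul]
    have e1 : sphI (dN fun y => 1 / rad g y) r = Vale.Agent.P366.omega n * Vav' g r := by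
      unfold Vav' av
      field_simp
    have e2 : sphI (fun y => 1 / rad g y) r = Vale.Agent.P366.omega n * Vav g r := by
      unfold Vav av
      field_simp
    have e3 : sphI (fun x => leafScal G x) r =
        Vale.Agent.P366.omega n * av (leafScal G) r := by
      unfold av
      field_simp
    rw [e1, e2, e3]
    ring
  have hI0 : 0 ≤ sphI Fx r := integral_nonneg fun θ => hpt _ (norm_smul_sph h0.le θ)
  have e3 : Vav g r * w / B.H r * B.II2 r = Vav g r * (w / B.H r * B.II2 r) := by ring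
  have h4 : w * Vav' g r + c1 * Vav g r ≥ B.H r * B.Rh r := by
    rw [e3] at heq
    rw [hc1]
    linarith
  have h5 : B.H r * av (leafScal G) r ≤ B.H r * B.Rh r :=
    mul_le_mul_of_nonneg_left (hF.hRh r hr) hHp.le
  have h6 : B.H r * av (leafScal G) r - w * Vav' g r - c1 * Vav g r ≤ 0 := by linarith
  have hI1 : sphI Fx r ≤ 0 := by
    rw [hIv]
    exact mul_nonpos_of_nonneg_of_nonpos hω.le h6
  refine ⟨?_, fun x hx => ?_⟩
  · have h7 : 0 ≤ B.H r * av (leafScal G) r - w * Vav' g r - c1 * Vav g r := by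
      rw [hIv] at hI0
      exact nonneg_of_mul_nonneg_right hI0 hω
    have h8 : B.H r * av (leafScal G) r = B.H r * B.Rh r := by linarith
    exact mul_left_cancel₀ hHp.ne' h8
  · have hxr : ‖x‖ = r := hx
    have hz := eq_zero_of_sphI h.hR.le hr hFc hpt hI1 hxr
    rw [hval x hxr] at hz
    have hxR : B.R < len x := by rw [hx]; exact hr
    exact pointwise_eq hA hB h hF.toFits0 hK hKs hk hxR (by rw [hx]; exact hkd) (hdec x hxR)
      (by rw [hx]; exact hlt) (hF.hII x hxR) hz.le

end

end Vale.Agent.T4
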