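import Vale.Agent.P366.T5.Leaf
import Vale.Agent.P366.T5.Asm
import Vale.Agent.P366.T4.Final4
import Vale.Agent.P366.T1.Boost.Setup

/-! T5: the final theorem. -/

open MeasureTheory Metric Filter Topology Set
open scoped ContDiff ENNReal Matrix

noncomputable section
namespace Vale.Agent.T4
open Vale.Agent.P366.Stmt Vale.Agent.P366.T2
open Vale.Agent.P366 (sphI sphM av norm_smul_sph sphI_congr)

variable {n : ℕ}

lemma radDeriv_eq (f : E n → ℝ) : radDeriv f = dN f := rfl

section

variable {G : Field n} {R : ℝ} (h : Lapse G G R)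
include h

lemma pd_len_nx {x : E n} (hx : x ≠ 0) (i : Fin n) : HP i len (nx i x) x := by
  have h1 := HP.radial hx (f := fun r => r) (hasDerivAt_id (len x)) i
  have e : 1 / len x * x i = nx i x := by unfold nx; ring
  rw [e] at h1
  exact h1

/-- the Hessian of the radius is the second fundamental form -/
lemma hess_len {x : E n} (hx : R < len x) (i j : Fin n) : hess G len x i j = IIf G x i j := by
  have hx0 := h.ne_zero hx.le
  have h1 : pd i (pd j len) x = ((if j = i then 1 else 0) - nx j x * nx i x) / len x := by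
    have h2 : (pd j len : E n → ℝ) =ᶠ[𝓝 x] nx j := by
      filter_upwards [(isOpen_out R).mem_nhds hx] with y hy
      exact (pd_len_nx h (h.ne_zero (le_of_lt hy)) j).pd
    exact ((HP_nx hx0 i j).congr h2).pd
  have h2 : ∑ k, chr G k i j x * pd k len x =
      (((if i = j then 1 else 0) - G x i j) / len x * 2 - dN (fun y => G y i j) x) / 2 := by
    have e1 : ∀ k, pd k len x = nx k x := fun k => (pd_len_nx h hx0 k).pd
    unfold chr
    simp only [e1]
    have e2 : ∑ k, (∑ l, up G k l x * (pd i (fun y => G y j l) x + pd j (fun y => G y i l) x -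
        pd l (fun y => G y i j) x)) / 2 * nx k x =
        (∑ l, nx l x * (pd i (fun y => G y j l) x + pd j (fun y => G y i l) x -
        pd l (fun y => G y i j) x)) / 2 := by
      have e3 : ∀ k, (∑ l, up G k l x * (pd i (fun y => G y j l) x + pd j (fun y => G y i l) x -
        pd l (fun y => G y i j) x)) / 2 * nx k x = ∑ l, (pd i (fun y => G y j l) x +
        pd j (fun y => G y i l) x - pd l (fun y => G y i j) x) / 2 * (nx k x * up G k l x) := by
        intro k
        rw [Finset.sum_div, Finset.sum_mul]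
        exact Finset.sum_congr rfl fun l _ => by ring
      simp only [e3]
      rw [Finset.sum_comm]
      simp only [← Finset.mul_sum, h.nx_up hx.le]
      rw [Finset.sum_div]
      exact Finset.sum_congr rfl fun l _ => by ring
    rw [e2]
    congr 1
    have e4 := pdG_nx h hx i j
    have e5 := pdG_nx h hx j i
    have e6 : ∑ l, nx l x * (pd i (fun y => G y j l) x + pd j (fun y => G y i l) x -
        pd l (fun y => G y i j) x) = (∑ l, pd i (fun y => G y j l) x * nx l x) +
        (∑ l, pd j (fun y => G y i l) x * nx l x) - dN (fun y => G y i j) x := by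
      unfold dN
      rw [← Finset.sum_add_distrib, ← Finset.sum_sub_distrib]
      exact Finset.sum_congr rfl fun l _ => by ring
    rw [e6, e4, e5, h.symm x hx.le j i]
    simp only [eq_comm (a := j) (b := i)]
    ring
  unfold hess IIf
  rw [h1, h2]
  simp only [eq_comm (a := j) (b := i)]
  ring

lemma rad_self {x : E n} (hx : R ≤ len x) : rad G x = 1 := by
  have h0 := h.ne_zero hx
  rw [← sum_nx_mul h0]
  unfold rad
  refine Finset.sum_congr rfl fun i _ => ?_
  have e : ∀ j, G x i j * nx i x * nx j x = nx i x * (G x i j * nx j x) := fun j => by ring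
  simp only [e, ← Finset.mul_sum, h.G_nx hx]

lemma tr_hess_len {x : E n} (hx : R < len x) : tr G (hess G len) x = H1 G x := by
  have h1 : tr G (hess G len) x = tr G (IIf G) x := by
    unfold tr
    simp only [hess_len h hx]
  rw [h1, tr_lapse h hx.le, trT_IIf h hx, rad_IIf h hx]
  simp

lemma normSq_hess_len {x : E n} (hx : R < len x) :
    normSq G (hess G len) x = ctr G (IIf G) (IIf G) x := by
  have h1 : normSq G (hess G len) x = normSq G (IIf G) x := by
    unfold normSq
    simp only [hess_len h hx]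
  have h2 : S2 G (row (IIf G)) (row (IIf G)) x = 0 := by
    unfold S2
    simp only [row_IIf h hx, mul_zero, Finset.sum_const_zero]
  rw [h1, normSq_lapse h (fun i j => IIf_symm h hx i j) hx.le, h2, rad_IIf h hx]
  simp

/-- the scalar curvature of the leaves of a metric with unit lapse -/
lemma leafScal_eq {x : E n} (hx : R < len x) : leafScal G x = scal G x +
    normSq G (hess G len) x + tr G (hess G len) x ^ 2 +
      2 * dN (tr G (hess G len)) x := by
  have h1 : dN (tr G (hess G len)) x = dN (H1 G) x := by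
    unfold dN
    refine Finset.sum_congr rfl fun k _ => ?_
    congr 1
    unfold pd
    refine Filter.EventuallyEq.lineDeriv_eq ?_
    filter_upwards [(isOpen_out R).mem_nhds hx] with y hy
    exact tr_hess_len h hy
  rw [h1, tr_hess_len h hx, normSq_hess_len h hx]
  rfl

end

section

variable {g g' : Field n} {x : E n} (h : ∀ᶠ y in 𝓝 x, g y = g' y)
include h

lemma ev_ev : ∀ᶠ y in 𝓝 x, ∀ᶠ z in 𝓝 y, ∀ i j, g z i j = g' z i j := by
  filter_upwards [eventually_eventually_nhds.2 h] with y hy
  filter_upwards [hy] with z hz i j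
  rw [hz]

lemma chr_ev : ∀ᶠ y in 𝓝 x, ∀ k i j, chr g k i j y = chr g' k i j y := by
  filter_upwards [ev_ev h] with y hy k i j
  exact Vale.Agent.P366.T1.Boost.chr_congr hy k i j

lemma up_congr' (i j : Fin n) : up g i j x = up g' i j x := by
  unfold up mat
  rw [h.self_of_nhds]

lemma scal_congr' : scal g x = scal g' x := by
  have h1 := chr_ev h
  have h2 : ∀ m k i j, pd m (chr g k i j) x = pd m (chr g' k i j) x := by
    intro m k i j
    unfold pd
    refine Filter.EventuallyEq.lineDeriv_eq ?_
    filter_upwards [h1] with y hy using hy k i j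
  unfold scal
  simp only [up_congr' h, h2, h1.self_of_nhds]

lemma hess_ev (F : E n → ℝ) : ∀ᶠ y in 𝓝 x, ∀ i j, hess g F y i j = hess g' F y i j := by
  filter_upwards [chr_ev h] with y hy i j
  unfold hess
  simp only [hy]

lemma tr_hess_ev (F : E n → ℝ) : tr g (hess g F) =ᶠ[𝓝 x] tr g' (hess g' F) := by
  filter_upwards [hess_ev h F, eventually_eventually_nhds.2 h] with y hy hy2
  unfold tr
  simp only [hy, up_congr' hy2]

lemma normSq_hess_congr (F : E n → ℝ) : normSq g (hess g F) x = normSq g' (hess g' F) x := by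
  unfold normSq
  simp only [up_congr' h, (hess_ev h F).self_of_nhds]

lemma dN_tr_hess_congr (F : E n → ℝ) :
    dN (tr g (hess g F)) x = dN (tr g' (hess g' F)) x := by
  unfold dN pd
  refine Finset.sum_congr rfl fun k _ => ?_
  congr 1
  exact (tr_hess_ev h F).lineDeriv_eq

end

lemma unitLapse_eq {R : ℝ} (hR : 0 < R) {g : Field n} {x : E n} (hx : R ≤ len x) :
    unitLapse g x = bgF R g x := by
  funext i j
  rw [bgF_eq hR hx]
  unfold unitLapse spherical nx
  rw [radial_eq]
  ring

theorem sphereScal_eq {R : ℝ} {g : Field n} (h : Lapse (bgF R g) (bgF R g) R) {x : E n}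
    (hx : R < len x) : sphereScal g x = leafScal (bgF R g) x := by
  have hev : ∀ᶠ y in 𝓝 x, unitLapse g y = bgF R g y := by
    filter_upwards [(isOpen_out R).mem_nhds hx] with y hy
    exact unitLapse_eq h.hR (le_of_lt hy)
  rw [leafScal_eq h hx]
  unfold sphereScal
  rw [scal_congr' hev, normSq_hess_congr hev, (tr_hess_ev hev len).self_of_nhds, radDeriv_eq,
    dN_tr_hess_congr hev]

lemma sph_eq_sphI (r : ℝ) (f : E n → ℝ) : sph (vol n) r f = sphI f r := by
  unfold sph sphI
  rw [Vale.Agent.P366.vol_eq]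

/-- **The Penrose inequality for data with an arbitrary lapse over spheres with radial area
density.** -/
theorem penrose_density (hn : 3 ≤ n) {X : Exterior n} (hAF : X.IsAF) (hDEC : X.DEC)
    (hT : X.Trapped) {m : ℝ} (hm : X.IsEnergy m) {R₁ : ℝ}
    (hR : IsGreatest {r | ∃ x, X.F x = 0 ∧ len x = r} R₁)
    (hperp : ∀ x, R₁ ≤ len x → ∀ i, ∑ j, X.g x i j * x j = radial X.g x * x i)
    {ρ : ℝ → ℝ} (hρ : ∀ r, R₁ ≤ r → 0 < ρ r)
    (hdens : ∀ x, R₁ ≤ len x →
      (mat (unitLapse X.g) x).det = (ρ (len x) / len x) ^ (2 * (n - 1)))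
    (hcurv : ∀ r, R₁ < r → sph (vol n) r (sphereScal X.g) / omega n ≤
      ((n : ℝ) - 1) * ((n : ℝ) - 2) / ρ r ^ 2)
    {κ : ℝ → ℝ} (hκ : ∀ x, R₁ ≤ len x → √(radial X.g x) * trS X.g X.K len x = κ (len x)) :
    X.Amin ≠ ⊤ ∧ 0 < m ∧
      (X.Amin.toReal / omega n) ^ (((n : ℝ) - 2) / (n - 1)) / 2 ≤ m := by
  have hout := Vale.Agent.C92.outside_nonneg (by omega) X hR
  have hR0 : 0 < R₁ :=
    (Vale.Agent.P366.Bridge.toRaw X).R1_pos (by omega) (Vale.Agent.P366.Bridge.raw_R1 X hR)
  have hpos : ∀ x, R₁ ≤ len x → (mat X.g x).PosDef := fun x hx => X.pos x (hout x hx)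
  have hgs : ∀ i j, Smooth (fun x => X.g x i j) := fun i j => (X.smooth i j).1
  have hgsy : ∀ x i j, X.g x i j = X.g x j i := fun x i j => (X.symm x i j).1
  have hp : PerpAt R₁ X.g := hperp
  have hl : Lapse (bgF R₁ X.g) X.g R₁ := lapse_bgF hR0 hgs hgsy hpos (hp.nx hR0)
  have hll : Lapse (bgF R₁ X.g) (bgF R₁ X.g) R₁ :=
    lapse_self hR0 hl.Gs hl.symm hl.pos hl.unit
  refine penrose_density0 hn hl (d := fun r => (ρ r / r) ^ (2 * (n - 1))) (fun x hx => ?_)
    (fun r hr => ?_) hAF hDEC hT hm hR (κ := κ) (fun x hx => ?_)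
  · rw [← hdens x hx]
    unfold mat
    rw [unitLapse_eq hR0 hx]
  · have hr0 : 0 < r := hR0.trans hr
    have h1 := hcurv r hr
    have e1 : av (leafScal (bgF R₁ X.g)) r = sph (vol n) r (sphereScal X.g) / omega n := by
      rw [sph_eq_sphI, Vale.Agent.P366.omega_eq]
      unfold av
      congr 1
      refine sphI_congr hr0.le fun x hx => ?_
      exact (sphereScal_eq hll (by unfold len; rw [hx]; exact hr)).symm
    have e2 : ((ρ r / r) ^ (2 * (n - 1))) ^ (1 / ((n : ℝ) - 1)) = (ρ r / r) ^ 2 := by
      have hq : 0 < ρ r / r := div_pos (hρ r hr.le) hr0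
      have h3 : ((n - 1 : ℕ) : ℝ) = (n : ℝ) - 1 := by
        rw [Nat.cast_sub (by omega)]; push_cast; ring
      rw [pow_mul, ← h3, one_div]
      exact Real.pow_rpow_inv_natCast (by positivity) (by omega)
    rw [e1]
    refine h1.trans (le_of_eq ?_)
    simp only [e2]
    congr 1
    field_simp
  · rw [← radial_eq, ← hl.trS_len hx]
    exact hκ x hx

end Vale.Agent.T4
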