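import Vale.Agent.P366.T5.Asm
import Vale.Agent.P366.T5.EqW
import Vale.Agent.P366.T4.Out
import Vale.Agent.P366.T4.Rigid
import Vale.Agent.P366.T4.KeyEq
import Vale.Agent.P366.T4.RadEq

/-! T5: the equality case, assembly. -/

open MeasureTheory Metric Filter Topology Set
open scoped ContDiff ENNReal Matrix

noncomputable section
namespace Vale.Agent.T4
open Vale.Agent.P366.Stmt
open Vale.Agent.P366 (sphI sphM av norm_smul_sph integrable_sph sphI_congr sphI_continuousOn)

variable {n : ℕ}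

/-- **The equality case.** -/
theorem rigidW (hn : 3 ≤ n) (hEmb : StEmb n) {X : Exterior n} {G : Field n}
    {B : Bg n} (h : Lapse G X.g B.R) (hB : B.FitsW G) (hL : B.LamOK G) (hAF : X.IsAF)
    (hDEC : X.DEC) (hT : X.Trapped) {m : ℝ} (hm : X.IsEnergy m)
    (hR : IsGreatest {r | ∃ x, X.F x = 0 ∧ len x = r} B.R) {κ : ℝ → ℝ}
    (hκ : ∀ x, B.R ≤ len x → √(rad X.g x) * trT G X.K x = κ (len x))
    (hO : Outermost X)
    (heq : (X.Amin.toReal / omega n) ^ (((n : ℝ) - 2) / (n - 1)) / 2 = m)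
    (hround : (∀ r, B.R < r → B.lam r ^ 2 = ((n : ℝ) - 1) * B.L2 r ∧
        B.Rh r / 4 + B.L2 r = B.lam r ^ 2) →
      (∀ x, B.R < len x → ctr G (IIf G) (IIf G) x = B.II2 (len x)) →
      B.RoundAt G ∧ ∀ r, B.R < r → B.lam r = ((n : ℝ) - 1) / (2 * B.rho r)) :
    IsSlice m X.g X.K {x | B.R < len x} := by
  have : Nonempty (Fin n) := ⟨⟨0, by omega⟩⟩
  have : Nontrivial (E n) := inferInstance
  have hn3 : (3 : ℝ) ≤ n := by exact_mod_cast hn
  have hout := Vale.Agent.C92.outside_nonneg (by omega) X hR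
  have hKsm := fun i j => (X.smooth i j).2
  have hKsy : ∀ x, B.R ≤ len x → ∀ i j, X.K x i j = X.K x j i := fun x _ i j => (X.symm x i j).2
  have hdec : ∀ x, B.R < len x → covNorm X.g (mom X.g X.K) x ≤ mu X.g X.K x :=
    fun x hx => hDEC x (hout x hx.le)
  obtain ⟨hlim, hinf⟩ := stEF hn h hB.toFits0 hL hAF hm hκ
  have hω : 0 < omega n := by
    rw [Vale.Agent.P366.omega_eq]
    exact Vale.Agent.P366.omega_pos'
  -- the area bound
  have hA : ∀ r, B.R ≤ r → 2 * m ≤ B.rho r ^ ((n : ℝ) - 2) := by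
    intro r hr
    have hρ := B.rho_pos hr
    have hn1 : (n : ℝ) - 1 ≠ 0 := by linarith
    have e : B.rho r ^ ((n : ℝ) - 1) = B.ar r := by
      unfold Bg.rho
      rw [← Real.rpow_mul (B.ar_pos r hr).le, one_div, inv_mul_cancel₀ hn1, Real.rpow_one]
    have hAm : X.Amin ≤ ENNReal.ofReal (omega n * B.rho r ^ ((n : ℝ) - 1)) := by
      rw [e]
      exact areaF (by omega) h hB.toFits0 hR hr
    have h1 : X.Amin.toReal ≤ omega n * B.rho r ^ ((n : ℝ) - 1) := by
      have h2 := ENNReal.toReal_mono ENNReal.ofReal_ne_top hAm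
      rwa [ENNReal.toReal_ofReal (by positivity)] at h2
    have h3 : X.Amin.toReal / omega n ≤ B.rho r ^ ((n : ℝ) - 1) := by
      rw [div_le_iff₀ hω]; linarith
    have h4 : (X.Amin.toReal / omega n) ^ (((n : ℝ) - 2) / (n - 1)) ≤
        (B.rho r ^ ((n : ℝ) - 1)) ^ (((n : ℝ) - 2) / (n - 1)) :=
      Real.rpow_le_rpow (by positivity) h3 (div_nonneg (by linarith) (by linarith))
    have h5 : (B.rho r ^ ((n : ℝ) - 1)) ^ (((n : ℝ) - 2) / (n - 1)) =
        B.rho r ^ ((n : ℝ) - 2) := by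
      rw [← Real.rpow_mul hρ.le]
      congr 1
      field_simp
    rw [h5] at h4
    linarith
  have hkey := B.key_eq hn (V := Vav X.g) (V' := Vav' X.g) (kap := κ)
    (fun r hr => Vav_pos h hr) (Vav_continuousOn h) (fun r hr => Vav_hasDerivAt h hr)
    (kap_continuousOn (by omega) h hKsm hκ)
    (fun r hr => kap_differentiableAt (by omega) h hKsm hκ hr)
    (fun r hr hlt => avg_ineqW (stA n) (stB n) h hB hKsm hKsy hκ hr
      (kap_differentiableAt (by omega) h hKsm hκ hr) hdec hlt)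
    (touchF (by omega) h hB.toFits0 hκ hT hR) hinf hlim hA
    (fun r hr => out_pos (by omega) h hB.toFits0 hκ hO hR hr)
  have hpt : ∀ x, B.R < len x → PtEq B G X.g X.K κ x := by
    intro x hx
    obtain ⟨h1, h2, h3, h4, h5⟩ := hkey (len x) hx
    exact (avg_eqW (stA n) (stB n) h hB hKsm hKsy hκ hx
      (kap_differentiableAt (by omega) h hKsm hκ hx) hdec h1 h3.ge).2 x rfl
  obtain ⟨hro, hlam⟩ := hround (fun r hr => (hkey r hr).2.2.2) (fun x hx => (hpt x hx).II0)
  exact isSlice_of_eq hn hEmb (stB n) h hB.toFits0 hKsm hKsy hκ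
    (fun r hr => kap_differentiableAt (by omega) h hKsm hκ hr) hro hlam
    (fun x y hx hxy => rad_const (by omega) h (fun z hz => (hpt z hz).glf0) x y hx hxy)
    (fun x hx => (hpt x hx).mom0) (fun x hx => (hpt x hx).row0) (fun x hx => (hpt x hx).K0)
    (fun r hr => (hkey r hr).1) (fun r hr => (hkey r hr).2.1)

end Vale.Agent.T4
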