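import Vale.Agent.P366.T5.Umb68
import Vale.Agent.P366.T4.E919e

/-! T5: round leaves of asymptotically flat data; the round background with its weight. -/

open MeasureTheory Metric Filter Topology Set Asymptotics
open scoped ContDiff ENNReal

noncomputable section
namespace Vale.Agent.T4
open Vale.Agent.P366.Stmt Vale.Agent.P366.T2
open Vale.Agent.P366.T1.A919 (O O_iff O_of_bigO)
open Vale.Agent.P366 (sphI sphM av)

variable {n : ℕ} {G g : Field n} {q : ℝ} {B : Bg n}

/-- Umbilic leaves of asymptotically flat data are round. -/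
theorem roundAt_of_umbilic' (hn : 3 ≤ n) {X : Exterior n} (h : Lapse G X.g B.R)
    (hF : B.Fits0 G) (hAF : X.IsAF) (hU : ∀ x, B.R < len x →
      ctr G (IIf G) (IIf G) x = B.H (len x) ^ 2 / ((n : ℝ) - 1)) : B.RoundAt G := by
  obtain ⟨q, hq, hAFq⟩ := hAF
  have hn3 : (3 : ℝ) ≤ n := by exact_mod_cast hn
  have i0 : Fin n := ⟨0, by omega⟩
  have D : Dec X.g q := ⟨fun i j => O_of_bigO (hAFq i j i0 i0).1,
    fun i j k => O_of_bigO (hAFq i j k i0).2.1⟩
  exact roundAt_of_umbilic (by omega) h hF (by linarith) D hU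

/-- **Block W3** with the data of the background. -/
theorem fitsW_of_density' (hn : 2 ≤ n) {R : ℝ} (h : Lapse G g R) {d : ℝ → ℝ}
    (hd : ∀ x, R ≤ len x → (mat G x).det = d (len x))
    (hc : ∀ r, R < r → av (leafScal G) r ≤
      ((n : ℝ) - 1) * ((n : ℝ) - 2) / (r ^ 2 * d r ^ (1 / ((n : ℝ) - 1)))) :
    ∃ B : Bg n, B.R = R ∧ B.FitsW G ∧ B.LamOK G ∧
      (∀ r, B.II2 r = B.H r ^ 2 / ((n : ℝ) - 1)) ∧
      ∀ r, R ≤ r → B.lam r = ((n : ℝ) - 1) / (2 * B.rho r) := by
  obtain ⟨a, hsm, hpos, had, hpow⟩ := exists_a h hd hn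
  have hF0 := fits0_of_det hn h hsm hpos (fun x hx => by rw [hd x hx, hpow _ hx])
  refine ⟨bgR hn a R h.hR hsm hpos, rfl, ?_, bgR_lamOK hn h.hR hsm hpos G, fun r => rfl,
    fun r hr => ?_⟩
  · refine { hF0 with hII := fun x hx => ?_, hRh := fun r hr => ?_ }
    · have hx' : R < len x := hx
      have h1 := h.H1_sq_le hn hx'
      rw [H1_eq0 hF0 hx] at h1
      exact h1
    · have hr' : R < r := hr
      have h1 := hc r hr'
      rw [← had r hr'.le] at h1
      exact h1
  · rw [Round.rho_eq hn h.hR hsm hpos hr]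
    rfl

end Vale.Agent.T4
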