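import Vale.Agent.P366.T5.Final5
import Vale.Agent.P366.T5.RigidAsm
import Vale.Agent.P366.T5.Umb2

/-! T5: the final theorem for the equality case. -/

open MeasureTheory Metric Filter Topology Set
open scoped ContDiff ENNReal Matrix

noncomputable section
namespace Vale.Agent.T4
open Vale.Agent.P366.Stmt Vale.Agent.P366.T2
open Vale.Agent.P366 (sphI sphM av norm_smul_sph sphI_congr)

variable {n : ℕ}

/-- a homogeneous background satisfies the averaged inequalities -/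
lemma Bg.Fits.toFitsW (hn : 1 ≤ n) {B : Bg n} {G : Field n} (hF : B.Fits G) : B.FitsW G := by
  refine { hF.toFits0 with hII := fun x hx => (hF.hII x hx).ge, hRh := fun r hr => ?_ }
  refine le_of_eq (av_eq hn (B.hR.trans hr).le fun x hx => ?_)
  have hx' : B.R < len x := by rw [hx]; exact hr
  unfold leafScal
  rw [hF.hII x hx', H1_eq0 hF.toFits0 hx', dN_H10 hF.toFits0 hx', hF.hRh x hx', hx]

/-- **Equality case for spheres with radial area density.** -/
theorem rigid_density (hn : 3 ≤ n) (hEmb : StEmb n) {X : Exterior n} (hAF : X.IsAF)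
    (hDEC : X.DEC) (hT : X.Trapped) {m : ℝ} (hm : X.IsEnergy m) {R₁ : ℝ}
    (hR : IsGreatest {r | ∃ x, X.F x = 0 ∧ len x = r} R₁)
    (hperp : ∀ x, R₁ ≤ len x → ∀ i, ∑ j, X.g x i j * x j = radial X.g x * x i)
    {ρ : ℝ → ℝ} (hρ : ∀ r, R₁ ≤ r → 0 < ρ r)
    (hdens : ∀ x, R₁ ≤ len x →
      (mat (unitLapse X.g) x).det = (ρ (len x) / len x) ^ (2 * (n - 1)))
    (hcurv : ∀ r, R₁ < r → sph (vol n) r (sphereScal X.g) / omega n ≤
      ((n : ℝ) - 1) * ((n : ℝ) - 2) / ρ r ^ 2)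
    {κ : ℝ → ℝ} (hκ : ∀ x, R₁ ≤ len x → √(radial X.g x) * trS X.g X.K len x = κ (len x))
    (hO : Outermost X)
    (heq : (X.Amin.toReal / omega n) ^ (((n : ℝ) - 2) / (n - 1)) / 2 = m) :
    IsSlice m X.g X.K {x | R₁ < len x} := by
  have hout := Vale.Agent.C92.outside_nonneg (by omega) X hR
  have hR0 : 0 < R₁ :=
    (Vale.Agent.P366.Bridge.toRaw X).R1_pos (by omega) (Vale.Agent.P366.Bridge.raw_R1 X hR)
  have hpos : ∀ x, R₁ ≤ len x → (mat X.g x).PosDef := fun x hx => X.pos x (hout x hx)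
  have hgs : ∀ i j, Smooth (fun x => X.g x i j) := fun i j => (X.smooth i j).1
  have hgsy : ∀ x i j, X.g x i j = X.g x j i := fun x i j => (X.symm x i j).1
  have hp : PerpAt R₁ X.g := hperp
  have hl : Lapse (bgF R₁ X.g) X.g R₁ := lapse_bgF hR0 hgs hgsy hpos (hp.nx hR0)
  have hll : Lapse (bgF R₁ X.g) (bgF R₁ X.g) R₁ :=
    lapse_self hR0 hl.Gs hl.symm hl.pos hl.unit
  have hd : ∀ x, R₁ ≤ len x → (mat (bgF R₁ X.g) x).det =
      (fun r => (ρ r / r) ^ (2 * (n - 1))) (len x) := by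
    intro x hx
    simp only
    rw [← hdens x hx]
    unfold mat
    rw [unitLapse_eq hR0 hx]
  have hc : ∀ r, R₁ < r → av (leafScal (bgF R₁ X.g)) r ≤ ((n : ℝ) - 1) * ((n : ℝ) - 2) /
      (r ^ 2 * (fun r => (ρ r / r) ^ (2 * (n - 1))) r ^ (1 / ((n : ℝ) - 1))) := by
    intro r hr
    have hr0 : 0 < r := hR0.trans hr
    have h1 := hcurv r hr
    have e1 : av (leafScal (bgF R₁ X.g)) r = sph (vol n) r (sphereScal X.g) / omega n := by
      rw [sph_eq_sphI, Vale.Agent.P366.omega_eq]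
      unfold av
      congr 1
      refine sphI_congr hr0.le fun x hx => ?_
      exact (sphereScal_eq hll (by unfold len; rw [hx]; exact hr)).symm
    have e2 : ((ρ r / r) ^ (2 * (n - 1))) ^ (1 / ((n : ℝ) - 1)) = (ρ r / r) ^ 2 := by
      have hq : 0 < ρ r / r := div_pos (hρ r hr.le) hr0
      have h3 : ((n - 1 : ℕ) : ℝ) = (n : ℝ) - 1 := by
        rw [Nat.cast_sub (by omega)]; push_cast; ring
      rw [pow_mul, ← h3, one_div]
      exact Real.pow_rpow_inv_natCast (by positivity) (by omega)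
    rw [e1]
    refine h1.trans (le_of_eq ?_)
    simp only [e2]
    congr 1
    field_simp
  obtain ⟨B, rfl, hB, hL, hII2, hlam⟩ := fitsW_of_density' (by omega) hl hd hc
  refine rigidW hn hEmb hl hB hL hAF hDEC hT hm hR (κ := κ) (fun x hx => ?_) hO heq
    (fun _ hII => ⟨roundAt_of_umbilic' hn hl hB.toFits0 hAF fun x hx => ?_,
      fun r hr => hlam r hr.le⟩)
  · rw [← radial_eq, ← hl.trS_len hx]
    exact hκ x hx
  · rw [hII x hx, hII2]

/-- **Equality case for an arbitrary lapse over homogeneous spheres.** -/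
theorem rigid_lapse (hn : 3 ≤ n) (hEmb : StEmb n)
    (hEx : ∀ {Γ : Matrix (Fin n) (Fin n) ℝ → Prop}, SphereGroup n Γ → ∀ {G : Field n} {R : ℝ},
      0 < R → (∀ i j, Smooth (fun x => G x i j)) → (∀ x i j, G x i j = G x j i) →
      (∀ x, R ≤ len x → (mat G x).PosDef) → (∀ x, R ≤ len x → ∀ i, ∑ j, G x i j * x j = x i) →
      InvUnder Γ R G → ∃ B : Bg n, B.R = R ∧ B.Fits G ∧ B.LamOK G ∧
        ((∀ r, B.R < r → B.lam r ^ 2 = ((n : ℝ) - 1) * B.L2 r) →
          B.RoundAt G ∧ ∀ r, B.R < r → B.lam r = ((n : ℝ) - 1) / (2 * B.rho r)))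
    {X : Exterior n} (hAF : X.IsAF) (hDEC : X.DEC)
    (hT : X.Trapped) {m : ℝ} (hm : X.IsEnergy m) {R₁ : ℝ}
    (hR : IsGreatest {r | ∃ x, X.F x = 0 ∧ len x = r} R₁)
    {Γ : Matrix (Fin n) (Fin n) ℝ → Prop} (hΓ : SphereGroup n Γ)
    (hperp : PerpAt R₁ X.g) (htan : InvUnder Γ R₁ (spherical X.g)) {κ : ℝ → ℝ}
    (hκ : ∀ x, R₁ ≤ len x → √(radial X.g x) * trS X.g X.K len x = κ (len x))
    (hO : Outermost X)
    (heq : (X.Amin.toReal / omega n) ^ (((n : ℝ) - 2) / (n - 1)) / 2 = m) :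
    IsSlice m X.g X.K {x | R₁ < len x} := by
  have hout := Vale.Agent.C92.outside_nonneg (by omega) X hR
  have hR0 : 0 < R₁ :=
    (Vale.Agent.P366.Bridge.toRaw X).R1_pos (by omega) (Vale.Agent.P366.Bridge.raw_R1 X hR)
  have hpos : ∀ x, R₁ ≤ len x → (mat X.g x).PosDef := fun x hx => X.pos x (hout x hx)
  have hgs : ∀ i j, Smooth (fun x => X.g x i j) := fun i j => (X.smooth i j).1
  have hgsy : ∀ x i j, X.g x i j = X.g x j i := fun x i j => (X.symm x i j).1
  have hl : Lapse (bgF R₁ X.g) X.g R₁ := lapse_bgF hR0 hgs hgsy hpos (hperp.nx hR0)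
  have hinv : InvUnder Γ R₁ (bgF R₁ X.g) := by
    refine inv_bgF hR0 hΓ.orth ?_
    rw [← spherical_eq]
    exact htan
  obtain ⟨B, rfl, hB, hL, hro⟩ := hEx hΓ hR0 hl.Gs (bgF_symm hgsy) hl.pos hl.unit hinv
  refine rigidW hn hEmb hl (hB.toFitsW (by omega)) hL hAF hDEC hT hm hR (κ := κ)
    (fun x hx => ?_) hO heq (fun h1 _ => hro fun r hr => (h1 r hr).1)
  rw [← radial_eq, ← hl.trS_len hx]
  exact hκ x hx

end Vale.Agent.T4
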