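import Vale.Agent.P366.T5.FinalR
import Vale.Agent.P366.T4.R3c92

/-! T5: the homogeneous families in the equality case. -/

open MeasureTheory Metric Filter Topology Set
open scoped ContDiff ENNReal Matrix

noncomputable section
namespace Vale.Agent.T4
open Vale.Agent.P366.Stmt Vale.Agent.P366.T2

variable {n : ℕ}

lemma hEx (hn : 3 ≤ n) {Γ : Matrix (Fin n) (Fin n) ℝ → Prop} (hΓ : SphereGroup n Γ)
    {G : Field n} {R : ℝ} (hR : 0 < R)
    (Gs : ∀ i j, Smooth (fun x => G x i j)) (symm : ∀ x i j, G x i j = G x j i)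
    (pos : ∀ x, R ≤ len x → (mat G x).PosDef)
    (unit : ∀ x, R ≤ len x → ∀ i, ∑ j, G x i j * x j = x i)
    (hG : InvUnder Γ R G) : ∃ B : Bg n, B.R = R ∧ B.Fits G ∧ B.LamOK G ∧
      ((∀ r, B.R < r → B.lam r ^ 2 = ((n : ℝ) - 1) * B.L2 r) →
        B.RoundAt G ∧ ∀ r, B.R < r → B.lam r = ((n : ℝ) - 1) / (2 * B.rho r)) := by
  obtain ⟨B, h1, h2, h3, h4⟩ := exists_bg' hn hΓ hR Gs symm pos unit hG
  exact ⟨B, h1, h2, h3, fun h => ⟨fun x hx => (h4 (len x) hx (h _ hx)).2 x rfl,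
    fun r hr => (h4 r hr (h r hr)).1⟩⟩

end Vale.Agent.T4
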