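import Vale.Agent.P366.T4.Groups

/-! The scalar curvature of the centred spheres. -/

noncomputable section
namespace Vale.Agent.T4
open Vale.Agent.P366.Stmt

variable {n : ℕ}

/-- The metric `dr² + h` where `h` is the metric that `g` induces on the centred spheres (for `g`
such that the spheres are `g`-orthogonal to `x`). -/
def unitLapse (g : Field n) : Field n := fun x i j => spherical g x i j + x i * x j / len x ^ 2

/-- The radial derivative. -/
def radDeriv (f : E n → ℝ) (x : E n) : ℝ := ∑ i, x i / len x * pd i f x

/-- The scalar curvature at `x`, in the metric induced by `g`, of the centred sphere through `x`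
(for `g` such that the spheres are `g`-orthogonal to `x`), by the Gauss equation in the metric
`dr² + h`, for which `∇² r` is the second fundamental form and `Δ r` the mean curvature of the
spheres: `R(h) = R + |∇² r|² + (Δ r)² + 2 ∂ᵣ Δ r`. -/
def sphereScal (g : Field n) (x : E n) : ℝ :=
  scal (unitLapse g) x + normSq (unitLapse g) (hess (unitLapse g) len) x +
    tr (unitLapse g) (hess (unitLapse g) len) x ^ 2 +
    2 * radDeriv (tr (unitLapse g) (hess (unitLapse g) len)) x

end Vale.Agent.T4
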