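import Vale.Agent.P366.T5.DefsW

/-! T5: the pointwise inequality for leaves which need not be homogeneous. -/

open MeasureTheory Metric Filter Topology Set
open scoped ContDiff ENNReal Matrix MatrixOrder

noncomputable section
namespace Vale.Agent.T4
open Vale.Agent.P366.Stmt Vale.Agent.P366.T2

variable {n : ℕ}

section Pointwise

variable {G g K : Field n} {B : Bg n} {kap : ℝ → ℝ}

/-- **The pointwise inequality.** -/
theorem pointwiseW (hA : StA n) (hB : StB n) (h : Lapse G g B.R) (hF : B.Fits0 G)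
    (hK : ∀ i j, Smooth (fun x => K x i j))
    (hKs : ∀ x, B.R ≤ len x → ∀ i j, K x i j = K x j i)
    (hk : ∀ x, B.R ≤ len x → √(rad g x) * trT G K x = kap (len x)) {x : E n}
    (hx : B.R < len x) (hkd : DifferentiableAt ℝ kap (len x))
    (hdec : covNorm g (mom g K) x ≤ mu g K x) (hlt : |kap (len x)| < B.H (len x)) :
    0 ≤ B.H (len x) * leafScal G x -
      dN (fun y => 1 / rad g y) x * (B.H (len x) ^ 2 - kap (len x) ^ 2) -
      1 / rad g x * (2 * B.H (len x) * deriv B.H (len x) - 2 * kap (len x) * deriv kap (len x)) -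
      B.H (len x) * (1 / rad g x * (B.H (len x) ^ 2 - kap (len x) ^ 2)) -
      1 / rad g x * (B.H (len x) ^ 2 - kap (len x) ^ 2) / B.H (len x) *
        ctr G (IIf G) (IIf G) x -
      2 * B.H (len x) * DS G (glf g) x - 2 * kap (len x) * DS G (bf g K) x := by
  have hp := h.ppos x hx.le
  have hx0 := h.ne_zero hx.le
  obtain ⟨b1, b2, b3, b4⟩ := hB G g K B.R h hK hKs x hx
  have a1 := hA G g B.R h x hx
  have hL0 : ∀ w : Fin n → E n → ℝ, S2 G (Lg G) w x = 0 := fun w =>
    h.S2_radial hx.le (hF.hL x hx)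
  rw [hL0] at a1 b3
  have hRh : leafScal G x = scal G x + ctr G (IIf G) (IIf G) x + B.H (len x) ^ 2 +
      2 * deriv B.H (len x) := by
    unfold leafScal
    rw [H1_eq0 hF hx, dN_H10 hF hx]
  rw [H1_eq0 hF hx, dN_H10 hF hx] at a1
  rw [H1_eq0 hF hx, dN_trT h hk hx hkd] at b3
  rw [trT_eq h hk hx.le] at b1
  have hdv : dN (fun y => 1 / rad g y) x = -(2 * (1 / rad g x) * dN (lf g) x) := by
    unfold dN
    have : ∀ i, nx i x * pd i (fun y => 1 / rad g y) x =
        -(2 * (1 / rad g x)) * (nx i x * pd i (lf g) x) := by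
      intro i
      rw [(h.HP_inv_rad hx.le i).pd]
      unfold glf; ring
    simp only [this, ← Finset.mul_sum]
    ring
  rw [hdv, h.DS_bf hK hx]
  have hc := h.S2_cross hx.le (glf g) (bf g K) hlt.le
  have hII := h.ctr_comb hx.le K (IIf G) (kap (len x) * √(1 / rad g x) / B.H (len x))
  -- `S2` of `bf`
  have e1 : S2 G (bf g K) (bf g K) x = 1 / rad g x * S2 G (row K) (row K) x := by
    unfold S2 bf
    rw [Finset.mul_sum]
    refine Finset.sum_congr rfl fun k _ => ?_
    rw [Finset.mul_sum]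
    refine Finset.sum_congr rfl fun l _ => ?_
    have := Real.mul_self_sqrt (show 0 ≤ 1 / rad g x by positivity)
    linear_combination (Sm G k l x * row K k x * row K l x) * this
  have e2 : S2 G (glf g) (bf g K) x = √(1 / rad g x) * S2 G (glf g) (row K) x := by
    unfold S2 bf
    rw [Finset.mul_sum]
    refine Finset.sum_congr rfl fun k _ => ?_
    rw [Finset.mul_sum]
    exact Finset.sum_congr rfl fun l _ => by ring
  rw [e1, e2] at hc
  set s := √(1 / rad g x) with hs
  set v := 1 / rad g x with hv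
  have hvp : 0 < v := by rw [hv]; positivity
  have hs2 : s * s = v := Real.mul_self_sqrt hvp.le
  have hsp : 0 < s := Real.sqrt_pos.2 hvp
  set H := B.H (len x) with hH
  set κ := kap (len x) with hκ
  have hHp : 0 < H := (abs_nonneg _).trans_lt hlt
  have hpv : ∀ t : ℝ, t / rad g x = t * v := fun t => by rw [hv]; ring
  rw [hpv] at b1 b2 b3 a1
  rw [hpv] at b2
  -- dominant energy condition
  have b4' := b4 (mom g K)
  have hdec2 : s * |∑ j, nx j x * mom g K j x| ≤ mu g K x := by
    calc s * |∑ j, nx j x * mom g K j x| ≤ s * (√(rad g x) * covNorm g (mom g K) x) :=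
          mul_le_mul_of_nonneg_left b4' hsp.le
      _ = covNorm g (mom g K) x := by rw [← mul_assoc, sqrt_inv_mul hp, one_mul]
      _ ≤ mu g K x := hdec
  have hmu : mu g K x = (scal g x + tr g K x ^ 2 - normSq g K x) / 2 := rfl
  have hDEC : 0 ≤ 2 * H * mu g K x - 2 * κ * (s * ∑ j, nx j x * mom g K j x) := by
    have h1 : κ * (s * ∑ j, nx j x * mom g K j x) ≤ |κ| * (s * |∑ j, nx j x * mom g K j x|) := by
      have := le_abs_self (κ * (s * ∑ j, nx j x * mom g K j x))
      rwa [abs_mul, abs_mul, abs_of_pos hsp] at this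
    have h2 : |κ| * (s * |∑ j, nx j x * mom g K j x|) ≤ H * mu g K x :=
      mul_le_mul hlt.le hdec2 (by positivity) hHp.le
    linarith
  rw [hmu, a1, b1, b2, b3] at hDEC
  -- the tensor part
  have hII' : 0 ≤ H * (ctr G K K x - 2 * (κ * s / H) * ctr G K (IIf G) x +
      (κ * s / H) ^ 2 * ctr G (IIf G) (IIf G) x) := mul_nonneg hHp.le hII
  have e3 : H * (ctr G K K x - 2 * (κ * s / H) * ctr G K (IIf G) x +
      (κ * s / H) ^ 2 * ctr G (IIf G) (IIf G) x) = H * ctr G K K x - 2 * κ * s * ctr G K (IIf G) x +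
        κ ^ 2 * v / H * ctr G (IIf G) (IIf G) x := by
    rw [← hs2]; field_simp
  rw [e3] at hII'
  have e4 : v * (H ^ 2 - κ ^ 2) / H * ctr G (IIf G) (IIf G) x =
      v * H * ctr G (IIf G) (IIf G) x - κ ^ 2 * v / H * ctr G (IIf G) (IIf G) x := by
    field_simp
  rw [e4]
  set RR := leafScal G x
  set II2 := ctr G (IIf G) (IIf G) x
  have hRR : RR = scal G x + II2 + H ^ 2 + 2 * deriv B.H (len x) := hRh
  rw [hRR]
  set W1 := κ ^ 2 * v / H * II2
  -- everything is now linear in the remaining quantities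
  have hmain : H * (scal G x + II2 + H ^ 2 + 2 * deriv B.H (len x)) -
      -(2 * v * dN (lf g) x) * (H ^ 2 - κ ^ 2) -
      v * (2 * H * deriv B.H (len x) - 2 * κ * deriv kap (len x)) -
      H * (v * (H ^ 2 - κ ^ 2)) - (v * H * II2 - W1) - 2 * H * DS G (glf g) x -
      2 * κ * (s * (DS G (row K) x - S2 G (glf g) (row K) x)) =
      (2 * H * ((scal G x + (1 - v) * (II2 + H ^ 2 + 2 * deriv B.H (len x)) +
        2 * v * dN (lf g) x * H - 2 * DS G (glf g) x - 2 * 0 - 2 * S2 G (glf g) (glf g) x +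
        (s * κ + rad K x * v) ^ 2 - ((rad K x * v) ^ 2 + 2 * v * S2 G (row K) (row K) x +
        ctr G K K x)) / 2) - 2 * κ * (s * (DS G (row K) x + 0 + S2 G (glf g) (row K) x -
        (s * deriv kap (len x) - s * κ * dN (lf g) x) + rad K x * v * H -
        ctr G K (IIf G) x))) +
      (2 * H * (S2 G (glf g) (glf g) x + v * S2 G (row K) (row K) x) +
        4 * κ * (s * S2 G (glf g) (row K) x)) +
      (H * ctr G K K x - 2 * κ * s * ctr G K (IIf G) x + W1) := by
    linear_combination (-(H * κ ^ 2) - 2 * κ * deriv kap (len x) +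
      2 * κ ^ 2 * dN (lf g) x) * hs2
  rw [hmain]
  linarith

end Pointwise

end Vale.Agent.T4
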