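import Vale.Agent.P366.T4.Trans92
import Vale.Agent.P366.T5.FinalR
import Vale.Agent.P366.T4.Emb68b

/-! T5: the equality case for data of cohomogeneity one, `x` orthogonal to the spheres. -/

open MeasureTheory Metric Filter Topology Set
open scoped ContDiff ENNReal Matrix

noncomputable section
namespace Vale.Agent.T4
open Vale.Agent.P366.Stmt Vale.Agent.P366.T2

variable {n : ℕ}

/-- The literal form of the family theorem that the equality case consumes. -/
theorem exists_bg_round (hn : 3 ≤ n) {Γ : Matrix (Fin n) (Fin n) ℝ → Prop}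
    (hΓ : SphereGroup n Γ) {G : Field n} {R : ℝ} (hR : 0 < R)
    (Gs : ∀ i j, Smooth (fun x => G x i j)) (symm : ∀ x i j, G x i j = G x j i)
    (pos : ∀ x, R ≤ len x → (mat G x).PosDef)
    (unit : ∀ x, R ≤ len x → ∀ i, ∑ j, G x i j * x j = x i)
    (hG : InvUnder Γ R G) : ∃ B : Bg n, B.R = R ∧ B.Fits G ∧ B.LamOK G ∧
      ((∀ r, B.R < r → B.lam r ^ 2 = ((n : ℝ) - 1) * B.L2 r) →
        B.RoundAt G ∧ ∀ r, B.R < r → B.lam r = ((n : ℝ) - 1) / (2 * B.rho r)) := by
  obtain ⟨B, hBR, hB, hL, hE⟩ := exists_bg' hn hΓ hR Gs symm pos unit hG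
  exact ⟨B, hBR, hB, hL, fun h => ⟨fun x hx i j => (hE _ hx (h _ hx)).2 x rfl i j,
    fun r hr => (hE r hr (h r hr)).1⟩⟩

/-- **Equality case for data invariant under a group transitive on the spheres.** -/
theorem rigid_trans (hn : 3 ≤ n)
    {X : Exterior n} (hAF : X.IsAF) (hDEC : X.DEC)
    (hT : X.Trapped) {m : ℝ} (hm : X.IsEnergy m) {R₁ : ℝ}
    (hR : IsGreatest {r | ∃ x, X.F x = 0 ∧ len x = r} R₁)
    {Γ : Matrix (Fin n) (Fin n) ℝ → Prop} (hΓ : TransGroup n Γ)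
    (hg : InvUnder Γ R₁ X.g) (hK : InvUnder Γ R₁ X.K) (hperp : PerpAt R₁ X.g)
    (hO : Outermost X)
    (heq : (X.Amin.toReal / omega n) ^ (((n : ℝ) - 2) / (n - 1)) / 2 = m) :
    IsSlice m X.g X.K {x | R₁ < len x} := by
  obtain ⟨hl, hinv⟩ := lapse_trans hn hΓ.orth hR hg hperp
  obtain ⟨κ, hκ⟩ := exists_kappa (hΓ.moves hn) hΓ.orth hl hinv hg hK
  have hgsy : ∀ x i j, X.g x i j = X.g x j i := fun x i j => (X.symm x i j).1
  obtain ⟨B, rfl, hB, hL, hE⟩ := exists_bg_trans hn hΓ hl.hR hl.Gs (bgF_symm hgsy) hl.pos hl.unit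
    hinv
  exact rigidW hn (stEmb (by omega)) hl (hB.toFitsW (by omega)) hL hAF hDEC hT hm hR (κ := κ)
    hκ hO heq (fun h1 _ => ⟨fun x hx i j => (hE _ hx (h1 _ hx).1).2 x rfl i j,
      fun r hr => (hE r hr (h1 r hr).1).1⟩)

/-- the centred spheres are orthogonal to `x` for `SO(n)`, `G₂`, `Spin(7)` and `Spin(9)` -/
theorem perp_spin9 (hn : 3 ≤ n) {R : ℝ} (hR : 0 < R) (O : Vale.Agent.S9.Oct n) {g : Field n}
    (hsm : ∀ i j, Smooth (fun x => g x i j)) (hs : ∀ x i j, g x i j = g x j i)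
    (hpos : ∀ x, R ≤ len x → (mat g x).PosDef)
    (hg : InvUnder (fun A => A.transpose * A = 1 ∧
        ∀ a, ∃ v : Fin 9 → ℝ, A * O.P a * A.transpose = ∑ b, v b • O.P b) R g) :
    PerpAt R g := by
  have hI : O.Invariant R g := fun A h1 h2 x y hx hy i j => hg A ⟨h1, h2⟩ x y hx hy i j
  have h0 : O.Invariant R (zeroF n) := fun A h1 h2 x y hx hy i j => by simp [zeroF]
  obtain ⟨D, rfl, -, hfit⟩ := Vale.Agent.S9.fits_of_invariant (by omega) O (g := g) (K := zeroF n) hR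
    (fun i j => ⟨hsm i j, contDiff_const⟩) (fun x i j => ⟨hs x i j, rfl⟩) hpos hI.inv h0.inv
  intro x hx i
  have hx0 := ne_zero_of_len D.hR hx
  have hl : len x ≠ 0 := len_ne hx0
  have h1 : ∀ i, ∑ j, g x i j * x j = D.p (len x) * x i := by
    intro i
    have e3 : ∀ j, g x i j * x j = D.O.tv (D.al (len x)) (D.p (len x)) (D.c (len x)) x i j * x j :=
      fun j => by rw [Vale.Agent.S9.g_tv hfit hx]
    simp only [e3, D.O.tv_x hx0]
  have h2 : radial g x = D.p (len x) := by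
    unfold radial
    have e : ∀ i, ∑ j, g x i j * x i * x j = D.p (len x) * x i ^ 2 := by
      intro i
      have e2 : ∀ j, g x i j * x i * x j = x i * (g x i j * x j) := fun j => by ring
      simp only [e2, ← Finset.mul_sum, h1 i]
      ring
    simp only [e, ← Finset.mul_sum, ← len_sq]
    field_simp
  rw [h1 i, h2]

end Vale.Agent.T4
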