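import Vale.Agent.P366.T5.E919
import Vale.Agent.P366.T4.StE919

/-! T5, block W1 (energy) in the literal form of the assembly. -/

open MeasureTheory Metric Filter Topology Set Asymptotics
open scoped ContDiff ENNReal

noncomputable section
namespace Vale.Agent.T4
open Vale.Agent.P366.Stmt Vale.Agent.P366.T2

variable {n : ℕ}

/-- **Block E** for a radial density. -/
theorem stEF (hn : 3 ≤ n) : StEF n := by
  intro X B G h hB hL hAF m hm κ hκ
  obtain ⟨q, hq, hAFq⟩ := hAF
  have hn3 : (3 : ℝ) ≤ n := by exact_mod_cast hn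
  have i0 : Fin n := ⟨0, by omega⟩
  have h1 : AF1 q X.g := ⟨fun i j => (hAFq i j i0 i0).1, fun i j k => (hAFq i j k i0).2.1⟩
  exact mass_limF hn h hB hq hAFq hm (hL q (by linarith) (AF1_of_lapse h h1)) hκ

end Vale.Agent.T4
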