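import Vale.Agent.P366.T4.Rigid
import Vale.Agent.P366.T5.Gram
import Vale.Agent.P366.T5.W3
import Vale.Agent.P366.T4.E919d

/-! T5, block R2c(ii): umbilic leaves are round. -/

open MeasureTheory Metric Filter Topology Set Asymptotics
open scoped ContDiff ENNReal

noncomputable section
namespace Vale.Agent.T4
open Vale.Agent.P366.Stmt Vale.Agent.P366.T2
open Vale.Agent.P366.T1.A919 (far far_iff far_of far_gt far_nhds O O_iff O_of_bigO O_const O_zero
  O_of_le O_inv_mat tail_bound)
open Vale.Agent.P366 (norm_smul_sph)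

variable {n : ℕ} {G g : Field n} {q : ℝ} {B : Bg n}

/-- equality in `H² / (n - 1) ≤ |II|²`: the leaf is umbilic -/
lemma umbilic (hn : 2 ≤ n) (h : Lapse G g B.R) (hF : B.Fits0 G) {x : E n} (hx : B.R < len x)
    (hU : ctr G (IIf G) (IIf G) x = B.H (len x) ^ 2 / ((n : ℝ) - 1)) (i j : Fin n) :
    IIf G x i j = B.H (len x) / ((n : ℝ) - 1) * (G x i j - nx i x * nx j x) := by
  have h2 : (2 : ℝ) ≤ n := by exact_mod_cast hn
  have h3 : (n : ℝ) - 1 ≠ 0 := by linarith
  have hx0 := h.ne_zero hx.le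
  have h0 : ctr G (IIf G) (IIf G) x - 2 * (B.H (len x) / ((n : ℝ) - 1)) * ctr G (IIf G) G x +
      (B.H (len x) / ((n : ℝ) - 1)) ^ 2 * ctr G G G x ≤ 0 := by
    rw [hU, h.ctr_II_G hx, h.ctr_G_G hx.le, H1_eq0 hF hx]
    refine le_of_eq ?_
    field_simp
    ring
  have h1 := h.ctr_comb_zero hx.le (fun i j => IIf_symm h hx i j) (fun i j => h.symm x hx.le i j)
    h0 i j
  have hrow : ∀ i, row G i x = nx i x := fun i => h.G_nx hx.le i
  have hrad : rad G x = 1 := by
    rw [rad_eq]
    simp only [hrow, sum_nx_mul hx0]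
  rw [row_IIf h hx, row_IIf h hx, rad_IIf h hx, hrow, hrow, hrad] at h1
  linarith

/-- derivative along a ray -/
lemma ray_G (h : Lapse G g B.R) (θ : sphere (0 : E n) 1) (i j : Fin n) {s : ℝ} (hs : 0 < s) :
    HasDerivAt (fun s : ℝ => G (s • (θ : E n)) i j)
      (dN (fun y => G y i j) (s • (θ : E n))) s := by
  have h1 : DifferentiableAt ℝ (fun y => G y i j) (s • (θ : E n)) :=
    (h.Gs i j).differentiable (by simp) _
  have h2 : HasDerivAt (fun s : ℝ => s • (θ : E n)) (θ : E n) s := by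
    have := (hasDerivAt_id s).smul_const (θ : E n)
    simpa using this
  have h3 := h1.hasFDerivAt.comp_hasDerivAt s h2
  rw [fderiv_nx le_rfl (((h.Gs i j).of_le (by simp)).contDiffOn) hs θ] at h3
  exact h3

/-- **Block R2c(ii).** Umbilic leaves are round. -/
theorem roundAt_of_umbilic (hn : 2 ≤ n) (h : Lapse G g B.R) (hF : B.Fits0 G) (hq : 0 < q)
    (D : Dec g q) (hU : ∀ x, B.R < len x →
      ctr G (IIf G) (IIf G) x = B.H (len x) ^ 2 / ((n : ℝ) - 1)) : B.RoundAt G := by
  have h2 : (2 : ℝ) ≤ n := by exact_mod_cast hn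
  have h3 : (n : ℝ) - 1 ≠ 0 := by linarith
  intro x hx i j
  have hx0 := h.ne_zero hx.le
  have hl : 0 < len x := h.hR.trans hx
  let θ : sphere (0 : E n) 1 := ⟨‖x‖⁻¹ • x, by
    rw [mem_sphere_zero_iff_norm, norm_smul, norm_inv, norm_norm,
      inv_mul_cancel₀ (norm_ne_zero_iff.2 hx0)]⟩
  have hθ : len x • (θ : E n) = x := by
    show ‖x‖ • (‖x‖⁻¹ • x) = x
    rw [smul_inv_smul₀ (norm_ne_zero_iff.2 hx0)]
  have hlen : ∀ s : ℝ, 0 ≤ s → len (s • (θ : E n)) = s := fun s hs => norm_smul_sph hs θ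
  have hnx : ∀ (k : Fin n) (s : ℝ), 0 < s → nx k (s • (θ : E n)) = (θ : E n) k := by
    intro k s hs
    unfold nx
    rw [hlen s hs.le]
    simp only [PiLp.smul_apply, smul_eq_mul]
    field_simp
  set δ : ℝ := if i = j then 1 else 0 with hδ
  set L : ℝ := δ - (θ : E n) i * (θ : E n) j with hL
  -- the conserved quantity
  have hder : ∀ s, len x ≤ s → HasDerivAt (fun s : ℝ => (s / B.rho s) ^ 2 *
      (G (s • (θ : E n)) i j - (θ : E n) i * (θ : E n) j) - L) 0 s := by
    intro s hs
    have hs0 : 0 < s := hl.trans_le hs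
    have hsR : B.R < s := hx.trans_le hs
    have hρ := B.rho_pos hsR.le
    have a1 := B.rho_hasDerivAt hsR.le
    have a2 := ((hasDerivAt_id s).div a1 hρ.ne').pow 2
    have a3 := (ray_G h θ i j hs0).sub_const ((θ : E n) i * (θ : E n) j)
    have a4 := (a2.mul a3).sub_const L
    refine a4.congr_deriv ?_
    have hxs : B.R < len (s • (θ : E n)) := by rw [hlen s hs0.le]; exact hsR
    have hu := umbilic hn h hF hxs (hU _ hxs) i j
    have hdN : dN (fun y => G y i j) (s • (θ : E n)) =
        2 * (B.H s / ((n : ℝ) - 1) - 1 / s) *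
          (G (s • (θ : E n)) i j - (θ : E n) i * (θ : E n) j) := by
      unfold IIf at hu
      rw [hlen s hs0.le, hnx i s hs0, hnx j s hs0] at hu
      have : dN (fun y => G y i j) (s • (θ : E n)) = 2 * (dN (fun y => G y i j) (s • (θ : E n)) / 2 +
          (G (s • (θ : E n)) i j - (θ : E n) i * (θ : E n) j) / s) -
          2 * ((G (s • (θ : E n)) i j - (θ : E n) i * (θ : E n) j) / s) := by ring
      rw [this, hu]
      ring
    rw [hdN]
    simp only [Pi.div_apply, Pi.pow_apply, id, one_mul, Nat.cast_ofNat, Nat.reduceSub, pow_one]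
    field_simp
    ring
  -- the limits
  have hG1 : Tendsto (fun s : ℝ => G (s • (θ : E n)) i j) atTop (𝓝 δ) := by
    have b2 := (((h.dec D).g0 i j).tendsto hq).comp (far_ray θ)
    have b3 := b2.add_const δ
    rw [zero_add] at b3
    refine b3.congr fun s => ?_
    simp [hδ]
  have hρ1 : Tendsto (fun s : ℝ => s / B.rho s) atTop (𝓝 1) := by
    have b1 := (h.det_lim hq D θ).sqrt
    rw [Real.sqrt_one] at b1
    have b2 : Tendsto (fun s : ℝ => (√(mat G (s • (θ : E n))).det) ^ (1 / ((n : ℝ) - 1)))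
        atTop (𝓝 1) := by
      have := b1.rpow_const (p := 1 / ((n : ℝ) - 1)) (Or.inl one_ne_zero)
      simpa using this
    have b3 := b2.inv₀ one_ne_zero
    rw [inv_one] at b3
    refine b3.congr' ?_
    filter_upwards [eventually_ge_atTop B.R, eventually_gt_atTop 0] with s hsR hs0
    have b4 := hF.hdet (s • (θ : E n)) (by rw [hlen s hs0.le]; exact hsR)
    rw [hlen s hs0.le] at b4
    unfold Bg.rho
    rw [← b4, Real.mul_rpow (by positivity) (Real.sqrt_nonneg _)]
    have b5 : (s ^ (n - 1)) ^ (1 / ((n : ℝ) - 1)) = s := by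
      have h6 : ((n - 1 : ℕ) : ℝ) = (n : ℝ) - 1 := by
        rw [Nat.cast_sub (by omega)]; push_cast; ring
      rw [← h6, one_div]
      exact Real.pow_rpow_inv_natCast hs0.le (by omega)
    rw [b5]
    have b6 : 0 < (√(mat G (s • (θ : E n))).det) ^ (1 / ((n : ℝ) - 1)) := by
      refine Real.rpow_pos_of_pos (Real.sqrt_pos.2 ?_) _
      exact (h.pos _ (by rw [hlen s hs0.le]; exact hsR)).det_pos
    field_simp
  have hlim : Tendsto (fun s : ℝ => (s / B.rho s) ^ 2 *
      (G (s • (θ : E n)) i j - (θ : E n) i * (θ : E n) j) - L) atTop (𝓝 0) := by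
    have b1 := ((hρ1.pow 2).mul (hG1.sub_const ((θ : E n) i * (θ : E n) j))).sub_const L
    rw [one_pow, one_mul, hL, sub_self] at b1
    exact b1
  have key := tail_bound (φ := fun s : ℝ => (s / B.rho s) ^ 2 *
      (G (s • (θ : E n)) i j - (θ : E n) i * (θ : E n) j) - L) (φ' := fun _ => 0)
    (ρ := len x) (B := 0) (q := 1) hl one_pos hder (fun s _ => by simp) hlim
  simp only [hθ, zero_div, zero_mul] at key
  have key2 := abs_nonpos_iff.1 key
  have hρ := B.rho_pos hx.le
  have hi : (θ : E n) i = nx i x := by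
    have := hnx i (len x) hl
    rw [hθ] at this
    exact this.symm
  have hj : (θ : E n) j = nx j x := by
    have := hnx j (len x) hl
    rw [hθ] at this
    exact this.symm
  rw [hL, hi, hj] at key2
  have e : (len x / B.rho (len x)) ^ 2 * (B.rho (len x) / len x) ^ 2 = 1 := by
    rw [← mul_pow]
    field_simp
  have e2 : (B.rho (len x) / len x) ^ 2 * ((len x / B.rho (len x)) ^ 2 *
      (G x i j - nx i x * nx j x)) = G x i j - nx i x * nx j x := by
    rw [← mul_assoc, mul_comm ((B.rho (len x) / len x) ^ 2), e, one_mul]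
  have e3 : (len x / B.rho (len x)) ^ 2 * (G x i j - nx i x * nx j x) =
      δ - nx i x * nx j x := by linarith
  rw [e3] at e2
  linarith

end Vale.Agent.T4
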