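import Vale.Agent.P366.T5.CohomF92
import Vale.Agent.P366.T5.FinalS
import Vale.Agent.P366.Bdl.B1

/-! T5: an arbitrary lapse over homogeneous spheres, for all the transitive groups. -/

open MeasureTheory Metric Filter Topology Set
open scoped ContDiff ENNReal Matrix

noncomputable section
namespace Vale.Agent.T4
open Vale.Agent.P366.Stmt Vale.Agent.P366.T2

variable {n : ℕ}

/-- **The Penrose inequality and its equality case for data with an arbitrary lapse over spheres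
that are homogeneous under a linear group.** -/
theorem lapseT (hn : 3 ≤ n) {X : Exterior n} (hAF : X.IsAF) (hDEC : X.DEC)
    (hT : X.Trapped) {m : ℝ} (hm : X.IsEnergy m) {R₁ : ℝ}
    (hR : IsGreatest {r | ∃ x, X.F x = 0 ∧ len x = r} R₁)
    {Γ : Matrix (Fin n) (Fin n) ℝ → Prop} (hΓ : TransGroup n Γ)
    (hperp : ∀ x, R₁ ≤ len x → ∀ i, ∑ j, X.g x i j * x j = radial X.g x * x i)
    (htan : InvUnder Γ R₁ (spherical X.g)) {κ : ℝ → ℝ}
    (hκ : ∀ x, R₁ ≤ len x → √(radial X.g x) * trS X.g X.K len x = κ (len x)) :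
    X.Amin ≠ ⊤ ∧ 0 < m ∧
      (X.Amin.toReal / omega n) ^ (((n : ℝ) - 2) / (n - 1)) / 2 ≤ m ∧
      (Outermost X → (X.Amin.toReal / omega n) ^ (((n : ℝ) - 2) / (n - 1)) / 2 = m →
        IsSlice m X.g X.K {x | R₁ < len x}) := by
  have hout := Vale.Agent.C92.outside_nonneg (by omega) X hR
  have hR0 : 0 < R₁ :=
    (Vale.Agent.P366.Bridge.toRaw X).R1_pos (by omega) (Vale.Agent.P366.Bridge.raw_R1 X hR)
  have hpos : ∀ x, R₁ ≤ len x → (mat X.g x).PosDef := fun x hx => X.pos x (hout x hx)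
  have hgs : ∀ i j, Smooth (fun x => X.g x i j) := fun i j => (X.smooth i j).1
  have hgsy : ∀ x i j, X.g x i j = X.g x j i := fun x i j => (X.symm x i j).1
  have hp : PerpAt R₁ X.g := hperp
  have hl : Lapse (bgF R₁ X.g) X.g R₁ := lapse_bgF hR0 hgs hgsy hpos (hp.nx hR0)
  have hinv : InvUnder Γ R₁ (bgF R₁ X.g) := by
    refine inv_bgF hR0 hΓ.orth ?_
    rw [← spherical_eq]
    exact htan
  obtain ⟨B, rfl, hB, hL, hE⟩ := exists_bg_trans hn hΓ hl.hR hl.Gs (bgF_symm hgsy) hl.pos hl.unit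
    hinv
  have hκ' : ∀ x, B.R ≤ len x → √(rad X.g x) * trT (bgF B.R X.g) X.K x = κ (len x) := by
    intro x hx
    rw [← radial_eq, ← hl.trS_len hx]
    exact hκ x hx
  obtain ⟨h1, h2, h3⟩ := penrose_bg_energy hn (stA n) (stE hn) hl hB hL hAF hDEC hT hm hR hκ'
  refine ⟨h1, h2, h3, fun hO heq => ?_⟩
  exact rigidW hn (stEmb (by omega)) hl (hB.toFitsW (by omega)) hL hAF hDEC hT hm hR (κ := κ)
    hκ' hO heq (fun h1 _ => ⟨fun x hx i j => (hE _ hx (h1 _ hx).1).2 x rfl i j,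
      fun r hr => (hE r hr (h1 r hr).1).1⟩)

/-- **All the classes together.** -/
theorem union (hn : 3 ≤ n) (D : Exterior n) (hAF : D.IsAF) (hDEC : D.DEC)
    (hT : D.Trapped) (m : ℝ) (P : Fin n → ℝ) (hm : D.IsEnergy m) (hP : D.IsMomentum P)
    (R₁ : ℝ) (hR₁ : IsGreatest {r | ∃ x, D.F x = 0 ∧ len x = r} R₁) :
    ((∃ Γ, TransGroup n Γ ∧ InvUnder Γ R₁ D.g ∧ InvUnder Γ R₁ D.K) ∨
      ((∀ x, R₁ ≤ len x → ∀ i, ∑ j, D.g x i j * x j = radial D.g x * x i) ∧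
        (∃ κ : ℝ → ℝ, ∀ x, R₁ ≤ len x → √(radial D.g x) * trS D.g D.K len x = κ (len x)) ∧
        ((∃ Γ, TransGroup n Γ ∧ InvUnder Γ R₁ (spherical D.g)) ∨
          ∃ ρ : ℝ → ℝ, (∀ r, R₁ ≤ r → 0 < ρ r) ∧
            (∀ x, R₁ ≤ len x →
              (mat (unitLapse D.g) x).det = (ρ (len x) / len x) ^ (2 * (n - 1))) ∧
            ∀ r, R₁ < r → sph (vol n) r (sphereScal D.g) / omega n ≤
              ((n : ℝ) - 1) * ((n : ℝ) - 2) / ρ r ^ 2)) →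
      D.Amin ≠ ⊤ ∧ 0 < m ∧ (D.Amin.toReal / omega n) ^ (((n : ℝ) - 2) / (n - 1)) / 2 ≤ m ∧
        (Outermost D → (D.Amin.toReal / omega n) ^ (((n : ℝ) - 2) / (n - 1)) / 2 = m →
          IsSlice m D.g D.K {x | R₁ < len x})) ∧
    ((∃ Γ, TransGroup n Γ ∧ InvUnder Γ R₁ D.g ∧ InvUnder Γ R₁ D.K) → P = 0) ∧
    ((∃ c k : ℝ → ℝ,
        (∀ x, R₁ ≤ len x → ∀ i j, D.g x i j = if i = j then c (len x) else 0) ∧
        ∀ x, R₁ ≤ len x → trS D.g D.K len x = k (len x)) →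
      D.Amin ≠ ⊤ ∧ √(∑ i, P i ^ 2) < m ∧
      (D.Amin.toReal / omega n) ^ (((n : ℝ) - 2) / (n - 1)) / 2 ≤
        √(m ^ 2 - ∑ i, P i ^ 2)) := by
  refine ⟨?_, ?_, ?_⟩
  · rintro (⟨Γ, hΓ, hg, hK⟩ | ⟨hperp, ⟨κ, hκ⟩, ⟨Γ, hΓ, htan⟩ | ⟨ρ, hρ, hdens, hcurv⟩⟩)
    · obtain ⟨h1, h2, h3, h4, -⟩ := cohom hn (stEqU hn) (stEqQ hn) hAF hDEC hT hm hP hR₁ hΓ hg hK
      have hm0 : 0 < m := lt_of_le_of_lt (Real.sqrt_nonneg _) h3
      refine ⟨h2, hm0, ?_, fun hO heq =>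
        rigid_cohom hn (stEqU hn) (stEqQ hn) hAF hDEC hT hm hP hR₁ hΓ hg hK hO heq⟩
      rw [h1] at h4
      simpa [Real.sqrt_sq hm0.le] using h4
    · exact lapseT hn hAF hDEC hT hm hR₁ hΓ hperp htan hκ
    · obtain ⟨h1, h2, h3⟩ := penrose_density hn hAF hDEC hT hm hR₁ hperp hρ hdens hcurv hκ
      exact ⟨h1, h2, h3, fun hO heq => rigid_density hn (stEmb (by omega)) hAF hDEC hT hm hR₁
        hperp hρ hdens hcurv hκ hO heq⟩
  · rintro ⟨Γ, hΓ, hg, hK⟩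
    exact (cohom hn (stEqU hn) (stEqQ hn) hAF hDEC hT hm hP hR₁ hΓ hg hK).1
  · rintro ⟨c, k, hc, hk⟩
    exact Vale.Agent.P366.penrose_stmt2 hn D hAF hDEC hT hm hP hR₁ hc hk

end Vale.Agent.T4
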