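import Vale.Agent.P366.T5.DefsX

/-! T5, class X, block X1: the pointwise identity. -/

open MeasureTheory Metric Filter Topology Set
open scoped ContDiff ENNReal Matrix MatrixOrder

noncomputable section
namespace Vale.Agent.T4
open Vale.Agent.P366.Stmt Vale.Agent.P366.T2

variable {n : ℕ}

/-- the field `κ K(ν, ·) = tr_S K · K(x / |x|, ·)` -/
def prf (G K : Field n) (l : Fin n) (y : E n) : ℝ := trT G K y * row K l y

/-- the expression in the pointwise inequality -/
def ptX (B : Bg n) (G g K : Field n) (x : E n) : ℝ :=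
  B.H (len x) * leafScal G x - dN (fun y => 1 / rad g y) x * B.H (len x) ^ 2 -
      1 / rad g x * (2 * B.H (len x) * deriv B.H (len x)) + dN (fun y => trT G K y ^ 2) x -
      B.H (len x) * (1 / rad g x * B.H (len x) ^ 2 - trT G K x ^ 2) -
      (1 / rad g x * B.H (len x) ^ 2 - trT G K x ^ 2) / B.H (len x) *
        ctr G (IIf G) (IIf G) x -
      2 * B.H (len x) * DS G (glf g) x - 2 * DS G (prf G K) x + 2 * tors G g K x

namespace Lapse

variable {G g : Field n} {R : ℝ} (h : Lapse G g R)
include h

lemma HP_sqrt {x : E n} (hx : R ≤ len x) (k : Fin n) :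
    HP k (fun y => √(rad g y)) (√(rad g x) * glf g k x) x := by
  have hp := h.ppos x hx
  have hx0 := h.ne_zero hx
  have hs : √(rad g x) ≠ 0 := (Real.sqrt_pos.2 hp).ne'
  have hd : DifferentiableAt ℝ (fun y => √(rad g y)) x :=
    (((contDiffAt_rad h.gs hx0).sqrt hp.ne').differentiableAt (by simp))
  have h1 : HP k (fun y => √(rad g y)) (pd k (fun y => √(rad g y)) x) x := HP.of_diff hd
  have h2 := h1.mul (h.HP_sqrt_inv hx k)
  have hev : (fun y => √(rad g y) * √(1 / rad g y)) =ᶠ[𝓝 x] fun _ => (1 : ℝ) := by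
    filter_upwards [(contDiffAt_rad h.gs hx0).continuousAt.eventually (lt_mem_nhds hp)] with y hy
    rw [mul_comm]; exact sqrt_inv_mul hy
  have h3 : HP k (fun _ : E n => (1 : ℝ)) _ x := h2.congr hev.symm
  have h4 := h3.pd
  rw [(HP.const k 1 x).pd] at h4
  have h5 : pd k (fun y => √(rad g y)) x = √(rad g x) * glf g k x := by
    have e := sqrt_inv_mul hp
    have h6 : √(1 / rad g x) * (pd k (fun y => √(rad g y)) x - √(rad g x) * glf g k x) = 0 := by
      linarith
    rcases mul_eq_zero.1 h6 with h7 | h7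
    · rw [h7, zero_mul] at e
      norm_num at e
    · linarith
  rw [h5] at h1
  exact h1

lemma HP_kpf {K : Field n} (hK : ∀ i j, Smooth (fun x => K x i j)) {x : E n} (hx : R < len x)
    (k : Fin n) : HP k (kpf G g K) (√(rad g x) * glf g k x * trT G K x +
      √(rad g x) * pd k (trT G K) x) x :=
  (h.HP_sqrt hx.le k).mul (HP.of_diff ((h.contDiffAt_trT hK hx).differentiableAt (by simp)))

lemma tors_eq {K : Field n} (hK : ∀ i j, Smooth (fun x => K x i j)) {x : E n} (hx : R < len x) :
    tors G g K x = S2 G (fun k y => pd k (trT G K) y) (row K) x +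
      trT G K x * S2 G (glf g) (row K) x := by
  have e := sqrt_inv_mul (h.ppos x hx.le)
  unfold tors S2
  rw [Finset.mul_sum, ← Finset.sum_add_distrib]
  refine Finset.sum_congr rfl fun k _ => ?_
  rw [Finset.mul_sum, ← Finset.sum_add_distrib]
  refine Finset.sum_congr rfl fun l _ => ?_
  have h1 := (h.HP_kpf hK hx k).pd
  simp only [h1]
  unfold bf
  linear_combination (Sm G k l x * row K l x * (glf g k x * trT G K x + pd k (trT G K) x)) * e

lemma DS_prf {K : Field n} (hK : ∀ i j, Smooth (fun x => K x i j)) {x : E n} (hx : R < len x) :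
    DS G (prf G K) x = trT G K x * DS G (row K) x +
      S2 G (fun k y => pd k (trT G K) y) (row K) x := by
  have hx0 := h.ne_zero hx.le
  have hS : ∀ k l, HP k (Sm G k l) (pd k (Sm G k l) x) x := fun k l =>
    HP.of_diff ((h.contDiffAt_Sm hx k l).differentiableAt (by simp))
  have hr : ∀ k l, HP k (row K l) (pd k (row K l) x) x := fun k l =>
    HP.of_diff ((contDiffAt_row hK l hx0).differentiableAt (by simp))
  have ht : ∀ k, HP k (trT G K) (pd k (trT G K) x) x := fun k =>
    HP.of_diff ((h.contDiffAt_trT hK hx).differentiableAt (by simp))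
  have h1 : ∀ k, pd k (fun y => ∑ l, Sm G k l y * prf G K l y) x =
      ∑ l, (pd k (Sm G k l) x * (trT G K x * row K l x) +
        Sm G k l x * (pd k (trT G K) x * row K l x + trT G K x * pd k (row K l) x)) := fun k =>
    (HP.sum Finset.univ fun l _ => (hS k l).mul ((ht k).mul (hr k l))).pd
  have h2 : ∀ k, pd k (fun y => ∑ l, Sm G k l y * row K l y) x =
      ∑ l, (pd k (Sm G k l) x * row K l x + Sm G k l x * pd k (row K l) x) := fun k =>
    (HP.sum Finset.univ fun l _ => (hS k l).mul (hr k l)).pd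
  unfold DS S2
  simp only [h1, h2, Finset.mul_sum, ← Finset.sum_add_distrib]
  exact Finset.sum_congr rfl fun k _ => Finset.sum_congr rfl fun l _ => by ring

lemma dN_sq {K : Field n} (hK : ∀ i j, Smooth (fun x => K x i j)) {x : E n} (hx : R < len x) :
    dN (fun y => trT G K y ^ 2) x = 2 * trT G K x * dN (trT G K) x := by
  have ht : ∀ k, HP k (trT G K) (pd k (trT G K) x) x := fun k =>
    HP.of_diff ((h.contDiffAt_trT hK hx).differentiableAt (by simp))
  have h1 : ∀ k, pd k (fun y => trT G K y ^ 2) x =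
      pd k (trT G K) x * trT G K x + trT G K x * pd k (trT G K) x := fun k =>
    (((ht k).mul (ht k)).congr (g := fun y => trT G K y ^ 2)
      (Eventually.of_forall fun y => by simp only [sq])).pd
  unfold dN
  simp only [h1, Finset.mul_sum]
  exact Finset.sum_congr rfl fun k _ => by ring

end Lapse

section

variable {G g K : Field n} {B : Bg n}

/-- **The pointwise identity.** -/
theorem pointwiseX_id (hA : StA n) (hB : StB n) (h : Lapse G g B.R) (hF : B.Fits0 G)
    (hK : ∀ i j, Smooth (fun x => K x i j))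
    (hKs : ∀ x, B.R ≤ len x → ∀ i j, K x i j = K x j i) {x : E n}
    (hx : B.R < len x) (hHp : 0 < B.H (len x)) :
    ptX B G g K x =
      (2 * B.H (len x) * mu g K x -
        2 * kpf G g K x * (√(1 / rad g x) * ∑ j, nx j x * mom g K j x)) +
      (2 * B.H (len x) * (S2 G (glf g) (glf g) x + S2 G (bf g K) (bf g K) x) +
        4 * kpf G g K x * S2 G (glf g) (bf g K) x) +
      B.H (len x) * (ctr G K K x - 2 * (trT G K x / B.H (len x)) * ctr G K (IIf G) x +
        (trT G K x / B.H (len x)) ^ 2 * ctr G (IIf G) (IIf G) x) := by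
  have hp := h.ppos x hx.le
  have hx0 := h.ne_zero hx.le
  obtain ⟨b1, b2, b3, b4⟩ := hB G g K B.R h hK hKs x hx
  have a1 := hA G g B.R h x hx
  have hL0 : ∀ w : Fin n → E n → ℝ, S2 G (Lg G) w x = 0 := fun w =>
    h.S2_radial hx.le (hF.hL x hx)
  rw [hL0] at a1 b3
  have hRh : leafScal G x = scal G x + ctr G (IIf G) (IIf G) x + B.H (len x) ^ 2 +
      2 * deriv B.H (len x) := by
    unfold leafScal
    rw [H1_eq0 hF hx, dN_H10 hF hx]
  rw [H1_eq0 hF hx, dN_H10 hF hx] at a1
  rw [H1_eq0 hF hx] at b3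
  have hdv : dN (fun y => 1 / rad g y) x = -(2 * (1 / rad g x) * dN (lf g) x) := by
    unfold dN
    have : ∀ i, nx i x * pd i (fun y => 1 / rad g y) x =
        -(2 * (1 / rad g x)) * (nx i x * pd i (lf g) x) := by
      intro i
      rw [(h.HP_inv_rad hx.le i).pd]
      unfold glf; ring
    simp only [this, ← Finset.mul_sum]
    ring
  unfold ptX
  rw [hdv, h.DS_prf hK hx, h.tors_eq hK hx, h.dN_sq hK hx]
  -- `S2` of `bf`
  have e1 : S2 G (bf g K) (bf g K) x = 1 / rad g x * S2 G (row K) (row K) x := by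
    unfold S2 bf
    rw [Finset.mul_sum]
    refine Finset.sum_congr rfl fun k _ => ?_
    rw [Finset.mul_sum]
    refine Finset.sum_congr rfl fun l _ => ?_
    have := Real.mul_self_sqrt (show 0 ≤ 1 / rad g x by positivity)
    linear_combination (Sm G k l x * row K k x * row K l x) * this
  have e2 : S2 G (glf g) (bf g K) x = √(1 / rad g x) * S2 G (glf g) (row K) x := by
    unfold S2 bf
    rw [Finset.mul_sum]
    refine Finset.sum_congr rfl fun k _ => ?_
    rw [Finset.mul_sum]
    exact Finset.sum_congr rfl fun l _ => by ring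
  have e5 : kpf G g K x * √(1 / rad g x) = trT G K x := by
    unfold kpf
    have := sqrt_inv_mul hp
    linear_combination (trT G K x) * this
  have e6 : 2 * kpf G g K x * (√(1 / rad g x) * ∑ j, nx j x * mom g K j x) =
      2 * trT G K x * ∑ j, nx j x * mom g K j x := by
    rw [← e5]; ring
  have e7 : 4 * kpf G g K x * (√(1 / rad g x) * S2 G (glf g) (row K) x) =
      4 * trT G K x * S2 G (glf g) (row K) x := by
    rw [← e5]; ring
  rw [e1, e2, e6, e7]
  set v := 1 / rad g x with hv
  set H := B.H (len x) with hH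
  set P := trT G K x with hP
  have hpv : ∀ t : ℝ, t / rad g x = t * v := fun t => by rw [hv]; ring
  rw [hpv] at b1 b2 b3 a1
  rw [hpv] at b2
  have hmu : mu g K x = (scal g x + tr g K x ^ 2 - normSq g K x) / 2 := rfl
  rw [hmu, a1, b1, b2, b3]
  set II2 := ctr G (IIf G) (IIf G) x
  have e3 : H * (ctr G K K x - 2 * (P / H) * ctr G K (IIf G) x + (P / H) ^ 2 * II2) =
      H * ctr G K K x - 2 * P * ctr G K (IIf G) x + P ^ 2 / H * II2 := by
    field_simp
  rw [e3]
  have e4 : (v * H ^ 2 - P ^ 2) / H * II2 = v * H * II2 - P ^ 2 / H * II2 := by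
    field_simp
  rw [e4]
  rw [hRh]
  ring

end

end Vale.Agent.T4
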