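import Vale.Agent.P366.T5.X1a355

/-! T5, class X, block X1: the averaged inequality. -/

open MeasureTheory Metric Filter Topology Set
open scoped ContDiff ENNReal Matrix

noncomputable section
namespace Vale.Agent.T4
open Vale.Agent.P366.Stmt Vale.Agent.P366.T2
open Vale.Agent.P366 (sphI sphM av flux dvg norm_smul_sph integrable_sph sphI_hasDerivAt
  flux_hasDerivAt isOpen_outside sphI_congr sphI_continuousOn)

variable {n : ℕ}

section

variable {G g K : Field n} {B : Bg n}

/-- the integrand of the averaged inequality on the sphere of radius `r` -/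
def Fx (B : Bg n) (G g K : Field n) (r : ℝ) (x : E n) : ℝ :=
  B.H r * leafScal G x -
    (0 - (-(B.H r ^ 2)) * dN (fun y => 1 / rad g y) x -
      (-(2 * B.H r * deriv B.H r + B.H r ^ 3 + B.H r * B.II2 r)) * (1 / rad g x) -
      (-(2 * B.H r)) * DS G (glf g) x - (-2) * DS G (prf G K) x) +
    (0 - (-1) * dN (fun y => trT G K y ^ 2) x - (-(B.H r + B.II2 r / B.H r)) * trT G K x ^ 2 -
      (-2) * tors G g K x - 0 * 0)

lemma Fx_eq {r : ℝ} (hH : 0 < B.H r) {x : E n} (hx : len x = r) :
    Fx B G g K r x = ptX B G g K x + (1 / rad g x * B.H (len x) ^ 2 - trT G K x ^ 2) /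
      B.H (len x) * (ctr G (IIf G) (IIf G) x - B.II2 (len x)) := by
  unfold Fx ptX
  rw [hx]
  field_simp
  ring

/-- `H² / p - P²` is positive on an untrapped sphere -/
lemma w_pos (h : Lapse G g B.R) {x : E n} (hx : B.R ≤ len x)
    (hlt : |kpf G g K x| < B.H (len x)) :
    0 < 1 / rad g x * B.H (len x) ^ 2 - trT G K x ^ 2 := by
  have hp := h.ppos x hx
  have h1 : kpf G g K x ^ 2 < B.H (len x) ^ 2 := by
    rw [← sq_abs (kpf G g K x)]
    exact pow_lt_pow_left₀ hlt (abs_nonneg _) two_ne_zero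
  have h2 : kpf G g K x ^ 2 = rad g x * trT G K x ^ 2 := by
    unfold kpf
    rw [mul_pow, Real.sq_sqrt hp.le]
  rw [h2] at h1
  have h3 : 1 / rad g x * B.H (len x) ^ 2 - trT G K x ^ 2 =
      1 / rad g x * (B.H (len x) ^ 2 - rad g x * trT G K x ^ 2) := by
    field_simp
  rw [h3]
  exact mul_pos (by positivity) (by linarith)

lemma ptX_nonneg (hA : StA n) (hB : StB n) (h : Lapse G g B.R) (hF : B.Fits0 G)
    (hK : ∀ i j, Smooth (fun x => K x i j))
    (hKs : ∀ x, B.R ≤ len x → ∀ i j, K x i j = K x j i) {x : E n}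
    (hx : B.R < len x) (hdec : covNorm g (mom g K) x ≤ mu g K x)
    (hlt : |kpf G g K x| < B.H (len x)) : 0 ≤ ptX B G g K x := by
  have hp := h.ppos x hx.le
  have hHp : 0 < B.H (len x) := (abs_nonneg _).trans_lt hlt
  rw [pointwiseX_id hA hB h hF hK hKs hx hHp]
  obtain ⟨-, -, -, b4⟩ := hB G g K B.R h hK hKs x hx
  have hc := h.S2_cross hx.le (glf g) (bf g K) hlt.le
  have hII := h.ctr_comb hx.le K (IIf G) (trT G K x / B.H (len x))
  have hsp : 0 < √(1 / rad g x) := Real.sqrt_pos.2 (by positivity)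
  have hdec2 : √(1 / rad g x) * |∑ j, nx j x * mom g K j x| ≤ mu g K x := by
    calc √(1 / rad g x) * |∑ j, nx j x * mom g K j x| ≤
          √(1 / rad g x) * (√(rad g x) * covNorm g (mom g K) x) :=
          mul_le_mul_of_nonneg_left (b4 (mom g K)) hsp.le
      _ = covNorm g (mom g K) x := by rw [← mul_assoc, sqrt_inv_mul hp, one_mul]
      _ ≤ mu g K x := hdec
  have hDEC : 0 ≤ 2 * B.H (len x) * mu g K x -
      2 * kpf G g K x * (√(1 / rad g x) * ∑ j, nx j x * mom g K j x) := by
    have h1 : kpf G g K x * (√(1 / rad g x) * ∑ j, nx j x * mom g K j x) ≤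
        |kpf G g K x| * (√(1 / rad g x) * |∑ j, nx j x * mom g K j x|) := by
      have := le_abs_self (kpf G g K x * (√(1 / rad g x) * ∑ j, nx j x * mom g K j x))
      rwa [abs_mul, abs_mul, abs_of_pos hsp] at this
    have h2 : |kpf G g K x| * (√(1 / rad g x) * |∑ j, nx j x * mom g K j x|) ≤
        B.H (len x) * mu g K x := mul_le_mul hlt.le hdec2 (by positivity) hHp.le
    linarith
  have h3 := mul_nonneg hHp.le hII
  linarith

lemma contOn_trT (h : Lapse G g B.R) (hK : ∀ i j, Smooth (fun x => K x i j)) :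
    ContDiffOn ℝ 1 (fun y => trT G K y ^ 2) {x : E n | B.R < ‖x‖} := fun x hx =>
  (((h.contDiffAt_trT hK (x := x) hx).pow 2).of_le (by simp)).contDiffWithinAt

lemma contOn_tors (h : Lapse G g B.R) (hK : ∀ i j, Smooth (fun x => K x i j)) :
    ContinuousOn (tors G g K) {x : E n | B.R < ‖x‖} := by
  intro x hx
  have hx' : B.R < len x := hx
  refine ContinuousAt.continuousWithinAt ?_
  have h1 : ContDiffAt ℝ ∞ (kpf G g K) x := kfun_contDiffAt h hK hx'
  show ContinuousAt (fun x => ∑ k, ∑ l, Sm G k l x * pd k (kpf G g K) x * bf g K l x) x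
  exact (ContDiffAt.sum fun k _ => ContDiffAt.sum fun l _ =>
    ((h.contDiffAt_Sm hx' k l).mul (contDiffAt_pd h1 k)).mul
      (h.contDiffAt_bf hK hx'.le l)).continuousAt

lemma contDiffAt_prf (h : Lapse G g B.R) (hK : ∀ i j, Smooth (fun x => K x i j)) (l : Fin n)
    {x : E n} (hx : B.R < len x) : ContDiffAt ℝ ∞ (prf G K l) x :=
  (h.contDiffAt_trT hK hx).mul (contDiffAt_row hK l (h.ne_zero hx.le))

/-- the sphere integral of the integrand -/
lemma sphI_Fx [Nontrivial (E n)] (h : Lapse G g B.R) (hK : ∀ i j, Smooth (fun x => K x i j))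
    {r : ℝ} (hr : B.R < r) : ContinuousOn (Fx B G g K r) {x : E n | B.R < ‖x‖} ∧
    sphI (Fx B G g K r) r = Vale.Agent.P366.omega n *
      (B.H r * av (leafScal G) r + 2 * av (tors G g K) r - (Yav' B G g K r +
        B.H r * Yav B G g K r + B.II2 r / B.H r * (Yav B G g K r) +
        (B.H r * B.II2 r - B.II2 r / B.H r * B.H r ^ 2) * Vav g r)) := by
  have hω : 0 < Vale.Agent.P366.omega n := Vale.Agent.P366.omega_pos'
  have hZ1 : ∀ l x, B.R < len x → ContDiffAt ℝ ∞ (glf g l) x := fun l x hx =>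
    h.contDiffAt_glf hx.le l
  have hZ2 : ∀ l x, B.R < len x → ContDiffAt ℝ ∞ (prf G K l) x := fun l x hx =>
    contDiffAt_prf h hK l hx
  have c1' : ContinuousOn (dN fun y => 1 / rad g y) {x : E n | B.R < ‖x‖} :=
    contOn_dN h.hR.le h.contDiffOn_v
  have c2' : ContinuousOn (fun y : E n => 1 / rad g y) {x : E n | B.R < ‖x‖} :=
    h.contDiffOn_v.continuousOn
  have c3' := h.contOn_DS hZ1
  have c4' := h.contOn_DS hZ2
  have c5' : ContinuousOn (dN fun y => trT G K y ^ 2) {x : E n | B.R < ‖x‖} :=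
    contOn_dN h.hR.le (contOn_trT h hK)
  have c6' : ContinuousOn (fun y => trT G K y ^ 2) {x : E n | B.R < ‖x‖} :=
    (contOn_trT h hK).continuousOn
  have c7' := contOn_tors h hK
  have c8' : ContinuousOn (fun _ : E n => (0 : ℝ)) {x : E n | B.R < ‖x‖} := continuousOn_const
  have hcomb : ContinuousOn (fun x => 0 - (-(B.H r ^ 2)) * dN (fun y => 1 / rad g y) x -
      (-(2 * B.H r * deriv B.H r + B.H r ^ 3 + B.H r * B.II2 r)) * (1 / rad g x) -
      (-(2 * B.H r)) * DS G (glf g) x - (-2) * DS G (prf G K) x) {x : E n | B.R < ‖x‖} :=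
    (((continuousOn_const.sub (continuousOn_const.mul c1')).sub
      (continuousOn_const.mul c2')).sub (continuousOn_const.mul c3')).sub
        (continuousOn_const.mul c4')
  have hcomb2 : ContinuousOn (fun x => 0 - (-1) * dN (fun y => trT G K y ^ 2) x -
      (-(B.H r + B.II2 r / B.H r)) * trT G K x ^ 2 - (-2) * tors G g K x - 0 * 0)
      {x : E n | B.R < ‖x‖} :=
    (((continuousOn_const.sub (continuousOn_const.mul c5')).sub
      (continuousOn_const.mul c6')).sub (continuousOn_const.mul c7')).sub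
        (continuousOn_const.mul c8')
  have hL := h.contOn_leafScal
  have hA1 : ContinuousOn (fun x => B.H r * leafScal G x) {x : E n | B.R < ‖x‖} :=
    continuousOn_const.mul hL
  refine ⟨(hA1.sub hcomb).add hcomb2, ?_⟩
  have e0 : sphI (Fx B G g K r) r = sphI (fun x => (B.H r * leafScal G x -
    (0 - (-(B.H r ^ 2)) * dN (fun y => 1 / rad g y) x -
      (-(2 * B.H r * deriv B.H r + B.H r ^ 3 + B.H r * B.II2 r)) * (1 / rad g x) -
      (-(2 * B.H r)) * DS G (glf g) x - (-2) * DS G (prf G K) x)) +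
    (0 - (-1) * dN (fun y => trT G K y ^ 2) x - (-(B.H r + B.II2 r / B.H r)) * trT G K x ^ 2 -
      (-2) * tors G g K x - 0 * 0)) r := rfl
  have hAB : ContinuousOn (fun x => B.H r * leafScal G x -
    (0 - (-(B.H r ^ 2)) * dN (fun y => 1 / rad g y) x -
      (-(2 * B.H r * deriv B.H r + B.H r ^ 3 + B.H r * B.II2 r)) * (1 / rad g x) -
      (-(2 * B.H r)) * DS G (glf g) x - (-2) * DS G (prf G K) x)) {x : E n | B.R < ‖x‖} :=
    hA1.sub hcomb
  rw [e0, Vale.Agent.P366.sphI_add (u := fun x => B.H r * leafScal G x -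
    (0 - (-(B.H r ^ 2)) * dN (fun y => 1 / rad g y) x -
      (-(2 * B.H r * deriv B.H r + B.H r ^ 3 + B.H r * B.II2 r)) * (1 / rad g x) -
      (-(2 * B.H r)) * DS G (glf g) x - (-2) * DS G (prf G K) x))
      (v := fun x => 0 - (-1) * dN (fun y => trT G K y ^ 2) x -
        (-(B.H r + B.II2 r / B.H r)) * trT G K x ^ 2 - (-2) * tors G g K x - 0 * 0)
      h.hR.le hr hAB hcomb2,
    Vale.Agent.P366.sphI_sub (u := fun x => B.H r * leafScal G x) h.hR.le hr hA1 hcomb,
    sphI_comb h.hR.le hr c1' c2' c3' c4', sphI_comb h.hR.le hr c5' c6' c7' c8',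
    h.sphI_DS hZ1 hr, h.sphI_DS hZ2 hr, Vale.Agent.P366.sphI_const_mul]
  have e1 : sphI (dN fun y => 1 / rad g y) r = Vale.Agent.P366.omega n * Vav' g r := by
    unfold Vav' av
    field_simp
  have e2 : sphI (fun y => 1 / rad g y) r = Vale.Agent.P366.omega n * Vav g r := by
    unfold Vav av
    field_simp
  have e3 : sphI (fun x => leafScal G x) r = Vale.Agent.P366.omega n * av (leafScal G) r := by
    unfold av
    field_simp
  have e4 : sphI (dN fun y => trT G K y ^ 2) r =
      Vale.Agent.P366.omega n * av (dN fun y => trT G K y ^ 2) r := by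
    unfold av
    field_simp
  have e5 : sphI (fun y => trT G K y ^ 2) r =
      Vale.Agent.P366.omega n * av (fun y => trT G K y ^ 2) r := by
    unfold av
    field_simp
  have e6 : sphI (tors G g K) r = Vale.Agent.P366.omega n * av (tors G g K) r := by
    unfold av
    field_simp
  rw [e1, e2, e3, e4, e5, e6]
  unfold Yav' Yav
  ring

end

/-- **Block X1**: the averaged inequality. -/
theorem stX1 [Nontrivial (E n)] : StX1 n := by
  intro G g K B h hF hK hKs r hr hdec hlt htors
  have h0 : 0 < r := B.hR.trans hr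
  have hω : 0 < Vale.Agent.P366.omega n := Vale.Agent.P366.omega_pos'
  obtain ⟨x0, hx0⟩ : ∃ x0 : E n, len x0 = r := by
    obtain ⟨y, hy⟩ := exists_ne (0 : E n)
    refine ⟨(r / ‖y‖) • y, ?_⟩
    have : ‖y‖ ≠ 0 := norm_ne_zero_iff.2 hy
    unfold len
    rw [norm_smul, Real.norm_eq_abs, abs_of_nonneg (by positivity), div_mul_cancel₀ _ this]
  have hHp : 0 < B.H r := (abs_nonneg _).trans_lt (hlt x0 hx0)
  obtain ⟨-, hI⟩ := sphI_Fx (B := B) h hK hr
  have hpt : ∀ x : E n, ‖x‖ = r → 0 ≤ Fx B G g K r x := by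
    intro x hx
    have hx' : len x = r := hx
    have hxR : B.R < len x := by rw [hx']; exact hr
    have hl : |kpf G g K x| < B.H (len x) := by rw [hx']; exact hlt x hx'
    rw [Fx_eq hHp hx']
    have h1 := ptX_nonneg (stA n) (stB n) h hF.toFits0 hK hKs hxR (hdec x hxR) hl
    have h2 := hF.hII x hxR
    have h3 := w_pos h hxR.le hl
    have h4 : 0 < B.H (len x) := by rw [hx']; exact hHp
    have h5 : 0 ≤ (1 / rad g x * B.H (len x) ^ 2 - trT G K x ^ 2) / B.H (len x) *
        (ctr G (IIf G) (IIf G) x - B.II2 (len x)) :=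
      mul_nonneg (div_nonneg h3.le h4.le) (by linarith)
    linarith
  have hI0 : 0 ≤ sphI (Fx B G g K r) r := integral_nonneg fun θ => hpt _ (norm_smul_sph h0.le θ)
  rw [hI] at hI0
  have h1 := nonneg_of_mul_nonneg_right hI0 hω
  have h2 : B.H r * av (leafScal G) r ≤ B.H r * B.Rh r :=
    mul_le_mul_of_nonneg_left (hF.hRh r hr) hHp.le
  have h3 : B.H r * B.II2 r - B.II2 r / B.H r * B.H r ^ 2 = 0 := by field_simp; ring
  rw [h3, zero_mul, add_zero] at h1
  have h4 : Yav B G g K r / B.H r * B.II2 r = B.II2 r / B.H r * Yav B G g K r := by ring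
  rw [h4]
  linarith

/-- **Block X1d**: the derivative of the averages. -/
theorem stX1d : StX1d n := by
  intro G g K B h hK
  have hHc : ContinuousOn B.H (Ici B.R) := fun r hr =>
    (B.H_diff r hr).continuousAt.continuousWithinAt
  have hc : ContinuousOn (fun x => trT G K (proj B.R x) ^ 2) {x : E n | 0 < ‖x‖} := by
    intro x hx
    have hx0 : x ≠ 0 := norm_pos_iff.1 hx
    have hl := proj_len (R := B.R) h.hR hx0
    have hle : B.R ≤ len (proj B.R x) := by rw [hl]; exact le_max_right _ _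
    have h1 : ContinuousAt (fun y => trT G K y ^ 2) (proj B.R x) :=
      (trT_continuousAt h hK hle).pow 2
    have h2 : ContinuousAt (proj B.R) x := by
      unfold proj
      refine ContinuousAt.smul (f := fun x : E n => max ‖x‖ B.R / ‖x‖) (g := fun x => x) ?_
        continuousAt_id
      exact (continuous_norm.max continuous_const).continuousAt.div continuous_norm.continuousAt
        (norm_ne_zero_iff.2 hx0)
    exact (ContinuousAt.comp (f := proj B.R) h1 h2).continuousWithinAt
  refine ⟨?_, fun r hr => ?_⟩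
  · have h1 : ContinuousOn (sphI fun x : E n => trT G K (proj B.R x) ^ 2) (Ioi 0) :=
      sphI_continuousOn le_rfl hc
    have h2 : ContinuousOn (av fun x : E n => trT G K (proj B.R x) ^ 2) (Ioi 0) :=
      h1.div_const _
    have h3 : ContinuousOn (av fun x : E n => trT G K x ^ 2) (Ici B.R) := by
      refine (h2.mono fun r hr => h.hR.trans_le hr).congr fun r hr => ?_
      unfold av
      congr 1
      refine sphI_congr (h.hR.le.trans hr) fun x hx => ?_
      rw [proj_eq h.hR (by rw [hx]; exact hr)]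
    exact ((hHc.pow 2).mul (Vav_continuousOn h)).sub h3
  · have h1 := (B.H_diff r hr.le).hasDerivAt
    have h2 := Vav_hasDerivAt h hr
    have h3 : HasDerivAt (av fun x : E n => trT G K x ^ 2)
        (av (dN fun x => trT G K x ^ 2) r) r :=
      (sphI_hasDerivAt' h.hR.le (contOn_trT h hK) hr).div_const _
    refine (((h1.pow 2).mul h2).sub h3).congr_deriv ?_
    unfold Yav'
    simp

end Vale.Agent.T4
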