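import Vale.Agent.P366.T5.X1b355

/-! T5, class X: the ODE argument and the assembly. -/

open MeasureTheory Metric Filter Topology Set
open scoped ContDiff ENNReal Matrix

noncomputable section
namespace Vale.Agent.T4
open Vale.Agent.P366.Stmt Vale.Agent.P366.T2
open Vale.Agent.P366 (sphI sphM av norm_smul_sph integrable_sph sphI_congr sphI_continuousOn)
open Vale.Agent.C92 (outside_nonneg)

variable {n : ℕ}

section

variable {G g K : Field n} {B : Bg n}

lemma exists_len (hn : 0 < n) {r : ℝ} (hr : 0 ≤ r) : ∃ x : E n, len x = r :=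
  ⟨r • EuclideanSpace.single ⟨0, hn⟩ 1, smul_e_len (by simp) hr⟩

lemma len_smul_sph {r : ℝ} (hr : 0 ≤ r) (θ : sphere (0 : E n) 1) : len (r • (θ : E n)) = r :=
  norm_smul_sph hr θ

/-- a point is on its ray -/
lemma exists_theta {x : E n} (hx : 0 < len x) : ∃ θ : sphere (0 : E n) 1, x = len x • (θ : E n) := by
  have hne : ‖x‖ ≠ 0 := hx.ne'
  refine ⟨⟨‖x‖⁻¹ • x, by
    rw [mem_sphere_zero_iff_norm, norm_smul, norm_inv, norm_norm, inv_mul_cancel₀ hne]⟩, ?_⟩
  show x = ‖x‖ • (‖x‖⁻¹ • x)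
  rw [smul_inv_smul₀ hne]

lemma kpf_ray (h : Lapse G g B.R) (hK : ∀ i j, Smooth (fun x => K x i j))
    (θ : sphere (0 : E n) 1) :
    ContinuousOn (fun r : ℝ => kpf G g K (r • (θ : E n))) (Ici B.R) := by
  intro r hr
  have hr0 : 0 ≤ r := h.hR.le.trans hr
  have h2 : ContinuousAt (kpf G g K) (r • (θ : E n)) :=
    kfun_continuousAt h hK (by rw [len_smul_sph hr0]; exact hr)
  exact (ContinuousAt.comp (f := fun r : ℝ => r • (θ : E n)) h2
    (continuous_id.smul continuous_const).continuousAt).continuousWithinAt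

/-- **The last radius without untrapped points.** -/
theorem exists_r0 (hn : 0 < n) (h : Lapse G g B.R) (hK : ∀ i j, Smooth (fun x => K x i j))
    (hd : Dich B G g K) (h0 : ∃ x, len x = B.R ∧ B.H B.R + kpf G g K x ≤ 0)
    (hinf : ∀ᶠ r in atTop, ∀ x, len x = r → |kpf G g K x| < B.H r) :
    ∃ r0, B.R ≤ r0 ∧ (∀ x, len x = r0 → |kpf G g K x| = B.H r0) ∧
      ∀ r, r0 < r → (∀ x, len x = r → |kpf G g K x| < B.H r) ∧ av (tors G g K) r ≤ 0 := by
  obtain ⟨R1, hR1⟩ := eventually_atTop.1 hinf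
  set S : Set ℝ := {r | B.R ≤ r ∧ ∀ x, len x = r → B.H r ≤ |kpf G g K x|} with hS
  have hHc : ContinuousOn B.H (Ici B.R) := fun r hr =>
    (B.H_diff r hr).continuousAt.continuousWithinAt
  have hSc : IsClosed S := by
    have e : S = ⋂ θ : sphere (0 : E n) 1, {r | B.R ≤ r ∧ 0 ≤ |kpf G g K (r • (θ : E n))| - B.H r} ∩
        {r | B.R ≤ r} := by
      ext r
      simp only [hS, mem_ofPred_eq, mem_iInter, mem_inter_iff]
      constructor
      · rintro ⟨h1, h2⟩ θ
        have hr0 : 0 ≤ r := B.hR.le.trans h1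
        exact ⟨⟨h1, by have := h2 _ (len_smul_sph hr0 θ); linarith⟩, h1⟩
      · intro h1
        obtain ⟨y, hy⟩ := exists_len (n := n) hn (r := 1) zero_le_one
        have h2 := h1 ⟨y, by rw [mem_sphere_zero_iff_norm]; exact hy⟩
        refine ⟨h2.2, fun x hx => ?_⟩
        have hr0 : 0 < r := B.hR.trans_le h2.2
        obtain ⟨θ, hθ⟩ := exists_theta (x := x) (by rw [hx]; exact hr0)
        have h3 := (h1 θ).1.2
        rw [hx] at hθ
        rw [← hθ] at h3
        linarith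
    rw [e]
    refine isClosed_iInter fun θ => ?_
    have h1 : ContinuousOn (fun r : ℝ => |kpf G g K (r • (θ : E n))| - B.H r) (Ici B.R) :=
      (kpf_ray h hK θ).abs.sub hHc
    have h2 := h1.preimage_isClosed_of_isClosed isClosed_Ici (isClosed_Ici (a := (0 : ℝ)))
    convert h2 using 1
    ext r
    simp only [mem_ofPred_eq, mem_inter_iff, mem_Ici, mem_preimage]
    tauto
  have hSne : S.Nonempty := by
    refine ⟨B.R, le_rfl, ?_⟩
    rcases hd B.R le_rfl with h1 | h1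
    · exact h1
    · obtain ⟨x, hx, h2⟩ := h0
      have h3 := h1.1 x hx
      have := neg_le_abs (kpf G g K x)
      linarith
  have hSb : BddAbove S := ⟨max B.R R1, fun r hr => by
    by_contra hlt
    push Not at hlt
    have h1 := hR1 r ((le_max_right _ _).trans hlt.le)
    obtain ⟨x, hx⟩ := exists_len (n := n) hn (r := r) (B.hR.le.trans hr.1)
    exact absurd (hr.2 x hx) (not_le.2 (h1 x hx))⟩
  have hr0S : sSup S ∈ S := hSc.csSup_mem hSne hSb
  have hgt : ∀ r, sSup S < r → (∀ x, len x = r → |kpf G g K x| < B.H r) ∧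
      av (tors G g K) r ≤ 0 := by
    intro r hr
    rcases hd r (hr0S.1.trans hr.le) with h1 | h1
    · exact absurd (le_csSup hSb ⟨hr0S.1.trans hr.le, h1⟩) (not_le.2 hr)
    · exact h1
  refine ⟨sSup S, hr0S.1, fun x hx => le_antisymm ?_ (hr0S.2 x hx), hgt⟩
  have hr0 : 0 < sSup S := B.hR.trans_le hr0S.1
  obtain ⟨θ, hθ⟩ := exists_theta (x := x) (by rw [hx]; exact hr0)
  rw [hx] at hθ
  have hsub : Ioi (sSup S) ⊆ Ici B.R := fun r hr => hr0S.1.trans (le_of_lt hr)
  have h1 : Tendsto (fun r : ℝ => |kpf G g K (r • (θ : E n))|) (𝓝[>] (sSup S))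
      (𝓝 |kpf G g K (sSup S • (θ : E n))|) := ((kpf_ray h hK θ (sSup S) hr0S.1).mono hsub).abs
  have h2 : Tendsto B.H (𝓝[>] (sSup S)) (𝓝 (B.H (sSup S))) := (hHc _ hr0S.1).mono hsub
  rw [hθ]
  refine le_of_tendsto_of_tendsto h1 h2 ?_
  filter_upwards [self_mem_nhdsWithin] with r hr
  exact ((hgt r hr).1 _ (len_smul_sph (hr0.trans hr).le θ)).le

/-- `Y` vanishes on a sphere with `|κ| = H` -/
lemma Yav_zero (h : Lapse G g B.R) {r : ℝ} (hr : B.R ≤ r)
    (h1 : ∀ x, len x = r → |kpf G g K x| = B.H r) : Yav B G g K r = 0 := by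
  have hr0 : 0 ≤ r := B.hR.le.trans hr
  unfold Yav Vav av
  have h2 : sphI (fun x => trT G K x ^ 2) r = sphI (fun x => B.H r ^ 2 * (1 / rad g x)) r := by
    refine sphI_congr hr0 fun x hx => ?_
    have hx' : len x = r := hx
    have hp := h.ppos x (by rw [hx']; exact hr)
    rw [← h1 x hx', sq_abs]
    unfold kpf
    rw [mul_pow, Real.sq_sqrt hp.le]
    field_simp
  rw [h2, Vale.Agent.P366.sphI_const_mul]
  ring

/-- `Y` is nonnegative on untrapped spheres -/
lemma Yav_nonneg (h : Lapse G g B.R) (hK : ∀ i j, Smooth (fun x => K x i j)) {r : ℝ}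
    (hr : B.R < r) (h1 : ∀ x, len x = r → |kpf G g K x| < B.H r) : 0 ≤ Yav B G g K r := by
  have hr0 : 0 ≤ r := (B.hR.trans hr).le
  have hY : Yav B G g K r =
      sphI (fun x => B.H r ^ 2 * (1 / rad g x) - trT G K x ^ 2) r / Vale.Agent.P366.omega n := by
    have c1 : ContinuousOn (fun x : E n => B.H r ^ 2 * (1 / rad g x)) {x : E n | B.R < ‖x‖} :=
      continuousOn_const.mul h.contDiffOn_v.continuousOn
    rw [Vale.Agent.P366.sphI_sub (u := fun x : E n => B.H r ^ 2 * (1 / rad g x))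
      (v := fun x => trT G K x ^ 2) h.hR.le hr c1 (contOn_trT h hK).continuousOn,
      Vale.Agent.P366.sphI_const_mul]
    unfold Yav Vav av
    ring
  rw [hY]
  have hω : 0 ≤ Vale.Agent.P366.omega n := by
    have : 0 ≤ (sphM n univ).toReal := ENNReal.toReal_nonneg
    exact this
  refine div_nonneg (integral_nonneg fun θ => ?_) hω
  have hx' : len (r • (θ : E n)) = r := len_smul_sph hr0 θ
  have h2 := w_pos (B := B) (K := K) (G := G) h (x := r • (θ : E n)) (by rw [hx']; exact hr.le)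
    (by rw [hx']; exact h1 _ hx')
  rw [hx'] at h2
  have e : B.H r ^ 2 * (1 / rad g (r • (θ : E n))) - trT G K (r • (θ : E n)) ^ 2 =
      1 / rad g (r • (θ : E n)) * B.H r ^ 2 - trT G K (r • (θ : E n)) ^ 2 := by ring
  show 0 ≤ B.H r ^ 2 * (1 / rad g (r • (θ : E n))) - trT G K (r • (θ : E n)) ^ 2
  rw [e]
  exact h2.le

/-- **Monotonicity.** -/
theorem monoX (hn : 3 ≤ n) (h : Lapse G g B.R) (hF : B.FitsW G)
    (hK : ∀ i j, Smooth (fun x => K x i j))
    (hKs : ∀ x, B.R ≤ len x → ∀ i j, K x i j = K x j i)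
    (hdec : ∀ x, B.R < len x → covNorm g (mom g K) x ≤ mu g K x) {r0 : ℝ} (hr0 : B.R ≤ r0)
    (hz : ∀ x, len x = r0 → |kpf G g K x| = B.H r0)
    (hgt : ∀ r, r0 < r → (∀ x, len x = r → |kpf G g K x| < B.H r) ∧ av (tors G g K) r ≤ 0) :
    MonotoneOn (fun r => B.rho r ^ ((n : ℝ) - 2) *
        (1 - Yav B G g K r / (4 * B.lam r ^ 2))) (Ici r0) ∧
      ∀ r, r0 ≤ r → B.rho r0 ^ ((n : ℝ) - 2) ≤
        B.rho r ^ ((n : ℝ) - 2) * (1 - Yav B G g K r / (4 * B.lam r ^ 2)) := by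
  have : Nontrivial (E n) := by
    have : Nonempty (Fin n) := ⟨⟨0, by omega⟩⟩
    infer_instance
  have hn3 : (3 : ℝ) ≤ n := by exact_mod_cast hn
  have hN : 1 < (n : ℝ) - 1 := by linarith
  obtain ⟨hYc, hYd⟩ := stX1d h (B := B) hK
  have hR : ∀ r, r0 ≤ r → B.R ≤ r := fun r hr => hr0.trans hr
  have hHp : ∀ r, r0 < r → 0 < B.H r := by
    intro r hr
    obtain ⟨x, hx⟩ := exists_len (n := n) (by omega) (r := r) (B.hR.le.trans (hR r hr.le))
    exact (abs_nonneg _).trans_lt ((hgt r hr).1 x hx)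
  have h1 := mono_main2 (N := (n : ℝ) - 1) (r0 := r0) hN (c := fun _ => 1) (H := B.H)
    (Y := Yav B G g K) (Y' := Yav' B G g K) (ρ := B.rho) (R := B.Rh)
    (II2 := B.II2) (lam := B.lam) (L2 := B.L2) (I := B.IT)
    (fun r hr => one_pos) hHp (Yav_zero h hr0 hz)
    (fun r hr => Yav_nonneg h hK (hr0.trans_lt hr) (hgt r hr).1)
    (hYc.mono fun r hr => hR r hr)
    (fun r hr => (B.rho_hasDerivAt (hR r hr)).continuousAt.continuousWithinAt)
    (fun r hr => (B.lam_deriv r (hR r hr)).continuousAt.continuousWithinAt)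
    (fun r hr => B.rho_pos (hR r hr))
    (fun r hr => B.lam_pos r (hR r hr))
    (fun r hr => B.rho_hasDerivAt (hR r hr.le))
    (fun r hr => hYd r (hr0.trans_lt hr))
    (fun r hr => by
      rw [one_mul]
      exact stX1 h hF hK hKs (hr0.trans_lt hr) hdec (hgt r hr).1 (hgt r hr).2)
    (fun r hr => (B.lam_deriv r (hR r hr.le)).congr_deriv (by rw [one_mul]))
    (fun r hr => B.hU r (hR r hr.le) _)
    (fun r hr => B.hL r (hR r hr.le))
    (fun r hr => B.hJ r (hR r hr.le))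
  have e : (n : ℝ) - 1 - 1 = (n : ℝ) - 2 := by ring
  rw [e] at h1
  exact h1

end

/-- **The Penrose inequality for class X.** -/
theorem penroseX (hn : 3 ≤ n) (hX3 : StX3 n) (hX4 : StX4 n) {X : Exterior n} {G : Field n}
    {B : Bg n} (h : Lapse G X.g B.R) (hB : B.FitsW G) (hL : B.LamOK G) (hAF : X.IsAF)
    (hDEC : X.DEC) (hT : X.Trapped) {m : ℝ} (hm : X.IsEnergy m)
    (hR : IsGreatest {r | ∃ x, X.F x = 0 ∧ len x = r} B.R) (hd : Dich B G X.g X.K) :
    X.Amin ≠ ⊤ ∧ 0 < m ∧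
      (X.Amin.toReal / omega n) ^ (((n : ℝ) - 2) / (n - 1)) / 2 ≤ m := by
  have : Nonempty (Fin n) := ⟨⟨0, by omega⟩⟩
  have : Nontrivial (E n) := inferInstance
  have hout := outside_nonneg (by omega) X hR
  have hKsm := fun i j => (X.smooth i j).2
  obtain ⟨hlim, hinf⟩ := hX3 h hB.toFits0 hL hAF hm
  obtain ⟨r0, hr0, hz, hgt⟩ := exists_r0 (by omega) h hKsm hd (hX4 h hB.toFits0 hT hR) hinf
  obtain ⟨-, hbd⟩ := monoX hn h hB hKsm (fun x _ i j => (X.symm x i j).2)
    (fun x hx => hDEC x (hout x hx.le)) hr0 hz hgt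
  have hle : B.rho r0 ^ ((n : ℝ) - 2) ≤ 2 * m := by
    refine ge_of_tendsto hlim ?_
    filter_upwards [eventually_ge_atTop r0] with r hr
    exact hbd r hr
  have hρ := B.rho_pos hr0
  have hn1 : (n : ℝ) - 1 ≠ 0 := by
    have : (3 : ℝ) ≤ n := by exact_mod_cast hn
    linarith
  have e : B.rho r0 ^ ((n : ℝ) - 1) = B.ar r0 := by
    unfold Bg.rho
    rw [← Real.rpow_mul (B.ar_pos r0 hr0).le, one_div, inv_mul_cancel₀ hn1, Real.rpow_one]
  have hAm : X.Amin ≤ ENNReal.ofReal (omega n * B.rho r0 ^ ((n : ℝ) - 1)) := by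
    rw [e]
    exact areaF (by omega) h hB.toFits0 hR hr0
  obtain ⟨h1, h2, h3⟩ := Vale.Agent.P366.T2.conclude hn (P := fun _ : Fin n => 0) rfl hρ hAm hle
  simp only [ne_eq, OfNat.ofNat_ne_zero, not_false_eq_true, zero_pow, Finset.sum_const_zero,
    Real.sqrt_zero, sub_zero] at h2 h3
  rw [Real.sqrt_sq h2.le] at h3
  exact ⟨h1, h2, h3⟩

end Vale.Agent.T4
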