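import Vale.Agent.P366.T5.DefsX
import Vale.Agent.P366.T4.StE919

/-! T5, class X, block X3: asymptotics. -/

open MeasureTheory Metric Filter Topology Set Asymptotics
open scoped ContDiff ENNReal

noncomputable section
namespace Vale.Agent.T4
open Vale.Agent.P366.Stmt Vale.Agent.P366.T2
open Vale.Agent.P366.T1.A919 (far far_iff far_of far_gt far_nhds O O_iff O_of_bigO O_const O_zero
  O_of_le O_inv_mat tail_bound)
open Vale.Agent.P366.T2.E68 (O1 O2 O0)
open Vale.Agent.P366 (sphI sphM av norm_smul_sph omega_pos')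

variable {n : ℕ}

/-- the data with `K` replaced by `0` -/
def zeroK (X : Exterior n) : Exterior n where
  F := X.F
  g := X.g
  K := fun _ _ _ => 0
  dom := X.dom
  bdry := X.bdry
  smooth := fun i j => ⟨(X.smooth i j).1, contDiff_const⟩
  symm := fun x i j => ⟨(X.symm x i j).1, rfl⟩
  pos := X.pos

lemma bigO_zero {q : ℝ} : BigO q (fun _ : E n => (0 : ℝ)) :=
  ⟨0, 0, fun x _ => by simp⟩

lemma zeroK_AF {X : Exterior n} (h : X.IsAF) : (zeroK X).IsAF := by
  obtain ⟨q, hq, hAF⟩ := h
  refine ⟨q, hq, fun i j k l => ?_⟩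
  obtain ⟨h1, h2, h3, -, -⟩ := hAF i j k l
  refine ⟨h1, h2, h3, bigO_zero, ?_⟩
  have e : pd k (fun x : E n => (zeroK X).K x i j) = fun _ => 0 := by
    funext x
    exact (HP.const k 0 x).pd
  rw [e]
  exact bigO_zero

theorem stX3 (hn : 3 ≤ n) : StX3 n := by
  intro X B G h hB hL hAF m hm
  have hn3 : (3 : ℝ) ≤ n := by exact_mod_cast hn
  have hn1 : 1 ≤ n := by omega
  have : Nonempty (Fin n) := ⟨⟨0, by omega⟩⟩
  have : Nontrivial (E n) := inferInstance
  obtain ⟨hlim, -⟩ := stEF hn (X := zeroK X) (B := B) (G := G) h hB hL (zeroK_AF hAF) (m := m) hm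
    (κ := fun _ => 0) (fun x _ => by
      have : trT G (zeroK X).K x = 0 := by
        unfold trT
        simp [zeroK]
      rw [this, mul_zero])
  obtain ⟨q, hq, hAFq⟩ := hAF
  have hq0 : 0 < q := by linarith
  have i0 : Fin n := ⟨0, by omega⟩
  have D : Dec X.g q := ⟨fun i j => O_of_bigO (hAFq i j i0 i0).1,
    fun i j k => O_of_bigO (hAFq i j k i0).2.1⟩
  have hK : ∀ i j, O (q + 1) (fun x => X.K x i j) := fun i j =>
    O_of_bigO (hAFq i j i0 i0).2.2.2.1
  have hAF1 : AF1 q X.g := ⟨fun i j => (hAFq i j i0 i0).1, fun i j k => (hAFq i j k i0).2.1⟩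
  have hlam := hL q hq0 (AF1_of_lapse h hAF1)
  have hT := h.trK0 hq0 D hK
  set N : ℝ := (n : ℝ) - 1 with hN
  have hN0 : 0 < N := by linarith
  have hl : O1 q B.ld := O1_of_O hn1 (h.ld0F hn1 hq0 D hB)
  have hy : O1 q (fun r => r * B.H r - N) := O1_of_O hn1 (h.yy0F hq0 D hB)
  have tz : ∀ p : ℝ, 0 < p → Tendsto (fun r : ℝ => r ^ (-p)) atTop (𝓝 0) :=
    fun p hp => tendsto_rpow_neg_atTop hp
  have hl0 : Tendsto B.ld atTop (𝓝 0) := IsBigO.trans_tendsto hl (tz q hq0)
  have hy0 : Tendsto (fun r => r * B.H r - N) atTop (𝓝 0) := IsBigO.trans_tendsto hy (tz q hq0)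
  have hw1 : Tendsto (fun r => 2 * B.lam r * B.rho r / N - 1) atTop (𝓝 0) :=
    IsBigO.trans_tendsto (O2_iff.1 hlam) (tz (q + q) (by linarith))
  have hw : Tendsto (fun r => 2 * B.lam r * B.rho r / N) atTop (𝓝 1) := by
    have := hw1.add_const 1
    simpa using this
  -- the area radius
  have hρ : ∀ᶠ r in atTop, B.rho r = r * Real.exp (B.ld r / N) := by
    filter_upwards [eventually_ge_atTop B.R, eventually_gt_atTop 0] with r hr hr0
    have har := B.ar_pos r hr
    have e1 : B.ar r = Real.exp (B.ld r) * r ^ N := by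
      unfold Bg.ld
      rw [Real.exp_log (by positivity)]
      have e2 : r ^ N = r ^ (n - 1) := by
        rw [← Real.rpow_natCast]
        congr 1
        rw [Nat.cast_sub hn1, hN]
        push_cast
        ring
      rw [e2]
      field_simp
    unfold Bg.rho
    rw [e1, Real.mul_rpow (Real.exp_pos _).le (by positivity), ← Real.rpow_mul hr0.le,
      ← Real.exp_mul]
    have e3 : N * (1 / ((n : ℝ) - 1)) = 1 := by
      rw [← hN]; field_simp
    rw [e3, Real.rpow_one, mul_comm]
    congr 2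
    rw [← hN]; ring
  have hρ1 : Tendsto (fun r => B.rho r / r) atTop (𝓝 1) := by
    have h1 : Tendsto (fun r => Real.exp (B.ld r / N)) atTop (𝓝 1) := by
      have := (Real.continuous_exp.tendsto (0 / N)).comp (hl0.div_const N)
      simpa [Function.comp_def] using this
    refine h1.congr' ?_
    filter_upwards [hρ, eventually_gt_atTop 0] with r hr hr0
    rw [hr]
    field_simp
  -- the average of `P²`
  have ha : (fun r => av (fun x => trT G X.K x ^ 2) r) =O[atTop]
      fun r : ℝ => r ^ (-(q + 1 + (q + 1))) := by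
    refine av_O ?_
    refine (hT.mul hT).congr (Eventually.of_forall fun x => ?_)
    ring
  have ha0 : Tendsto (fun r : ℝ => r ^ (n : ℝ) * av (fun x => trT G X.K x ^ 2) r) atTop
      (𝓝 0) := by
    have h2 := IsBigO.mul (isBigO_refl (fun r : ℝ => r ^ (n : ℝ)) atTop) ha
    refine h2.trans_tendsto ?_
    refine (tz (2 * q + 2 - n) (by linarith)).congr' ?_
    filter_upwards [eventually_gt_atTop 0] with r hr
    rw [← Real.rpow_add hr]
    congr 1
    ring
  have hg2 : Tendsto (fun r => B.rho r ^ ((n : ℝ) - 2) *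
      (av (fun x => trT G X.K x ^ 2) r / (4 * B.lam r ^ 2))) atTop (𝓝 0) := by
    have h1 : Tendsto (fun r => (B.rho r / r) ^ (n : ℝ) *
        (r ^ (n : ℝ) * av (fun x => trT G X.K x ^ 2) r) /
        (N ^ 2 * (2 * B.lam r * B.rho r / N) ^ 2)) atTop
        (𝓝 ((1 : ℝ) ^ (n : ℝ) * 0 / (N ^ 2 * 1 ^ 2))) := by
      refine Tendsto.div (Tendsto.mul ?_ ha0) (tendsto_const_nhds.mul (hw.pow 2)) (by positivity)
      exact hρ1.rpow_const (Or.inl one_ne_zero)
    rw [mul_zero, zero_div] at h1
    refine h1.congr' ?_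
    filter_upwards [eventually_ge_atTop B.R, eventually_gt_atTop 0] with r hr hr0
    have hρp := B.rho_pos hr
    have hlp := B.lam_pos r hr
    have e1 : (B.rho r / r) ^ (n : ℝ) * r ^ (n : ℝ) = B.rho r ^ (n : ℝ) := by
      rw [← Real.mul_rpow (by positivity) hr0.le]
      congr 1
      field_simp
    have e2 : B.rho r ^ (n : ℝ) = B.rho r ^ ((n : ℝ) - 2) * B.rho r ^ 2 := by
      rw [← Real.rpow_natCast (B.rho r) 2, ← Real.rpow_add hρp]
      congr 1
      push_cast
      ring
    rw [← mul_assoc, e1, e2]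
    field_simp
    ring
  refine ⟨?_, ?_⟩
  · have h1 := hlim.add hg2
    rw [add_zero] at h1
    refine h1.congr fun r => ?_
    have e : Vav (zeroK X).g r = Vav X.g r := rfl
    rw [e]
    unfold Yav
    ring
  · have hk : O (q + 1) (kpf G X.g X.K) :=
      ((D.p0.sqrt).bdd hq0.le).mul' hT (by linarith)
    obtain ⟨C, R0, hC, hR0, hb⟩ := O_iff.mp hk
    have h1 : Tendsto (fun r : ℝ => C * r ^ (-q)) atTop (𝓝 0) := by
      have := (tz q hq0).const_mul C
      simpa using this
    filter_upwards [eventually_gt_atTop R0, eventually_gt_atTop 0,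
      h1.eventually (gt_mem_nhds (show (0 : ℝ) < N / 2 by linarith)),
      hy0.eventually (lt_mem_nhds (show (-(N / 2) : ℝ) < 0 by linarith))] with r hr hr0 h2 h3
    intro x hx
    have hx' : ‖x‖ = r := hx
    have h4 := hb x (by rw [hx']; exact hr)
    rw [hx'] at h4
    have h5 : r ^ (-(q + 1)) * r = r ^ (-q) := by
      rw [← Real.rpow_add_one hr0.ne']
      congr 1
      ring
    have h6 : |kpf G X.g X.K x| * r < B.H r * r := by
      calc |kpf G X.g X.K x| * r ≤ C * r ^ (-(q + 1)) * r :=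
            mul_le_mul_of_nonneg_right h4 hr0.le
        _ = C * r ^ (-q) := by rw [mul_assoc, h5]
        _ < N / 2 := h2
        _ < B.H r * r := by linarith
    exact lt_of_mul_lt_mul_right h6 hr0.le

end Vale.Agent.T4
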