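import Vale.Agent.P366.T5.X2355

/-! T5, class X: touching, outermost boundaries, and the equality case. -/

open MeasureTheory Metric Filter Topology Set
open scoped ContDiff ENNReal Matrix

noncomputable section
namespace Vale.Agent.T4
open Vale.Agent.P366.Stmt Vale.Agent.P366.T2
open Vale.Agent.P366 (sphI sphM av norm_smul_sph integrable_sph sphI_congr sphI_continuousOn)
open Vale.Agent.C92 (outside_nonneg theta_compare)

variable {n : ℕ}

/-- **Block X4**: touching. -/
theorem stX4 (hn : 2 ≤ n) : StX4 n := by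
  intro X B G h hB hT hR
  have hout := outside_nonneg hn X hR
  obtain ⟨x0, hF0, hx0⟩ := hR.1
  have h1 := theta_compare (g := X.g) (K := X.K) X.dom.1 B.hR hx0
    (X.pos x0 hF0.ge) (X.dom.2.1 x0 hF0) (fun x hx => by rw [hF0]; exact hout x hx)
  have h2 := h1.trans (hT x0 hF0)
  have hp := h.ppos x0 hx0.ge
  have hs : 0 < √(rad X.g x0) := Real.sqrt_pos.2 hp
  rw [h.theta_len hx0.ge, H1_eq_bdF h hB hx0.ge] at h2
  rw [hx0] at h2
  refine ⟨x0, hx0, ?_⟩
  have h4 : √(rad X.g x0) * (B.H B.R / √(rad X.g x0) + trT G X.K x0) ≤ 0 :=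
    mul_nonpos_of_nonneg_of_nonpos hs.le h2
  have h5 : √(rad X.g x0) * (B.H B.R / √(rad X.g x0) + trT G X.K x0) =
      B.H B.R + kpf G X.g X.K x0 := by
    unfold kpf
    field_simp
  rw [h5] at h4
  exact h4

/-- **outermost boundaries** -/
theorem outX (hn : 2 ≤ n) {X : Exterior n} {G : Field n} {B : Bg n} (h : Lapse G X.g B.R)
    (hB : B.Fits0 G) (hO : Outermost X)
    (hR : IsGreatest {r | ∃ x, X.F x = 0 ∧ len x = r} B.R) {r : ℝ} (hr : B.R < r) :
    ∃ x, len x = r ∧ 0 < B.H r + kpf G X.g X.K x := by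
  have hout := outside_nonneg hn X hR
  have hr0 : 0 < r := B.hR.trans hr
  by_contra hcon
  push Not at hcon
  refine hO ⟨_, Vale.Agent.P366.isExt_round hn hr0, ?_, ?_⟩
  · intro x hx
    have hx' : r ≤ len x := by
      have h : r ^ 2 ≤ ‖x‖ ^ 2 := by linarith only [hx]
      exact (abs_le_of_sq_le_sq' h (norm_nonneg x)).2
    have h1 : 0 ≤ X.F x := hout x (hr.le.trans hx')
    rcases h1.lt_or_eq with h2 | h2
    · exact h2
    · exact absurd (hR.2 ⟨x, h2.symm, rfl⟩) (not_le.2 (hr.trans_le hx'))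
  · intro x hx
    have hlen : len x = r := by
      have h1 : len x ^ 2 = r ^ 2 := by
        have : ‖x‖ ^ 2 - r ^ 2 = 0 := hx
        unfold len; linarith
      exact (pow_left_inj₀ (norm_nonneg _) hr0.le two_ne_zero).1 h1
    have hxR : B.R ≤ len x := by rw [hlen]; exact hr.le
    have hp := h.ppos x hxR
    have hs : 0 < √(rad X.g x) := Real.sqrt_pos.2 hp
    have e1 : thetaPlus X.g X.K (fun x : E n => ‖x‖ ^ 2 - r ^ 2) x =
        thetaPlus X.g X.K (sqF n r) x := rfl
    rw [e1, h.theta_sqF hxR, h.theta_len hxR, H1_eq_bd0 h hB hxR]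
    have h3 := hcon x hlen
    rw [hlen]
    have h5 : √(rad X.g x) * (B.H r / √(rad X.g x) + trT G X.K x) =
        B.H r + kpf G X.g X.K x := by
      unfold kpf
      field_simp
    rw [← h5] at h3
    exact nonpos_of_mul_nonpos_right h3 hs

/-- **The equality case for class X.** -/
theorem rigidX (hn : 3 ≤ n) (hEmb : StEmb n) (hX3 : StX3 n) (hX6 : StX6 n) (hX7 : StX7 n)
    {X : Exterior n} {G : Field n}
    {B : Bg n} (h : Lapse G X.g B.R) (hB : B.FitsW G) (hL : B.LamOK G) (hAF : X.IsAF)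
    (hDEC : X.DEC) (hT : X.Trapped) {m : ℝ} (hm : X.IsEnergy m)
    (hR : IsGreatest {r | ∃ x, X.F x = 0 ∧ len x = r} B.R) (hd : Dich B G X.g X.K)
    (hO : Outermost X)
    (heq : (X.Amin.toReal / omega n) ^ (((n : ℝ) - 2) / (n - 1)) / 2 = m)
    (hround : (∀ r, B.R < r → B.lam r ^ 2 = ((n : ℝ) - 1) * B.L2 r ∧
        B.Rh r / 4 + B.L2 r = B.lam r ^ 2) →
      (∀ x, B.R < len x → ctr G (IIf G) (IIf G) x = B.II2 (len x)) →
      B.RoundAt G ∧ ∀ r, B.R < r → B.lam r = ((n : ℝ) - 1) / (2 * B.rho r)) :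
    IsSlice m X.g X.K {x | B.R < len x} := by
  have : Nonempty (Fin n) := ⟨⟨0, by omega⟩⟩
  have : Nontrivial (E n) := inferInstance
  have hn3 : (3 : ℝ) ≤ n := by exact_mod_cast hn
  have hN : 1 < (n : ℝ) - 1 := by linarith
  have hout := outside_nonneg (by omega) X hR
  have hKsm := fun i j => (X.smooth i j).2
  have hKsy : ∀ x, B.R ≤ len x → ∀ i j, X.K x i j = X.K x j i := fun x _ i j => (X.symm x i j).2
  have hdec : ∀ x, B.R < len x → covNorm X.g (mom X.g X.K) x ≤ mu X.g X.K x :=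
    fun x hx => hDEC x (hout x hx.le)
  obtain ⟨hlim, hinf⟩ := hX3 h hB.toFits0 hL hAF hm
  obtain ⟨r0, hr0, hz, hgt⟩ := exists_r0 (by omega) h hKsm hd
    (stX4 (by omega) h hB.toFits0 hT hR) hinf
  obtain ⟨hmono, hbd⟩ := monoX hn h hB hKsm hKsy hdec hr0 hz hgt
  have hω : 0 < omega n := by
    rw [Vale.Agent.P366.omega_eq]
    exact Vale.Agent.P366.omega_pos'
  -- the area bound
  have hA : ∀ r, B.R ≤ r → 2 * m ≤ B.rho r ^ ((n : ℝ) - 2) := by
    intro r hr
    have hρ := B.rho_pos hr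
    have hn1 : (n : ℝ) - 1 ≠ 0 := by linarith
    have e : B.rho r ^ ((n : ℝ) - 1) = B.ar r := by
      unfold Bg.rho
      rw [← Real.rpow_mul (B.ar_pos r hr).le, one_div, inv_mul_cancel₀ hn1, Real.rpow_one]
    have hAm : X.Amin ≤ ENNReal.ofReal (omega n * B.rho r ^ ((n : ℝ) - 1)) := by
      rw [e]
      exact areaF (by omega) h hB.toFits0 hR hr
    have h1 : X.Amin.toReal ≤ omega n * B.rho r ^ ((n : ℝ) - 1) := by
      have h2 := ENNReal.toReal_mono ENNReal.ofReal_ne_top hAm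
      rwa [ENNReal.toReal_ofReal (by positivity)] at h2
    have h3 : X.Amin.toReal / omega n ≤ B.rho r ^ ((n : ℝ) - 1) := by
      rw [div_le_iff₀ hω]; linarith
    have h4 : (X.Amin.toReal / omega n) ^ (((n : ℝ) - 2) / (n - 1)) ≤
        (B.rho r ^ ((n : ℝ) - 1)) ^ (((n : ℝ) - 2) / (n - 1)) :=
      Real.rpow_le_rpow (by positivity) h3 (div_nonneg (by linarith) (by linarith))
    have h5 : (B.rho r ^ ((n : ℝ) - 1)) ^ (((n : ℝ) - 2) / (n - 1)) =
        B.rho r ^ ((n : ℝ) - 2) := by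
      rw [← Real.rpow_mul hρ.le]
      congr 1
      field_simp
    rw [h5] at h4
    linarith
  have hle : B.rho r0 ^ ((n : ℝ) - 2) ≤ 2 * m := by
    refine ge_of_tendsto hlim ?_
    filter_upwards [eventually_ge_atTop r0] with r hr
    exact hbd r hr
  have heq0 : B.rho r0 ^ ((n : ℝ) - 2) = 2 * m := le_antisymm hle (hA r0 hr0)
  -- `r0` is the inner radius
  have hr0R : r0 = B.R := by
    by_contra hne
    have hlt : B.R < r0 := lt_of_le_of_ne hr0 (Ne.symm hne)
    have hmin : IsLocalMin B.rho r0 := by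
      filter_upwards [Ioi_mem_nhds hlt] with r hr
      have h1 := hA r (le_of_lt hr)
      rw [← heq0] at h1
      exact (Real.rpow_le_rpow_iff (B.rho_pos hr0).le (B.rho_pos (le_of_lt hr)).le
        (by linarith)).1 h1
    have h1 := hmin.hasDerivAt_eq_zero (B.rho_hasDerivAt hr0)
    have h2 : B.H r0 = 0 := by
      rcases mul_eq_zero.1 h1 with h3 | h3
      · exact absurd h3 (B.rho_pos hr0).ne'
      · rcases div_eq_zero_iff.1 h3 with h4 | h4
        · linarith
        · exact absurd h4 (by linarith)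
    obtain ⟨x, hx, h4⟩ := outX (by omega) h hB.toFits0 hO hR hlt
    have h5 := hz x hx
    rw [h2] at h4 h5
    rw [abs_eq_zero.1 h5] at h4
    norm_num at h4
  subst hr0R
  -- the mass function is constant
  have hconst : ∀ r, B.R < r → B.rho r ^ ((n : ℝ) - 2) *
      (1 - Yav B G X.g X.K r / (4 * B.lam r ^ 2)) = 2 * m := by
    intro r hr
    refine le_antisymm ?_ ?_
    · refine ge_of_tendsto hlim ?_
      filter_upwards [eventually_ge_atTop r] with s hs
      exact hmono (mem_Ici.2 hr.le) (mem_Ici.2 (hr.le.trans hs)) hs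
    · rw [← heq0]; exact hbd r hr.le
  have hC : 0 < 2 * m := by
    rw [← heq0]; exact Real.rpow_pos_of_pos (B.rho_pos hr0) _
  obtain ⟨hYc, hYd⟩ := stX1d h (B := B) hKsm
  have hHp : ∀ r, B.R < r → 0 < B.H r := by
    intro r hr
    obtain ⟨x, hx⟩ := exists_len (n := n) (by omega) (r := r) (B.hR.trans hr).le
    exact (abs_nonneg _).trans_lt ((hgt r hr).1 x hx)
  have e : (n : ℝ) - 1 - 1 = (n : ℝ) - 2 := by ring
  have hkey := mono_eq2 (N := (n : ℝ) - 1) (r0 := B.R) (C := 2 * m) hN (c := fun _ => 1)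
    (H := B.H) (Y := Yav B G X.g X.K) (Y' := Yav' B G X.g X.K) (ρ := B.rho) (R := B.Rh)
    (II2 := B.II2) (lam := B.lam) (L2 := B.L2) (I := B.IT)
    (fun r hr => one_pos) hHp
    (fun r hr => Yav_nonneg h hKsm hr (hgt r hr).1)
    (fun r hr => B.rho_pos hr)
    (fun r hr => B.lam_pos r hr)
    (fun r hr => B.rho_hasDerivAt hr.le)
    hYd
    (fun r hr => by
      rw [one_mul]
      exact stX1 h hB hKsm hKsy hr hdec (hgt r hr).1 (hgt r hr).2)
    (fun r hr => (B.lam_deriv r hr.le).congr_deriv (by rw [one_mul]))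
    (fun r hr => B.hU r hr.le _)
    (fun r hr => B.hL r hr.le)
    (fun r hr => B.hJ r hr.le) hC
    (fun r hr => by rw [e]; exact hconst r hr)
  have hpt : ∀ x, B.R < len x → PtEqX B G X.g X.K x := by
    intro x hx
    obtain ⟨h1, -, -⟩ := hkey (len x) hx
    rw [one_mul] at h1
    exact hX6 h hB hKsm hKsy hx hdec (hgt _ hx).1 (hgt _ hx).2 h1.ge x rfl
  obtain ⟨hro, hlam⟩ := hround (fun r hr => (hkey r hr).2) (fun x hx => (hpt x hx).II0)
  obtain ⟨κ, hκ⟩ := hX7 h hB.toFits0 hKsm hKsy hro hpt (fun x hx => (hgt _ hx).1 x rfl) hz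
  have hκ' : ∀ x, B.R ≤ len x → kpf G X.g X.K x = κ (len x) := hκ
  refine isSlice_of_eq hn hEmb (stB n) h hB.toFits0 hKsm hKsy hκ
    (fun r hr => kap_differentiableAt (by omega) h hKsm hκ hr) hro hlam
    (fun x y hx hxy => rad_const (by omega) h (fun z hz => (hpt z hz).glf0) x y hx hxy)
    (fun x hx => (hpt x hx).mom0) (fun x hx => (hpt x hx).row0) (fun x hx i j => ?_)
    (fun r hr => ?_) (fun r hr => ?_)
  · rw [(hpt x hx).K0 i j, trT_eq h hκ hx.le]
    ring
  · obtain ⟨x, hx⟩ := exists_len (n := n) (by omega) (r := r) (B.hR.trans hr).le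
    have h1 := (hgt r hr).1 x hx
    rw [hκ' x (by rw [hx]; exact hr.le), hx] at h1
    exact h1
  · rw [← hconst r hr]
    have h1 : Yav B G X.g X.K r = Vav X.g r * (B.H r ^ 2 - κ r ^ 2) := by
      unfold Yav Vav av
      have h2 : sphI (fun x => trT G X.K x ^ 2) r =
          sphI (fun x => κ r ^ 2 * (1 / rad X.g x)) r := by
        refine sphI_congr (B.hR.trans hr).le fun x hx => ?_
        have hx' : len x = r := hx
        have hxR : B.R ≤ len x := by rw [hx']; exact hr.le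
        have hp := h.ppos x hxR
        have h3 := hκ x hxR
        rw [hx'] at h3
        rw [← h3, mul_pow, Real.sq_sqrt hp.le]
        field_simp
      rw [h2, Vale.Agent.P366.sphI_const_mul]
      ring
    rw [h1]

end Vale.Agent.T4
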