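import Vale.Agent.P366.T5.X1a355
import Vale.Agent.P366.T5.EqW
import Vale.Agent.P366.T4.StA765
import Vale.Agent.P366.T4.StB68

/-! T5, class X, block X6: equality in the averaged inequality. -/

open MeasureTheory Metric Filter Topology Set
open scoped ContDiff ENNReal Matrix MatrixOrder

noncomputable section
namespace Vale.Agent.T4
open Vale.Agent.P366.Stmt Vale.Agent.P366.T2
open Vale.Agent.P366 (sphI sphM av flux dvg norm_smul_sph integrable_sph sphI_hasDerivAt
  flux_hasDerivAt isOpen_outside sphI_congr sphI_continuousOn)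

variable {n : ℕ}

namespace Lapse

variable {G g : Field n} {R : ℝ} (h : Lapse G g R)
include h

lemma contDiffAt_kpf68 {K : Field n} (hK : ∀ i j, Smooth (fun x => K x i j)) {x : E n}
    (hx : R < len x) : ContDiffAt ℝ ∞ (kpf G g K) x :=
  ((contDiffAt_rad h.gs (h.ne_zero hx.le)).sqrt (h.ppos x hx.le).ne').mul
    (h.contDiffAt_trT hK hx)

lemma contDiffAt_tors68 {K : Field n} (hK : ∀ i j, Smooth (fun x => K x i j)) {x : E n}
    (hx : R < len x) : ContDiffAt ℝ ∞ (tors G g K) x := by
  unfold tors S2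
  exact ContDiffAt.sum fun k _ => ContDiffAt.sum fun l _ => ((h.contDiffAt_Sm hx k l).mul
    (contDiffAt_pd (h.contDiffAt_kpf68 hK hx) k)).mul (h.contDiffAt_bf hK hx.le l)

lemma contDiffAt_prf68 {K : Field n} (hK : ∀ i j, Smooth (fun x => K x i j)) (l : Fin n) {x : E n}
    (hx : R < len x) : ContDiffAt ℝ ∞ (prf G K l) x :=
  (h.contDiffAt_trT hK hx).mul (contDiffAt_row hK l (h.ne_zero hx.le))

end Lapse

section

variable {G g K : Field n} {B : Bg n}

/-- the weight `(H² / p - (tr_S K)²) / H` is `(H² - κ²) / (p H)` -/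
lemma x6_w (h : Lapse G g B.R) {x : E n} (hx : B.R < len x) :
    1 / rad g x * B.H (len x) ^ 2 - trT G K x ^ 2 =
      1 / rad g x * (B.H (len x) ^ 2 - kpf G g K x ^ 2) := by
  have hp := h.ppos x hx.le
  have e : kpf G g K x ^ 2 = rad g x * trT G K x ^ 2 := by
    unfold kpf
    rw [mul_pow, Real.sq_sqrt hp.le]
  rw [e]
  field_simp

lemma x6_wpos (h : Lapse G g B.R) {x : E n} (hx : B.R < len x)
    (hlt : |kpf G g K x| < B.H (len x)) :
    0 < (1 / rad g x * B.H (len x) ^ 2 - trT G K x ^ 2) / B.H (len x) := by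
  have hp := h.ppos x hx.le
  have hHp : 0 < B.H (len x) := (abs_nonneg _).trans_lt hlt
  have hvp : 0 < 1 / rad g x := by positivity
  have hsq : kpf G g K x ^ 2 < B.H (len x) ^ 2 := by
    rw [← sq_abs (kpf G g K x)]
    exact pow_lt_pow_left₀ hlt (abs_nonneg _) two_ne_zero
  rw [x6_w h hx]
  exact div_pos (mul_pos hvp (by linarith)) hHp

/-- the pointwise inequality -/
theorem x6_nonneg (hA : StA n) (hB : StB n) (h : Lapse G g B.R) (hF : B.Fits0 G)
    (hK : ∀ i j, Smooth (fun x => K x i j))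
    (hKs : ∀ x, B.R ≤ len x → ∀ i j, K x i j = K x j i) {x : E n}
    (hx : B.R < len x) (hdec : covNorm g (mom g K) x ≤ mu g K x)
    (hlt : |kpf G g K x| < B.H (len x)) : 0 ≤ ptX B G g K x := by
  have hp := h.ppos x hx.le
  have hHp : 0 < B.H (len x) := (abs_nonneg _).trans_lt hlt
  rw [pointwiseX_id hA hB h hF hK hKs hx hHp]
  obtain ⟨-, -, -, b4⟩ := hB G g K B.R h hK hKs x hx
  have hc := h.S2_cross hx.le (glf g) (bf g K) hlt.le
  have hII2 := h.ctr_comb hx.le K (IIf G) (trT G K x / B.H (len x))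
  have hvp : 0 < 1 / rad g x := by positivity
  have hsp : 0 < √(1 / rad g x) := Real.sqrt_pos.2 hvp
  set s := √(1 / rad g x) with hs
  set H := B.H (len x) with hH
  set κ := kpf G g K x with hκ
  have hcov : 0 ≤ covNorm g (mom g K) x := Real.sqrt_nonneg _
  have hdec2 : s * |∑ j, nx j x * mom g K j x| ≤ covNorm g (mom g K) x := by
    calc s * |∑ j, nx j x * mom g K j x| ≤ s * (√(rad g x) * covNorm g (mom g K) x) :=
          mul_le_mul_of_nonneg_left (b4 (mom g K)) hsp.le
      _ = covNorm g (mom g K) x := by rw [← mul_assoc, sqrt_inv_mul hp, one_mul]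
  have hmu0 : 0 ≤ mu g K x := hcov.trans hdec
  have hT1 : 0 ≤ 2 * H * mu g K x - 2 * κ * (s * ∑ j, nx j x * mom g K j x) := by
    have h1 : κ * (s * ∑ j, nx j x * mom g K j x) ≤ |κ| * (s * |∑ j, nx j x * mom g K j x|) := by
      have := le_abs_self (κ * (s * ∑ j, nx j x * mom g K j x))
      rwa [abs_mul, abs_mul, abs_of_pos hsp] at this
    have h2 : |κ| * (s * |∑ j, nx j x * mom g K j x|) ≤ |κ| * mu g K x :=
      mul_le_mul_of_nonneg_left (hdec2.trans hdec) (abs_nonneg _)
    have h3 : |κ| * mu g K x ≤ H * mu g K x := mul_le_mul_of_nonneg_right hlt.le hmu0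
    linarith
  have hT3 := mul_nonneg hHp.le hII2
  linarith

theorem pointwise_eqX (hA : StA n) (hB : StB n) (h : Lapse G g B.R) (hF : B.Fits0 G)
    (hK : ∀ i j, Smooth (fun x => K x i j))
    (hKs : ∀ x, B.R ≤ len x → ∀ i j, K x i j = K x j i) {x : E n}
    (hx : B.R < len x) (hdec : covNorm g (mom g K) x ≤ mu g K x)
    (hlt : |kpf G g K x| < B.H (len x))
    (hII : B.II2 (len x) ≤ ctr G (IIf G) (IIf G) x)
    (h0 : ptX B G g K x + (1 / rad g x * B.H (len x) ^ 2 - trT G K x ^ 2) / B.H (len x) *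
      (ctr G (IIf G) (IIf G) x - B.II2 (len x)) ≤ 0) :
    PtEqX B G g K x := by
  have hp := h.ppos x hx.le
  have hx0 := h.ne_zero hx.le
  have hHp : 0 < B.H (len x) := (abs_nonneg _).trans_lt hlt
  have hw := x6_wpos h hx hlt
  have hid := pointwiseX_id hA hB h hF hK hKs hx hHp
  rw [hid] at h0
  obtain ⟨-, -, -, b4⟩ := hB G g K B.R h hK hKs x hx
  have hc := h.S2_cross hx.le (glf g) (bf g K) hlt.le
  have hII2 := h.ctr_comb hx.le K (IIf G) (trT G K x / B.H (len x))
  have hS1 := h.S2_nonneg hx.le (fun i => glf g i x)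
  have hS2 := h.S2_nonneg hx.le (fun i => bf g K i x)
  have hS1' : 0 ≤ S2 G (glf g) (glf g) x := hS1
  have hS2' : 0 ≤ S2 G (bf g K) (bf g K) x := hS2
  set s := √(1 / rad g x) with hs
  have hvp : 0 < 1 / rad g x := by positivity
  have hsp : 0 < s := Real.sqrt_pos.2 hvp
  set H := B.H (len x) with hH
  set κ := kpf G g K x with hκ
  set w := (1 / rad g x * H ^ 2 - trT G K x ^ 2) / H with hwd
  have hcov : 0 ≤ covNorm g (mom g K) x := Real.sqrt_nonneg _
  have hdec2 : s * |∑ j, nx j x * mom g K j x| ≤ covNorm g (mom g K) x := by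
    calc s * |∑ j, nx j x * mom g K j x| ≤ s * (√(rad g x) * covNorm g (mom g K) x) :=
          mul_le_mul_of_nonneg_left (b4 (mom g K)) hsp.le
      _ = covNorm g (mom g K) x := by rw [← mul_assoc, sqrt_inv_mul hp, one_mul]
  have hmu0 : 0 ≤ mu g K x := hcov.trans hdec
  have hDEC : 2 * (H - |κ|) * mu g K x ≤
      2 * H * mu g K x - 2 * κ * (s * ∑ j, nx j x * mom g K j x) := by
    have h1 : κ * (s * ∑ j, nx j x * mom g K j x) ≤ |κ| * (s * |∑ j, nx j x * mom g K j x|) := by
      have := le_abs_self (κ * (s * ∑ j, nx j x * mom g K j x))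
      rwa [abs_mul, abs_mul, abs_of_pos hsp] at this
    have h2 : |κ| * (s * |∑ j, nx j x * mom g K j x|) ≤ |κ| * mu g K x :=
      mul_le_mul_of_nonneg_left (hdec2.trans hdec) (abs_nonneg _)
    linarith
  have hT4 : 0 ≤ w * (ctr G (IIf G) (IIf G) x - B.II2 (len x)) :=
    mul_nonneg hw.le (by linarith)
  have hT3 : 0 ≤ H * (ctr G K K x - 2 * (trT G K x / H) * ctr G K (IIf G) x +
      (trT G K x / H) ^ 2 * ctr G (IIf G) (IIf G) x) := mul_nonneg hHp.le hII2
  have hδ : 0 < H - |κ| := by linarith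
  have hT1 : 0 ≤ 2 * (H - |κ|) * mu g K x := by positivity
  -- the four terms vanish
  have hmu : mu g K x = 0 := by
    have h1 : 2 * (H - |κ|) * mu g K x ≤ 0 := by linarith
    have h2 : mu g K x ≤ 0 := by
      by_contra hlt'
      push Not at hlt'
      have : 0 < 2 * (H - |κ|) * mu g K x := by positivity
      linarith
    exact le_antisymm h2 hmu0
  have hcross : 2 * H * (S2 G (glf g) (glf g) x + S2 G (bf g K) (bf g K) x) +
        4 * κ * S2 G (glf g) (bf g K) x ≤ 0 := by linarith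
  have hlow : 2 * (H - |κ|) * (S2 G (glf g) (glf g) x + S2 G (bf g K) (bf g K) x) ≤
      2 * H * (S2 G (glf g) (glf g) x + S2 G (bf g K) (bf g K) x) +
        4 * κ * S2 G (glf g) (bf g K) x := by
    have h1 := h.S2_cross hx.le (glf g) (bf g K) (H := |κ|) (k := κ) le_rfl
    linarith
  have hsum : S2 G (glf g) (glf g) x + S2 G (bf g K) (bf g K) x ≤ 0 := by
    by_contra hlt'
    push Not at hlt'
    have : 0 < 2 * (H - |κ|) * (S2 G (glf g) (glf g) x + S2 G (bf g K) (bf g K) x) := by
      positivity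
    linarith
  have hrow : ∀ i, row K i x = rad K x * nx i x := by
    intro i
    have h1 := h.S2_zero hx.le (u := bf g K) (by linarith) i
    unfold bf at h1
    have e : ∑ k, nx k x * (√(1 / rad g x) * row K k x) = √(1 / rad g x) * rad K x := by
      rw [rad_eq K, Finset.mul_sum]
      exact Finset.sum_congr rfl fun k _ => by ring
    rw [e, mul_assoc] at h1
    exact mul_left_cancel₀ hsp.ne' h1
  refine ⟨hmu, ?_, fun i => ?_, hrow, fun i j => ?_, ?_⟩
  · -- the momentum density
    have h1 : covNorm g (mom g K) x = 0 := le_antisymm (hmu ▸ hdec) hcov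
    unfold covNorm at h1
    have h2 : ∑ i, ∑ j, up g i j x * mom g K i x * mom g K j x =
        S2 G (mom g K) (mom g K) x + (∑ i, nx i x * mom g K i x) ^ 2 / rad g x := by
      have e : ∀ i j, up g i j x * mom g K i x * mom g K j x =
          Sm G i j x * mom g K i x * mom g K j x +
            (nx i x * mom g K i x) * (nx j x * mom g K j x) / rad g x := by
        intro i j
        rw [h.up_g hx.le]
        ring
      simp only [e, Finset.sum_add_distrib]
      unfold S2
      congr 1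
      rw [sq, Finset.sum_mul_sum, Finset.sum_div]
      exact Finset.sum_congr rfl fun i _ => by rw [Finset.sum_div]
    have h3 : 0 ≤ S2 G (mom g K) (mom g K) x := h.S2_nonneg hx.le (fun i => mom g K i x)
    have h4 : 0 ≤ (∑ i, nx i x * mom g K i x) ^ 2 / rad g x := by positivity
    rw [h2] at h1
    have h5 := (Real.sqrt_eq_zero (by linarith)).1 h1
    have h6 : S2 G (mom g K) (mom g K) x ≤ 0 := by linarith
    have h7 : (∑ i, nx i x * mom g K i x) ^ 2 / rad g x = 0 := by linarith
    have h8 : ∑ i, nx i x * mom g K i x = 0 := by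
      rw [div_eq_zero_iff] at h7
      rcases h7 with h7 | h7
      · exact pow_eq_zero_iff (two_ne_zero) |>.1 h7
      · exact absurd h7 hp.ne'
    intro j
    rw [h.S2_zero hx.le h6 j, h8, zero_mul]
  · exact h.S2_zero hx.le (u := glf g) (by linarith) i
  · have h1 : ctr G K K x - 2 * (trT G K x / H) * ctr G K (IIf G) x +
        (trT G K x / H) ^ 2 * ctr G (IIf G) (IIf G) x ≤ 0 := by
      by_contra hlt'
      push Not at hlt'
      have := mul_pos hHp hlt'
      linarith
    have h2 := h.ctr_comb_zero hx.le (hKs x hx.le) (fun i j => IIf_symm h hx i j) h1 i j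
    rw [row_IIf h hx, row_IIf h hx, rad_IIf h hx, hrow, hrow] at h2
    linarith
  · have h1 : w * (ctr G (IIf G) (IIf G) x - B.II2 (len x)) ≤ 0 := by linarith
    have h2 : ctr G (IIf G) (IIf G) x - B.II2 (len x) ≤ 0 := by
      by_contra hlt'
      push Not at hlt'
      have := mul_pos hw hlt'
      linarith
    linarith

/-- **Block X6.** Equality in the averaged inequality. -/
theorem avg_eqX [Nontrivial (E n)] (hA : StA n) (hB : StB n) (h : Lapse G g B.R)
    (hF : B.FitsW G) (hK : ∀ i j, Smooth (fun x => K x i j))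
    (hKs : ∀ x, B.R ≤ len x → ∀ i j, K x i j = K x j i) {r : ℝ} (hr : B.R < r)
    (hdec : ∀ x, B.R < len x → covNorm g (mom g K) x ≤ mu g K x)
    (hlt : ∀ x, len x = r → |kpf G g K x| < B.H r) (htor : av (tors G g K) r ≤ 0)
    (heq : B.H r * B.Rh r - B.H r * Yav B G g K r - Yav B G g K r / B.H r * B.II2 r ≤
      Yav' B G g K r) :
    ∀ x : E n, len x = r → PtEqX B G g K x := by
  intro x₀ hx₀
  have hω : 0 < Vale.Agent.P366.omega n := Vale.Agent.P366.omega_pos'
  have h0 : 0 < r := B.hR.trans hr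
  have hHp : 0 < B.H r := (abs_nonneg _).trans_lt (hlt x₀ hx₀)
  have hZ1 : ∀ l x, B.R < len x → ContDiffAt ℝ ∞ (glf g l) x := fun l x hx =>
    h.contDiffAt_glf hx.le l
  have hZ2 : ∀ l x, B.R < len x → ContDiffAt ℝ ∞ (prf G K l) x := fun l x hx =>
    h.contDiffAt_prf68 hK l hx
  set c1 := 2 * B.H r * deriv B.H r + B.H r * B.H r ^ 2 + B.H r ^ 2 / B.H r * B.II2 r with hc1
  set c2 := B.H r + 1 / B.H r * B.II2 r with hc2
  set C1 : E n → ℝ := fun x => 0 - (-(B.H r ^ 2)) * dN (fun y => 1 / rad g y) x -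
      (-c1) * (1 / rad g x) - (-(2 * B.H r)) * DS G (glf g) x - (-2) * DS G (prf G K) x with hC1
  set C2 : E n → ℝ := fun x => 0 - 1 * dN (fun y => trT G K y ^ 2) x -
      c2 * trT G K x ^ 2 - 2 * tors G g K x - 0 * trT G K x ^ 2 with hC2
  set Fx : E n → ℝ := fun x => (B.H r * leafScal G x - C1 x) - C2 x with hFx
  -- the integrand
  have hval : ∀ x : E n, ‖x‖ = r → Fx x = ptX B G g K x +
      (1 / rad g x * B.H (len x) ^ 2 - trT G K x ^ 2) / B.H (len x) *
        (ctr G (IIf G) (IIf G) x - B.II2 (len x)) := by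
    intro x hx
    have hx' : len x = r := hx
    unfold ptX
    rw [hx']
    simp only [hFx, hC1, hC2, hc1, hc2]
    ring
  have hpt : ∀ x : E n, ‖x‖ = r → 0 ≤ Fx x := by
    intro x hx
    rw [hval x hx]
    have hx' : len x = r := hx
    have hxR : B.R < len x := by rw [hx']; exact hr
    have hltx : |kpf G g K x| < B.H (len x) := by rw [hx']; exact hlt x hx'
    have hp := x6_nonneg hA hB h hF.toFits0 hK hKs hxR (hdec x hxR) hltx
    have h2 := hF.hII x hxR
    have h3 := mul_nonneg (x6_wpos h hxR hltx).le (sub_nonneg.2 h2)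
    linarith
  have hcd : ContDiffOn ℝ 1 (fun y : E n => trT G K y ^ 2) {x : E n | B.R < ‖x‖} := fun x hx =>
    (((h.contDiffAt_trT hK hx).pow 2).of_le (by simp)).contDiffWithinAt
  have c1' : ContinuousOn (dN fun y => 1 / rad g y) {x : E n | B.R < ‖x‖} :=
    contOn_dN h.hR.le h.contDiffOn_v
  have c2' : ContinuousOn (fun y : E n => 1 / rad g y) {x : E n | B.R < ‖x‖} :=
    h.contDiffOn_v.continuousOn
  have c3' := h.contOn_DS hZ1
  have c4' := h.contOn_DS hZ2
  have d1 : ContinuousOn (dN fun y => trT G K y ^ 2) {x : E n | B.R < ‖x‖} :=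
    contOn_dN h.hR.le hcd
  have d2 : ContinuousOn (fun y : E n => trT G K y ^ 2) {x : E n | B.R < ‖x‖} :=
    hcd.continuousOn
  have d3 : ContinuousOn (tors G g K) {x : E n | B.R < ‖x‖} := fun x hx =>
    (h.contDiffAt_tors68 hK hx).continuousAt.continuousWithinAt
  have hcomb1 : ContinuousOn C1 {x : E n | B.R < ‖x‖} :=
    (((continuousOn_const.sub (continuousOn_const.mul c1')).sub
      (continuousOn_const.mul c2')).sub (continuousOn_const.mul c3')).sub
        (continuousOn_const.mul c4')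
  have hcomb2 : ContinuousOn C2 {x : E n | B.R < ‖x‖} :=
    (((continuousOn_const.sub (continuousOn_const.mul d1)).sub
      (continuousOn_const.mul d2)).sub (continuousOn_const.mul d3)).sub
        (continuousOn_const.mul d2)
  have hL : ContinuousOn (fun x => B.H r * leafScal G x) {x : E n | B.R < ‖x‖} :=
    continuousOn_const.mul h.contOn_leafScal
  have hFc : ContinuousOn Fx {x : E n | B.R < ‖x‖} := (hL.sub hcomb1).sub hcomb2
  have e1 : sphI (dN fun y => 1 / rad g y) r = Vale.Agent.P366.omega n * Vav' g r := by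
    unfold Vav' av
    field_simp
  have e2 : sphI (fun y => 1 / rad g y) r = Vale.Agent.P366.omega n * Vav g r := by
    unfold Vav av
    field_simp
  have e3 : ∀ f : E n → ℝ, sphI f r = Vale.Agent.P366.omega n * av f r := by
    intro f
    unfold av
    field_simp
  have hIv : sphI Fx r = Vale.Agent.P366.omega n *
      (B.H r * av (leafScal G) r - Yav' B G g K r - B.H r * Yav B G g K r -
        Yav B G g K r / B.H r * B.II2 r + 2 * av (tors G g K) r) := by
    rw [hFx, Vale.Agent.P366.sphI_sub (u := fun x => B.H r * leafScal G x - C1 x) (v := C2)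
        h.hR.le hr (hL.sub hcomb1) hcomb2,
      Vale.Agent.P366.sphI_sub (u := fun x => B.H r * leafScal G x) (v := C1)
        h.hR.le hr hL hcomb1, hC1, hC2,
      sphI_comb h.hR.le hr c1' c2' c3' c4', sphI_comb h.hR.le hr d1 d2 d3 d2,
      h.sphI_DS hZ1 hr, h.sphI_DS hZ2 hr, Vale.Agent.P366.sphI_const_mul, e1, e2,
      e3 (fun x => leafScal G x), e3 (dN fun y => trT G K y ^ 2), e3 (fun y => trT G K y ^ 2),
      e3 (tors G g K)]
    unfold Yav' Yav
    rw [hc1, hc2]
    ring
  have hI0 : 0 ≤ sphI Fx r := integral_nonneg fun θ => hpt _ (norm_smul_sph h0.le θ)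
  have h5 : B.H r * av (leafScal G) r ≤ B.H r * B.Rh r :=
    mul_le_mul_of_nonneg_left (hF.hRh r hr) hHp.le
  have h6 : B.H r * av (leafScal G) r - Yav' B G g K r - B.H r * Yav B G g K r -
        Yav B G g K r / B.H r * B.II2 r + 2 * av (tors G g K) r ≤ 0 := by linarith
  have hI1 : sphI Fx r ≤ 0 := by
    rw [hIv]
    exact mul_nonpos_of_nonneg_of_nonpos hω.le h6
  have hxr : ‖x₀‖ = r := hx₀
  have hz := eq_zero_of_sphI h.hR.le hr hFc hpt hI1 hxr
  rw [hval x₀ hxr] at hz
  have hxR : B.R < len x₀ := by rw [hx₀]; exact hr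
  exact pointwise_eqX hA hB h hF.toFits0 hK hKs hxR (hdec x₀ hxR)
    (by rw [hx₀]; exact hlt x₀ hx₀) (hF.hII x₀ hxR) hz.le

/-- **Block X6.** -/
theorem stX6 (hn : 3 ≤ n) : StX6 n := by
  intro G g K B h hF hK hKs r hr hdec hlt htor heq
  have : NeZero n := ⟨by omega⟩
  have : Fact (3 ≤ n) := ⟨hn⟩
  have : Nontrivial (E n) := inferInstance
  exact avg_eqX (stA n) (stB n) h hF hK hKs hr hdec hlt htor heq

end

end Vale.Agent.T4
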