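import Vale.Agent.P366.T5.DefsX
import Vale.Agent.P366.T2.N1

/-! T5, class X, block X7: in the equality case `√p tr_S K` is radial. -/

open MeasureTheory Metric Filter Topology Set
open scoped ContDiff ENNReal Matrix

noncomputable section
namespace Vale.Agent.T4
open Vale.Agent.P366.Stmt Vale.Agent.P366.T2

variable {n : ℕ}

section

variable {G g K : Field n} {B : Bg n}

lemma nx_smul92 {e : E n} (he : ‖e‖ = 1) {r : ℝ} (hr : 0 < r) (i : Fin n) :
    nx i (r • e) = e i := by
  unfold nx
  rw [smul_e_len he hr.le]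
  simp only [PiLp.smul_apply, smul_eq_mul]
  field_simp

lemma hasDerivAt_ray92 {f : E n → ℝ} {e : E n} (he : ‖e‖ = 1) {r : ℝ} (hr : 0 < r)
    (hf : DifferentiableAt ℝ f (r • e)) : HasDerivAt (fun s : ℝ => f (s • e)) (dN f (r • e)) r := by
  have h1 : HasDerivAt (fun s : ℝ => s • e) e r := by
    simpa using (hasDerivAt_id r).smul_const e
  have h2 := (hf.hasFDerivAt.comp_hasDerivAt r h1)
  refine h2.congr_deriv ?_
  rw [fderiv_eq_sum_pd hf]
  unfold dN
  refine Finset.sum_congr rfl fun i _ => ?_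
  rw [nx_smul92 he hr]

/-- the metric `g` of the equality case -/
lemma g_form92 (h : Lapse G g B.R) (hr : B.RoundAt G) {x : E n} (hx : B.R < len x) (i j : Fin n) :
    g x i j = (B.rho (len x) / len x) ^ 2 * (if i = j then 1 else 0) +
      (rad g x - (B.rho (len x) / len x) ^ 2) * (nx i x * nx j x) := by
  rw [h.eq x hx.le i j, hr x hx i j]
  ring

/-- **the scalar curvature is radial** -/
theorem scal_rad92 (h : Lapse G g B.R) (hr : B.RoundAt G)
    (hP : ∀ x y, B.R < len x → len x = len y → rad g x = rad g y) {x y : E n}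
    (hx : B.R < len x) (hxy : len x = len y) : scal g x = scal g y := by
  set ψ : E n ≃ₗᵢ[ℝ] E n := (ℝ ∙ (x - y))ᗮ.reflection with hψ
  have hψx : ψ x = y := Submodule.reflection_sub (show ‖x‖ = ‖y‖ from hxy)
  have hlen : ∀ z, len (ψ z) = len z := fun z => ψ.norm_map z
  have hcd : ContDiff ℝ ∞ (fun z => ψ z) := ψ.contDiff
  have hpd : ∀ (i a : Fin n) (z : E n), pd i (fun w => ψ w a) z =
      ψ (EuclideanSpace.single i 1) a := by
    intro i a z
    have h1 : HasFDerivAt (fun w => ψ w a)
        ((EuclideanSpace.proj (𝕜 := ℝ) a).comp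
          (ψ.toContinuousLinearEquiv : E n →L[ℝ] E n)) z :=
      ((EuclideanSpace.proj (𝕜 := ℝ) a).comp
          (ψ.toContinuousLinearEquiv : E n →L[ℝ] E n)).hasFDerivAt
    exact (h1.hasLineDerivAt (EuclideanSpace.single i (1 : ℝ))).lineDeriv
  have hin : ∀ u v : E n, ∑ a, ψ u a * ψ v a = ∑ a, u a * v a := by
    intro u v
    have h1 := ψ.inner_map_map u v
    rw [PiLp.inner_apply, PiLp.inner_apply] at h1
    simp only [RCLike.inner_apply, conj_trivial] at h1
    have e1 : ∑ a, ψ u a * ψ v a = ∑ a, ψ v a * ψ u a := Finset.sum_congr rfl fun a _ => mul_comm _ _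
    have e2 : ∑ a, u a * v a = ∑ a, v a * u a := Finset.sum_congr rfl fun a _ => mul_comm _ _
    rw [e1, e2, h1]
  have hdel : ∀ i j : Fin n, ∑ a, ψ (EuclideanSpace.single i 1) a *
      ψ (EuclideanSpace.single j 1) a = if i = j then 1 else 0 := by
    intro i j
    rw [hin]
    have e : ∀ a, (EuclideanSpace.single i (1 : ℝ) : E n) a *
        (EuclideanSpace.single j (1 : ℝ) : E n) a =
        if a = i then (if a = j then 1 else 0) else 0 := by
      intro a
      rw [PiLp.single_apply, PiLp.single_apply]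
      split_ifs <;> simp
    simp only [e, Finset.sum_ite_eq', Finset.mem_univ, if_true]
  have hnx : ∀ (i : Fin n) (z : E n), ∑ a, ψ (EuclideanSpace.single i 1) a * nx a (ψ z) =
      nx i z := by
    intro i z
    have e1 : ∀ a, ψ (EuclideanSpace.single i 1) a * nx a (ψ z) =
        (ψ (EuclideanSpace.single i 1) a * ψ z a) / len z := by
      intro a
      unfold nx
      rw [hlen]; ring
    simp only [e1, ← Finset.sum_div]
    rw [hin]
    unfold nx
    simp [PiLp.single_apply]
  have hy : B.R < len y := by rw [← hxy]; exact hx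
  have key := scal_pull (Φ := fun z => ψ z) (g := g) (g' := g) (x := x) hcd.contDiffAt ?_ h.gs
    ?_ ?_ h.gs ?_
  · rw [key, hψx]
  · -- the determinant
    intro hdet
    have h2 : (Matrix.of fun a i => pd i (fun y => ψ y a) x)ᵀ *
        (Matrix.of fun a i => pd i (fun y => ψ y a) x) = 1 := by
      ext i j
      rw [Matrix.mul_apply]
      simp only [Matrix.transpose_apply, Matrix.of_apply, hpd]
      rw [hdel, Matrix.one_apply]
    have h3 := congrArg Matrix.det h2
    rw [Matrix.det_mul, Matrix.det_transpose, hdet, Matrix.det_one] at h3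
    simp at h3
  · rw [hψx]
    filter_upwards [(isOpen_out B.R).mem_nhds hy] with z hz
    exact h.g_symm (le_of_lt hz)
  · rw [hψx]
    exact h.g_det_ne hy.le
  · filter_upwards [(isOpen_out B.R).mem_nhds hx] with z hz i j
    have hz' : B.R < len z := hz
    have hz2 : B.R < len (ψ z) := by rw [hlen]; exact hz'
    have e1 : ∀ a b, pd i (fun z => ψ z a) z * pd j (fun z => ψ z b) z * g (ψ z) a b =
        (B.rho (len z) / len z) ^ 2 * (ψ (EuclideanSpace.single i 1) a *
          (ψ (EuclideanSpace.single j 1) b * (if a = b then 1 else 0))) +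
        (rad g z - (B.rho (len z) / len z) ^ 2) * ((ψ (EuclideanSpace.single i 1) a *
          nx a (ψ z)) * (ψ (EuclideanSpace.single j 1) b * nx b (ψ z))) := by
      intro a b
      rw [hpd, hpd, g_form92 h hr hz2, hlen, hP (ψ z) z hz2 (hlen z)]
      ring
    simp only [e1, Finset.sum_add_distrib, ← Finset.mul_sum]
    rw [← Finset.sum_mul, hnx, hnx, g_form92 h hr hz']
    simp only [mul_ite, mul_one, mul_zero, Finset.sum_ite_eq, Finset.mem_univ, if_true]
    rw [hdel]
    split_ifs <;> ring

/-- **the momentum constraint** in the equality case -/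
theorem dN_P92 (h : Lapse G g B.R) (hF : B.Fits0 G)
    (hK : ∀ i j, Smooth (fun x => K x i j))
    (hKs : ∀ x, B.R ≤ len x → ∀ i j, K x i j = K x j i) (hr : B.RoundAt G)
    (hpt : ∀ x, B.R < len x → PtEqX B G g K x) {x : E n}
    (hx : B.R < len x) (hH : 0 < B.H (len x)) :
    dN (trT G K) x = rad K x / rad g x * B.H (len x) -
      trT G K x * B.H (len x) / ((n : ℝ) - 1) ∧
    scal g x = -2 * (rad K x / rad g x) * trT G K x - trT G K x ^ 2 +
      trT G K x ^ 2 / ((n : ℝ) - 1) := by
  obtain ⟨b1, b2, b3, b4⟩ := stB n G g K B.R h hK hKs x hx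
  set t := trT G K x / B.H (len x) with ht
  have hrow : ∀ y, B.R < len y → ∀ i, row K i y = rad K y * nx i y :=
    fun y hy => (hpt y hy).row0
  have hKx := (hpt x hx).K0
  have hS2 : ∀ w : Fin n → E n → ℝ, S2 G w (row K) x = 0 := by
    intro w
    unfold S2
    have e : ∀ k l, Sm G k l x * w k x * row K l x =
        rad K x * w k x * (Sm G k l x * nx l x) := by
      intro k l; rw [hrow x hx l]; ring
    simp only [e, ← Finset.mul_sum, h.Sm_nx hx.le, mul_zero, Finset.sum_const_zero]
  have hDS : DS G (row K) x = 0 := by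
    unfold DS
    have e : ∀ k, pd k (fun y => ∑ l, Sm G k l y * row K l y) x = 0 := by
      intro k
      have hev : (fun y => ∑ l, Sm G k l y * row K l y) =ᶠ[𝓝 x] fun _ => (0 : ℝ) := by
        filter_upwards [(isOpen_out B.R).mem_nhds hx] with y hy
        have hy' : B.R < len y := hy
        have e : ∀ l, Sm G k l y * row K l y = rad K y * (Sm G k l y * nx l y) := by
          intro l; rw [hrow y hy' l]; ring
        simp only [e, ← Finset.mul_sum, h.Sm_nx hy'.le, mul_zero]
      exact (HP.congr (HP.const k (0 : ℝ) x) hev).pd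
    simp only [e, Finset.sum_const_zero]
  rw [hS2, hS2, hDS, H1_eq0 hF hx] at b3
  rw [hS2] at b2
  have hspl : ∀ C : Field n, ctr G K C x = t * ctr G (IIf G) C x := by
    intro C
    have e1 : ctr G K C x =
        ctr G (fun y i j => rad K x * (nx i x * nx j x)) C x + t * ctr G (IIf G) C x := by
      unfold ctr
      simp only [Finset.mul_sum, ← Finset.sum_add_distrib]
      refine Finset.sum_congr rfl fun i _ => Finset.sum_congr rfl fun j _ =>
        Finset.sum_congr rfl fun k _ => Finset.sum_congr rfl fun l _ => ?_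
      rw [hKx i j]; ring
    rw [e1, h.ctr_nn hx.le (rad K x) _ _ (fun i j => rfl), zero_add]
  have hsymm : ctr G (IIf G) K x = ctr G K (IIf G) x := by
    unfold ctr
    have e1 : ∀ i j k l, Sm G i k x * Sm G j l x * IIf G x i j * K x k l =
        Sm G k i x * Sm G l j x * K x k l * IIf G x i j := by
      intro i j k l
      rw [h.Sm_symm hx.le i k, h.Sm_symm hx.le j l]; ring
    simp only [e1]
    have e2 : ∀ f : Fin n → Fin n → Fin n → Fin n → ℝ,
        ∑ i, ∑ j, ∑ k, ∑ l, f k l i j = ∑ k, ∑ l, ∑ i, ∑ j, f k l i j := by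
      intro f
      calc ∑ i, ∑ j, ∑ k, ∑ l, f k l i j = ∑ i, ∑ k, ∑ j, ∑ l, f k l i j :=
            Finset.sum_congr rfl fun i _ => Finset.sum_comm
        _ = ∑ k, ∑ i, ∑ j, ∑ l, f k l i j := Finset.sum_comm
        _ = ∑ k, ∑ i, ∑ l, ∑ j, f k l i j :=
            Finset.sum_congr rfl fun k _ => Finset.sum_congr rfl fun i _ => Finset.sum_comm
        _ = ∑ k, ∑ l, ∑ i, ∑ j, f k l i j :=
            Finset.sum_congr rfl fun k _ => Finset.sum_comm
    exact e2 fun k l i j => Sm G k i x * Sm G l j x * K x k l * IIf G x i j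
  have hII := ctr_II_round h hF hr hx
  have hKI : ctr G K (IIf G) x = t * (B.H (len x) ^ 2 / ((n : ℝ) - 1)) := by
    rw [hspl, hII]
  have hKK : ctr G K K x = t * (t * (B.H (len x) ^ 2 / ((n : ℝ) - 1))) := by
    rw [hspl, hsymm, hKI]
  have hth : t * B.H (len x) = trT G K x := by
    rw [ht]; field_simp
  rw [hKI] at b3
  rw [hKK] at b2
  simp only [(hpt x hx).mom0, mul_zero, Finset.sum_const_zero] at b3
  have hmu := (hpt x hx).mu0
  unfold mu at hmu
  rw [b1, b2] at hmu
  refine ⟨?_, ?_⟩
  · have e1 : t * (B.H (len x) ^ 2 / ((n : ℝ) - 1)) =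
        trT G K x * B.H (len x) / ((n : ℝ) - 1) := by
      rw [← hth]; ring
    rw [e1] at b3
    linarith
  · have e1 : t * (t * (B.H (len x) ^ 2 / ((n : ℝ) - 1))) = trT G K x ^ 2 / ((n : ℝ) - 1) := by
      rw [← hth]; ring
    rw [e1] at hmu
    linear_combination 2 * hmu

/-- the derivative of `P²` along the rays -/
theorem dN_Psq92 (h : Lapse G g B.R) (hF : B.Fits0 G)
    (hK : ∀ i j, Smooth (fun x => K x i j))
    (hKs : ∀ x, B.R ≤ len x → ∀ i j, K x i j = K x j i) (hr : B.RoundAt G)
    (hpt : ∀ x, B.R < len x → PtEqX B G g K x) (hH : ∀ r, B.R < r → 0 < B.H r) {e : E n}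
    (he : ‖e‖ = 1) {r : ℝ} (hr' : B.R < r) :
    HasDerivAt (fun s : ℝ => trT G K (s • e) ^ 2)
      (-B.H r * scal g (r • e) - B.H r * trT G K (r • e) ^ 2 -
        B.H r * trT G K (r • e) ^ 2 / ((n : ℝ) - 1)) r := by
  have h0 : 0 < r := B.hR.trans hr'
  have hl : len (r • e) = r := smul_e_len he h0.le
  have hx : B.R < len (r • e) := by rw [hl]; exact hr'
  have h1 := hasDerivAt_ray92 he h0 ((h.contDiffAt_trT hK hx).differentiableAt (by simp))
  obtain ⟨h2, h3⟩ := dN_P92 h hF hK hKs hr hpt hx (hH _ hx)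
  rw [hl] at h2
  refine (h1.fun_pow 2).congr_deriv ?_
  rw [h2, h3]
  simp only [Nat.cast_ofNat, Nat.add_one_sub_one, pow_one]
  ring

/-- **`P²` is radial** -/
theorem Psq_rad92 (hn : 3 ≤ n) (h : Lapse G g B.R) (hF : B.Fits0 G)
    (hK : ∀ i j, Smooth (fun x => K x i j))
    (hKs : ∀ x, B.R ≤ len x → ∀ i j, K x i j = K x j i) (hr : B.RoundAt G)
    (hpt : ∀ x, B.R < len x → PtEqX B G g K x) (hH : ∀ r, B.R < r → 0 < B.H r)
    (hP : ∀ x y, B.R < len x → len x = len y → rad g x = rad g y)
    (hbd : ∀ x y, len x = B.R → len y = B.R → trT G K x ^ 2 = trT G K y ^ 2)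
    {e f : E n} (he : ‖e‖ = 1) (hf : ‖f‖ = 1) {r : ℝ} (hr' : B.R ≤ r) :
    trT G K (r • e) ^ 2 = trT G K (r • f) ^ 2 := by
  have hR := B.hR
  have hn3 : (3 : ℝ) ≤ n := by exact_mod_cast hn
  have hN : (n : ℝ) - 1 ≠ 0 := by linarith
  rcases hr'.eq_or_lt with rfl | hlt
  · exact hbd _ _ (smul_e_len he hR.le) (smul_e_len hf hR.le)
  set d : ℝ → ℝ := fun s => B.rho s ^ n * (trT G K (s • e) ^ 2 - trT G K (s • f) ^ 2) with hd
  have hdd : ∀ s ∈ Ioo B.R r, HasDerivAt d 0 s := by
    intro s hs
    have hs0 : 0 < s := hR.trans hs.1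
    have h1 := dN_Psq92 h hF hK hKs hr hpt hH he hs.1
    have h2 := dN_Psq92 h hF hK hKs hr hpt hH hf hs.1
    have h3 : scal g (s • e) = scal g (s • f) :=
      scal_rad92 h hr hP (by rw [smul_e_len he hs0.le]; exact hs.1)
        (by rw [smul_e_len he hs0.le, smul_e_len hf hs0.le])
    rw [h3] at h1
    have h4 := (B.rho_hasDerivAt hs.1.le).fun_pow n
    refine (h4.fun_mul (h1.fun_sub h2)).congr_deriv ?_
    have e1 : (n : ℝ) * B.rho s ^ (n - 1) * (B.rho s * (1 * B.H s / ((n : ℝ) - 1))) =
        n * B.rho s ^ n * (B.H s / ((n : ℝ) - 1)) := by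
      have : B.rho s ^ n = B.rho s ^ (n - 1) * B.rho s := by
        rw [← pow_succ]; congr 1; omega
      rw [this]; ring
    rw [e1]
    field_simp
    ring
  have hcP : ∀ e : E n, ‖e‖ = 1 → ContinuousOn (fun s : ℝ => trT G K (s • e)) (Icc B.R r) := by
    intro e he s hs
    have hs0 : 0 ≤ s := hR.le.trans hs.1
    have h2 : ContinuousAt (trT G K) (s • e) :=
      trT_continuousAt h hK (by rw [smul_e_len he hs0]; exact hs.1)
    exact (ContinuousAt.comp (f := fun s : ℝ => s • e) h2
      (continuous_id.smul continuous_const).continuousAt).continuousWithinAt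
  have hdc : ContinuousOn d (Icc B.R r) := by
    refine ContinuousOn.mul ?_ (((hcP e he).pow 2).sub ((hcP f hf).pow 2))
    exact fun s hs => ((B.rho_hasDerivAt hs.1).continuousAt.pow n).continuousWithinAt
  obtain ⟨c, hc, hc2⟩ := exists_hasDerivAt_eq_slope d (fun _ => 0) hlt hdc hdd
  have h5 : d r = d B.R := by
    have h6 : r - B.R ≠ 0 := by linarith
    have h7 : d r - d B.R = 0 := by
      have := hc2.symm
      rw [div_eq_zero_iff] at this
      exact this.resolve_right h6
    linarith
  have h6 : d B.R = 0 := by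
    simp only [hd]
    rw [hbd _ _ (smul_e_len he hR.le) (smul_e_len hf hR.le)]
    ring
  rw [h6] at h5
  simp only [hd] at h5
  have h7 : B.rho r ^ n ≠ 0 := (pow_pos (B.rho_pos hr') n).ne'
  have := (mul_eq_zero.1 h5).resolve_left h7
  linarith

end

/-- **Block X7.** -/
theorem stX7 (hn : 3 ≤ n) : StX7 n := by
  intro G g K B h hF hK hKs hr hpt hlt hbd
  have hR := B.hR
  have : Nonempty (Fin n) := ⟨⟨0, by omega⟩⟩
  have hH : ∀ r, B.R < r → 0 < B.H r := by
    intro r hr'
    have h0 : 0 < r := hR.trans hr'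
    have hl : len (ry ⟨0, by omega⟩ r : E n) = r := len_ry _ h0
    have := hlt (ry ⟨0, by omega⟩ r) (by rw [hl]; exact hr')
    rw [hl] at this
    exact (abs_nonneg _).trans_lt this
  have hP : ∀ x y : E n, B.R < len x → len x = len y → rad g x = rad g y :=
    fun x y hx hxy => rad_const (by omega) h (fun z hz => (hpt z hz).glf0) x y hx hxy
  -- the lapse at the inner radius
  have hP' : ∀ x y : E n, B.R ≤ len x → len x = len y → rad g x = rad g y := by
    intro x y hx hxy
    rcases hx.eq_or_lt with hx0 | hx0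
    · -- by continuity
      have hcx : ∀ z : E n, len z = B.R →
          Tendsto (fun s : ℝ => rad g (s • z)) (𝓝[>] 1) (𝓝 (rad g z)) := by
        intro z hz
        have hz0 : z ≠ 0 := ne_zero_of_len hR hz.ge
        have h1 : ContinuousAt (rad g) ((1 : ℝ) • z) := by
          rw [one_smul]; exact (contDiffAt_rad h.gs hz0).continuousAt
        have h2 : ContinuousAt (fun s : ℝ => rad g (s • z)) 1 :=
          ContinuousAt.comp (f := fun s : ℝ => s • z) h1
            (continuous_id.smul continuous_const).continuousAt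
        have h3 := h2.tendsto.mono_left (nhdsWithin_le_nhds (s := Ioi 1))
        simpa using h3
      refine tendsto_nhds_unique (hcx x hx0.symm) ((hcx y (by rw [← hxy, hx0])).congr' ?_)
      filter_upwards [self_mem_nhdsWithin] with s hs
      have hs1 : (1 : ℝ) < s := hs
      have hl : ∀ z : E n, len (s • z) = s * len z := by
        intro z
        unfold len
        rw [norm_smul, Real.norm_eq_abs, abs_of_pos (by linarith)]
      refine hP _ _ ?_ ?_
      · rw [hl, ← hxy, ← hx0]; nlinarith
      · rw [hl, hl, hxy]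
    · exact hP x y hx0 hxy
  have hbd2 : ∀ x y : E n, len x = B.R → len y = B.R → trT G K x ^ 2 = trT G K y ^ 2 := by
    intro x y hx hy
    have h1 := hbd x hx
    have h2 := hbd y hy
    have h3 : kpf G g K x ^ 2 = kpf G g K y ^ 2 := by
      rw [← sq_abs, h1, ← h2, sq_abs]
    unfold kpf at h3
    rw [mul_pow, mul_pow, Real.sq_sqrt (h.ppos x hx.ge).le, Real.sq_sqrt (h.ppos y hy.ge).le,
      hP' x y hx.ge (by rw [hx, hy])] at h3
    exact mul_left_cancel₀ (h.ppos y hy.ge).ne' h3
  -- the square of `κ` is radial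
  have hsq : ∀ x y : E n, B.R ≤ len x → len x = len y → kpf G g K x ^ 2 = kpf G g K y ^ 2 := by
    intro x y hx hxy
    have hx0 : 0 < len x := hR.trans_le hx
    have hy0 : 0 < len y := by rw [← hxy]; exact hx0
    have ex : len x • ((1 / len x) • x) = x := by
      rw [smul_smul, mul_one_div, div_self hx0.ne', one_smul]
    have ey : len x • ((1 / len y) • y) = y := by
      rw [hxy, smul_smul, mul_one_div, div_self hy0.ne', one_smul]
    have nx1 : ‖(1 / len x) • x‖ = 1 := by
      rw [norm_smul, Real.norm_eq_abs, abs_of_pos (by positivity)]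
      show 1 / len x * len x = 1
      field_simp
    have ny1 : ‖(1 / len y) • y‖ = 1 := by
      rw [norm_smul, Real.norm_eq_abs, abs_of_pos (by positivity)]
      show 1 / len y * len y = 1
      field_simp
    have h1 := Psq_rad92 hn h hF hK hKs hr hpt hH hP hbd2 nx1 ny1 hx
    rw [ex, ey] at h1
    unfold kpf
    rw [mul_pow, mul_pow, h1, hP' x y hx hxy]
  refine ⟨fun r => kpf G g K (ry ⟨0, by omega⟩ r), fun x hx => ?_⟩
  have hx0 : 0 < len x := hR.trans_le hx
  show kpf G g K x = kpf G g K (ry ⟨0, by omega⟩ (len x))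
  have hly : len (ry ⟨0, by omega⟩ (len x) : E n) = len x := len_ry _ hx0
  by_cases hz : kpf G g K x = 0
  · have := hsq x (ry ⟨0, by omega⟩ (len x)) hx hly.symm
    rw [hz, zero_pow two_ne_zero] at this
    rw [hz]
    exact (pow_eq_zero_iff two_ne_zero).1 this.symm |>.symm
  -- connectedness of the sphere
  have hrank : 1 < Module.rank ℝ (E n) := by
    rw [← Module.finrank_eq_rank, finrank_euclideanSpace, Fintype.card_fin]
    exact_mod_cast (show 1 < n by omega)
  have hconn : IsPreconnected (sphere (0 : E n) (len x)) := isPreconnected_sphere hrank 0 _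
  have hc : ContinuousOn (kpf G g K) (sphere (0 : E n) (len x)) := by
    intro z hz'
    have hz2 : len z = len x := by simpa [len] using hz'
    exact (kfun_continuousAt h hK (by rw [hz2]; exact hx)).continuousWithinAt
  have hmem : ∀ z : E n, len z = len x → z ∈ sphere (0 : E n) (len x) := by
    intro z hz'
    simpa [len] using hz'
  have hval := (hconn.image _ hc)
  have hne : ∀ z : E n, len z = len x → kpf G g K z ≠ 0 := by
    intro z hz' h0
    have := hsq x z hx hz'.symm
    rw [h0, zero_pow two_ne_zero] at this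
    exact hz ((pow_eq_zero_iff two_ne_zero).1 this)
  have hord := hval.ordConnected
  have hy := sq_eq_sq_iff_eq_or_eq_neg.1 (hsq x (ry ⟨0, by omega⟩ (len x)) hx hly.symm)
  rcases hy with hy | hy
  · exact hy
  exfalso
  have hm1 : kpf G g K x ∈ kpf G g K '' sphere (0 : E n) (len x) := ⟨x, hmem x rfl, rfl⟩
  have hm2 : kpf G g K (ry ⟨0, by omega⟩ (len x)) ∈ kpf G g K '' sphere (0 : E n) (len x) :=
    ⟨_, hmem _ hly, rfl⟩
  have h0mem : (0 : ℝ) ∈ kpf G g K '' sphere (0 : E n) (len x) := by
    rcases lt_or_gt_of_ne hz with hneg | hpos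
    · exact hord.out hm1 hm2 ⟨hneg.le, by rw [hy] at hneg; linarith⟩
    · exact hord.out hm2 hm1 ⟨by rw [hy] at hpos; linarith, hpos.le⟩
  obtain ⟨z, hz1, hz2⟩ := h0mem
  exact hne z (by simpa [len] using hz1) hz2

end Vale.Agent.T4
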