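import Vale.Agent.P366.T5.DefsX
import Vale.Agent.P366.T5.Final5
import Vale.Agent.P366.T5.TA92

/-! T5, class X, block X8: the condition on `K` in terms of the problem. -/

open MeasureTheory Metric Filter Topology Set
open scoped ContDiff ENNReal Matrix

noncomputable section
namespace Vale.Agent.T4
open Vale.Agent.P366.Stmt Vale.Agent.P366.T2
open Vale.Agent.P366 (sphI sphM av sphI_congr sphI_const)
open Vale.Agent.C92 (pd_congr_outside pd_len)

variable {n : ℕ}

section

variable {g : Field n} {x : E n}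

lemma contDiffAt_up92 (hg : ∀ i j, Smooth (fun x => g x i j)) (hd : (mat g x).det ≠ 0)
    (i j : Fin n) : ContDiffAt ℝ ∞ (up g i j) x := by
  have e : up g i j = fun y => (mat g y).det⁻¹ *
      ((mat g y).updateRow j (Pi.single i 1)).det := by
    funext y
    change (mat g y)⁻¹ i j = _
    rw [Matrix.inv_def, Ring.inverse_eq_inv', Matrix.smul_apply, smul_eq_mul,
      Matrix.adjugate_apply]
  rw [e]
  refine ContDiffAt.mul (ContDiffAt.inv (Vale.Agent.P366.Bridge.contDiffAt_det (A := mat g)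
    fun i j => (hg i j).contDiffAt) hd) ?_
  refine Vale.Agent.P366.Bridge.contDiffAt_det
    (A := fun y => (mat g y).updateRow j (Pi.single i 1)) fun a b => ?_
  by_cases ha : a = j
  · subst ha
    simp only [Matrix.updateRow_self]
    exact contDiffAt_const
  · simp only [Matrix.updateRow_ne ha]
    exact (hg a b).contDiffAt

lemma contDiffAt_chr92 (hg : ∀ i j, Smooth (fun x => g x i j)) (hd : (mat g x).det ≠ 0)
    (k i j : Fin n) : ContDiffAt ℝ ∞ (chr g k i j) x := by
  unfold chr
  exact ContDiffAt.div_const (ContDiffAt.sum fun l _ => (contDiffAt_up92 hg hd k l).mul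
    (((contDiffAt_pd (hg j l).contDiffAt i).add (contDiffAt_pd (hg i l).contDiffAt j)).sub
      (contDiffAt_pd (hg i j).contDiffAt l))) _

lemma contDiffAt_hess92 (hg : ∀ i j, Smooth (fun x => g x i j)) (hd : (mat g x).det ≠ 0)
    (hx : x ≠ 0) (i j : Fin n) : ContDiffAt ℝ ∞ (fun y => hess g len y i j) x := by
  unfold hess
  have hl : ContDiffAt ℝ ∞ (len : E n → ℝ) x := contDiffAt_len hx
  exact (contDiffAt_pd (contDiffAt_pd hl j) i).sub (ContDiffAt.sum fun k _ =>
    (contDiffAt_chr92 hg hd k i j).mul (contDiffAt_pd hl k))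

lemma contDiffAt_cov92 (hg : ∀ i j, Smooth (fun x => g x i j)) (hd : (mat g x).det ≠ 0)
    (hx : x ≠ 0) (hc : covNorm g (fun j => pd j len) x ≠ 0) :
    ContDiffAt ℝ ∞ (covNorm g (fun j => pd j len)) x := by
  have hl : ContDiffAt ℝ ∞ (len : E n → ℝ) x := contDiffAt_len hx
  unfold covNorm at hc ⊢
  refine ContDiffAt.sqrt (ContDiffAt.sum fun i _ => ContDiffAt.sum fun j _ =>
    ((contDiffAt_up92 hg hd i j).mul (contDiffAt_pd hl i)).mul (contDiffAt_pd hl j)) ?_
  intro h0
  rw [h0, Real.sqrt_zero] at hc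
  exact hc rfl

lemma contDiffAt_nrm92 (hg : ∀ i j, Smooth (fun x => g x i j)) (hd : (mat g x).det ≠ 0)
    (hx : x ≠ 0) (hc : covNorm g (fun j => pd j len) x ≠ 0) (i : Fin n) :
    ContDiffAt ℝ ∞ (nrm g len i) x := by
  have hl : ContDiffAt ℝ ∞ (len : E n → ℝ) x := contDiffAt_len hx
  unfold nrm
  exact ContDiffAt.div (ContDiffAt.sum fun j _ => (contDiffAt_up92 hg hd i j).mul
    (contDiffAt_pd hl j)) (contDiffAt_cov92 hg hd hx hc) hc

lemma contDiffAt_trS92 (hg : ∀ i j, Smooth (fun x => g x i j)) (hd : (mat g x).det ≠ 0)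
    (hx : x ≠ 0) (hc : covNorm g (fun j => pd j len) x ≠ 0) {T : Field n}
    (hT : ∀ i j, ContDiffAt ℝ ∞ (fun y => T y i j) x) :
    ContDiffAt ℝ ∞ (trS g T len) x := by
  unfold trS tr
  exact ContDiffAt.sub (ContDiffAt.sum fun i _ => ContDiffAt.sum fun j _ =>
    (contDiffAt_up92 hg hd i j).mul (hT i j)) (ContDiffAt.sum fun i _ => ContDiffAt.sum fun j _ =>
    ((hT i j).mul (contDiffAt_nrm92 hg hd hx hc i)).mul (contDiffAt_nrm92 hg hd hx hc j))

end

section

variable {G g K : Field n} {B : Bg n}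

/-- the mean curvature of the centred spheres -/
lemma sphereMean_eq92 (h : Lapse G g B.R) (hF : B.Fits0 G) {x : E n} (hx : B.R ≤ len x) :
    sphereMean g x = B.H (len x) / √(rad g x) := by
  have h1 := h.theta_len (K := fun _ _ _ => 0) hx
  have h2 : trT G (fun _ _ _ => 0) x = 0 := by simp [trT]
  have h3 : trS g (fun _ _ _ => 0) len x = 0 := by simp [trS, tr]
  unfold thetaPlus at h1
  rw [h2, h3, add_zero, add_zero, H1_eq_bd0 h hF hx] at h1
  exact h1

lemma sphereRatio_eq92 (h : Lapse G g B.R) (hF : B.Fits0 G) {x : E n} (hx : B.R ≤ len x) :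
    sphereRatio g K x = kpf G g K x / B.H (len x) := by
  unfold sphereRatio kpf
  rw [sphereMean_eq92 h hF hx, h.trS_len hx, div_div_eq_mul_div, mul_comm]

lemma le_iff92 (h : Lapse G g B.R) (hF : B.Fits0 G) {x : E n} (hx : B.R ≤ len x) :
    sphereMean g x ≤ |trS g K len x| ↔ B.H (len x) ≤ |kpf G g K x| := by
  have hs : 0 < √(rad g x) := Real.sqrt_pos.2 (h.ppos x hx)
  rw [sphereMean_eq92 h hF hx, h.trS_len hx, div_le_iff₀ hs]
  unfold kpf
  rw [abs_mul, abs_of_pos hs, mul_comm]

lemma lt_iff92 (h : Lapse G g B.R) (hF : B.Fits0 G) {x : E n} (hx : B.R ≤ len x) :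
    |trS g K len x| < sphereMean g x ↔ |kpf G g K x| < B.H (len x) := by
  rw [← not_le, ← not_le, le_iff92 h hF hx]

lemma diff_ratio92 (h : Lapse G g B.R) (hF : B.Fits0 G)
    (hK : ∀ i j, Smooth (fun x => K x i j)) {x : E n} (hx : B.R ≤ len x)
    (hH : B.H (len x) ≠ 0) : DifferentiableAt ℝ (sphereRatio g K) x := by
  have hx0 := h.ne_zero hx
  have hs : 0 < √(rad g x) := Real.sqrt_pos.2 (h.ppos x hx)
  have hd := h.g_det_ne hx
  have hc : covNorm g (fun j => pd j len) x ≠ 0 := by
    rw [h.cov_len hx]; positivity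
  have hm : sphereMean g x ≠ 0 := by
    rw [sphereMean_eq92 h hF hx]
    exact div_ne_zero hH hs.ne'
  have h1 : ContDiffAt ℝ ∞ (sphereMean g) x :=
    (contDiffAt_trS92 h.gs hd hx0 hc (fun i j => contDiffAt_hess92 h.gs hd hx0 i j)).div
      (contDiffAt_cov92 h.gs hd hx0 hc) hc
  exact ((contDiffAt_trS92 h.gs hd hx0 hc (fun i j => (hK i j).contDiffAt)).div h1
    hm).differentiableAt (by simp)

lemma diff_kpf92 (h : Lapse G g B.R) (hK : ∀ i j, Smooth (fun x => K x i j)) {x : E n}
    (hx : B.R ≤ len x) : DifferentiableAt ℝ (kpf G g K) x := by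
  have hx0 := h.ne_zero hx
  have h1 : ContDiffAt ℝ ∞ (trT G K) x := by
    unfold trT Sm
    exact ContDiffAt.sum fun i _ => ContDiffAt.sum fun j _ =>
      ((contDiffAt_up92 h.Gs (h.det_ne hx) i j).sub ((contDiffAt_nx i hx0).mul
        (contDiffAt_nx j hx0))).mul (hK i j).contDiffAt
  exact (((contDiffAt_rad h.gs hx0).sqrt (h.ppos x hx).ne').mul h1).differentiableAt (by simp)

/-- the torsion term of the problem -/
theorem sphereTorsion_eq92 (h : Lapse G g B.R) (hF : B.Fits0 G)
    (hK : ∀ i j, Smooth (fun x => K x i j)) (hKs : ∀ x, B.R ≤ len x → ∀ i j, K x i j = K x j i)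
    {x : E n} (hx : B.R ≤ len x) (hH : B.H (len x) ≠ 0) :
    sphereTorsion g K x = tors G g K x / B.H (len x) := by
  have hx0 := h.ne_zero hx
  have hp := h.ppos x hx
  have hs : 0 < √(rad g x) := Real.sqrt_pos.2 hp
  have hHd := B.H_diff _ hx
  -- the derivative of the ratio
  have h1 : ∀ k, pd k (sphereRatio g K) x = pd k (kpf G g K) x / B.H (len x) -
      kpf G g K x * deriv B.H (len x) / B.H (len x) ^ 2 * nx k x := by
    intro k
    have hv : DifferentiableAt ℝ (fun y => kpf G g K y * (B.H (len y))⁻¹) x :=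
      (diff_kpf92 h hK hx).mul ((DifferentiableAt.comp (g := B.H) x hHd
        ((contDiffAt_len (m := 1) hx0).differentiableAt (by norm_num))).inv hH)
    rw [pd_congr_outside hx (diff_ratio92 h hF hK hx hH) hv
      (fun y hy => by rw [sphereRatio_eq92 h hF hy, div_eq_mul_inv]) k]
    have h2 : HasDerivAt (fun r => (B.H r)⁻¹) (-deriv B.H (len x) / B.H (len x) ^ 2) (len x) :=
      hHd.hasDerivAt.inv hH
    have h3 := (HP.of_diff (k := k) (diff_kpf92 h hK hx)).mul (HP.radial hx0 h2 k)
    rw [h3.pd]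
    unfold nx
    field_simp
    ring
  -- assemble
  have h4 : ∀ l, ∑ i, K x i l * nrm g len i x = row K l x / √(rad g x) := by
    intro l
    unfold row
    rw [Finset.sum_div]
    refine Finset.sum_congr rfl fun i _ => ?_
    rw [h.nrm_len hx, hKs x hx i l]
    ring
  have h5 : ∀ k l, up g k l x - nrm g len k x * nrm g len l x = Sm G k l x := by
    intro k l
    rw [h.nrm_len hx, h.nrm_len hx, h.up_g hx]
    have : nx k x / √(rad g x) * (nx l x / √(rad g x)) = nx k x * nx l x / rad g x := by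
      rw [div_mul_div_comm, ← sq, Real.sq_sqrt hp.le]
    rw [this]
    ring
  unfold sphereTorsion tors S2
  simp only [h4, h5, h1]
  have h6 : ∀ k l, Sm G k l x * (pd k (kpf G g K) x / B.H (len x) -
      kpf G g K x * deriv B.H (len x) / B.H (len x) ^ 2 * nx k x) *
      (row K l x / √(rad g x)) =
      Sm G k l x * pd k (kpf G g K) x * bf g K l x / B.H (len x) -
      (kpf G g K x * deriv B.H (len x) / B.H (len x) ^ 2) * (row K l x / √(rad g x)) *
        (nx k x * Sm G k l x) := by
    intro k l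
    unfold bf
    rw [Real.sqrt_div zero_le_one, Real.sqrt_one]
    ring
  simp only [h6, Finset.sum_sub_distrib]
  have h7 : ∑ k, ∑ l, (kpf G g K x * deriv B.H (len x) / B.H (len x) ^ 2) *
      (row K l x / √(rad g x)) * (nx k x * Sm G k l x) = 0 := by
    rw [Finset.sum_comm]
    simp only [← Finset.mul_sum, h.nx_Sm hx, mul_zero, Finset.sum_const_zero]
  rw [h7, sub_zero]
  simp only [Finset.sum_div]

/-- the average of the torsion term -/
theorem av_tors92 (hn : 1 ≤ n) (h : Lapse G g B.R) (hF : B.Fits0 G)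
    (hK : ∀ i j, Smooth (fun x => K x i j)) (hKs : ∀ x, B.R ≤ len x → ∀ i j, K x i j = K x j i)
    {r : ℝ} (hr : B.R ≤ r) (hH : 0 < B.H r) :
    av (tors G g K) r ≤ 0 ↔ sph (vol n) r (sphereTorsion g K) ≤ 0 := by
  have : Nonempty (Fin n) := ⟨⟨0, by omega⟩⟩
  have : Nontrivial (E n) := inferInstance
  have hr0 : 0 ≤ r := B.hR.le.trans hr
  have h1 : sphI (sphereTorsion g K) r = sphI (fun x => (B.H r)⁻¹ * tors G g K x) r := by
    refine sphI_congr hr0 fun x hx => ?_
    have hl : len x = r := hx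
    rw [sphereTorsion_eq92 h hF hK hKs (by rw [hl]; exact hr) (by rw [hl]; exact hH.ne'), hl]
    ring
  have h2 : sphI (fun x => (B.H r)⁻¹ * tors G g K x) r = (B.H r)⁻¹ * sphI (tors G g K) r := by
    unfold sphI
    exact integral_const_mul _ _
  have hω : 0 < Vale.Agent.P366.omega n := Vale.Agent.P366.omega_pos'
  rw [sph_eq_sphI, h1, h2]
  unfold av
  constructor
  · intro h3
    have h4 : sphI (tors G g K) r ≤ 0 := by
      rw [div_le_iff₀ hω, zero_mul] at h3
      exact h3
    exact mul_nonpos_of_nonneg_of_nonpos (inv_nonneg.2 hH.le) h4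
  · intro h3
    have h4 : sphI (tors G g K) r ≤ 0 := by
      by_contra h5
      push Not at h5
      have := mul_pos (inv_pos.2 hH) h5
      linarith
    exact div_nonpos_of_nonpos_of_nonneg h4 hω.le

/-- **Block X8** (`K` is symmetric). -/
theorem dich92 (hn : 1 ≤ n) (h : Lapse G g B.R) (hF : B.Fits0 G)
    (hK : ∀ i j, Smooth (fun x => K x i j)) (hKs : ∀ x, B.R ≤ len x → ∀ i j, K x i j = K x j i)
    (hT : TorsionCond g K B.R) : Dich B G g K := by
  intro r hr
  have hl : ∀ x : E n, len x = r → B.R ≤ len x := fun x hx => by rw [hx]; exact hr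
  rcases hT r hr with h1 | ⟨h1, h2⟩
  · refine Or.inl fun x hx => ?_
    have := (le_iff92 (K := K) h hF (hl x hx)).1 (h1 x hx)
    rwa [hx] at this
  · have h3 : ∀ x, len x = r → |kpf G g K x| < B.H r := by
      intro x hx
      have := (lt_iff92 (K := K) h hF (hl x hx)).1 (h1 x hx)
      rwa [hx] at this
    refine Or.inr ⟨h3, ?_⟩
    have h0 : 0 < r := B.hR.trans_le hr
    have hH : 0 < B.H r :=
      (abs_nonneg _).trans_lt (h3 (ry ⟨0, by omega⟩ r) (len_ry _ h0))
    exact (av_tors92 hn h hF hK hKs hr hH).2 h2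

/-- a function constant on a centred sphere has no tangential derivative -/
lemma tang_zero92 {f : E n → ℝ} {x : E n} (hx : x ≠ 0) (hf : DifferentiableAt ℝ f x)
    (hc : ∀ y, len y = len x → f y = f x) {w : E n} (hw : ∑ i, nx i x * w i = 0) :
    ∑ i, w i * pd i f x = 0 := by
  rw [← fderiv_eq_sum_pd hf]
  have hl : 0 < ‖x‖ := norm_pos_iff.2 hx
  -- the curve
  set c : ℝ → E n := fun t => (‖x‖ / ‖x + t • w‖) • (x + t • w) with hcdef
  have hc0 : c 0 = x := by
    simp only [hcdef, zero_smul, add_zero]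
    rw [div_self hl.ne', one_smul]
  have h1 : HasDerivAt (fun t : ℝ => x + t • w) w 0 := by
    simpa using ((hasDerivAt_id (0 : ℝ)).smul_const w).const_add x
  have hxw : inner ℝ x w = 0 := by
    rw [PiLp.inner_apply]
    simp only [RCLike.inner_apply, conj_trivial]
    have : ∑ i, w i * x i = len x * ∑ i, nx i x * w i := by
      rw [Finset.mul_sum]
      refine Finset.sum_congr rfl fun i _ => ?_
      rw [← nx_mul_len hx i]; ring
    rw [this, hw, mul_zero]
  have h2 : HasDerivAt (fun t : ℝ => ‖x + t • w‖ ^ 2) 0 0 := by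
    have := h1.norm_sq
    refine this.congr_deriv ?_
    simp [hxw]
  have h3 : HasDerivAt (fun t : ℝ => ‖x + t • w‖) 0 0 := by
    have h4 := h2.sqrt (by simp [hx])
    have h5 : (fun t : ℝ => √(‖x + t • w‖ ^ 2)) = fun t : ℝ => ‖x + t • w‖ := by
      funext t; exact Real.sqrt_sq (norm_nonneg _)
    rw [h5] at h4
    simpa using h4
  have h6 : HasDerivAt (fun t : ℝ => ‖x‖ / ‖x + t • w‖) 0 0 := by
    have := (hasDerivAt_const (0 : ℝ) ‖x‖).fun_div h3 (by simp [hx])
    simpa using this
  have h7 : HasDerivAt c w 0 := by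
    have := h6.fun_smul h1
    refine this.congr_deriv ?_
    simp [div_self hl.ne']
  have h8 : HasDerivAt (fun t => f (c t)) (fderiv ℝ f x w) 0 := by
    have h9 : HasFDerivAt f (fderiv ℝ f x) (c 0) := by rw [hc0]; exact hf.hasFDerivAt
    exact h9.comp_hasDerivAt 0 h7
  have h9 : HasDerivAt (fun t => f (c t)) 0 0 := by
    refine (hasDerivAt_const (0 : ℝ) (f x)).congr_of_eventuallyEq ?_
    have h10 : ∀ᶠ t : ℝ in 𝓝 0, x + t • w ≠ 0 := by
      refine h1.continuousAt.eventually_ne ?_
      simpa using hx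
    filter_upwards [h10] with t ht
    refine hc _ ?_
    have : 0 < ‖x + t • w‖ := norm_pos_iff.2 ht
    unfold len
    simp only [hcdef]
    rw [norm_smul, Real.norm_eq_abs, abs_of_pos (by positivity)]
    field_simp
  exact h8.unique h9

/-- **Block X8r**: the condition holds if `√p tr_S K` is radial. -/
theorem torsionCond_of_radial92 (hn : 1 ≤ n) (h : Lapse G g B.R) (hF : B.Fits0 G)
    (hK : ∀ i j, Smooth (fun x => K x i j)) (hKs : ∀ x, B.R ≤ len x → ∀ i j, K x i j = K x j i)
    {κ : ℝ → ℝ} (hκ : ∀ x, B.R ≤ len x → √(rad g x) * trT G K x = κ (len x)) :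
    TorsionCond g K B.R := by
  have : Nonempty (Fin n) := ⟨⟨0, by omega⟩⟩
  have : Nontrivial (E n) := inferInstance
  intro r hr
  have hr0 : 0 < r := B.hR.trans_le hr
  have hl : ∀ x : E n, len x = r → B.R ≤ len x := fun x hx => by rw [hx]; exact hr
  have hk : ∀ x : E n, len x = r → kpf G g K x = κ r := by
    intro x hx
    have := hκ x (hl x hx)
    rwa [hx] at this
  rcases le_or_gt (B.H r) |κ r| with h1 | h1
  · refine Or.inl fun x hx => (le_iff92 h hF (hl x hx)).2 ?_
    rw [hk x hx, hx]; exact h1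
  · have hH : 0 < B.H r := (abs_nonneg _).trans_lt h1
    refine Or.inr ⟨fun x hx => (lt_iff92 h hF (hl x hx)).2 ?_, ?_⟩
    · rw [hk x hx, hx]; exact h1
    · refine (av_tors92 hn h hF hK hKs hr hH).1 (le_of_eq ?_)
      have h2 : ∀ x : E n, len x = r → tors G g K x = 0 := by
        intro x hx
        have hx0 := h.ne_zero (hl x hx)
        have h3 : ∀ l, ∑ k, Sm G k l x * pd k (kpf G g K) x = 0 := by
          intro l
          exact tang_zero92 hx0 (diff_kpf92 h hK (hl x hx))
            (fun y hy => by rw [hk y (by rw [hy, hx]), hk x hx])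
            (w := WithLp.toLp 2 fun k => Sm G k l x) (h.nx_Sm (hl x hx) l)
        unfold tors S2
        rw [Finset.sum_comm]
        refine Finset.sum_eq_zero fun l _ => ?_
        rw [← Finset.sum_mul, h3 l, zero_mul]
      have h4 : sphI (tors G g K) r = sphI (fun _ => 0) r :=
        sphI_congr hr0.le fun x hx => h2 x hx
      unfold av
      rw [h4]
      unfold sphI
      simp

end

end Vale.Agent.T4
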