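import Vale.Agent.P366.T5.X5355
import Vale.Agent.P366.T5.X3355
import Vale.Agent.P366.T5.X6_68
import Vale.Agent.P366.T5.X7_92
import Vale.Agent.P366.T5.X8_92
import Vale.Agent.P366.T5.Union355

/-! T5, class X: the final theorem. -/

open MeasureTheory Metric Filter Topology Set
open scoped ContDiff ENNReal Matrix

noncomputable section
namespace Vale.Agent.T4
open Vale.Agent.P366.Stmt Vale.Agent.P366.T2
open Vale.Agent.P366 (sphI sphM av norm_smul_sph sphI_congr)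

variable {n : ℕ}

/-- bound and equality case for class X -/
theorem bothX (hn : 3 ≤ n) {X : Exterior n} {G : Field n}
    {B : Bg n} (h : Lapse G X.g B.R) (hB : B.FitsW G) (hL : B.LamOK G) (hAF : X.IsAF)
    (hDEC : X.DEC) (hT : X.Trapped) {m : ℝ} (hm : X.IsEnergy m)
    (hR : IsGreatest {r | ∃ x, X.F x = 0 ∧ len x = r} B.R) (hK : TorsionCond X.g X.K B.R)
    (hround : (∀ r, B.R < r → B.lam r ^ 2 = ((n : ℝ) - 1) * B.L2 r ∧
        B.Rh r / 4 + B.L2 r = B.lam r ^ 2) →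
      (∀ x, B.R < len x → ctr G (IIf G) (IIf G) x = B.II2 (len x)) →
      B.RoundAt G ∧ ∀ r, B.R < r → B.lam r = ((n : ℝ) - 1) / (2 * B.rho r)) :
    X.Amin ≠ ⊤ ∧ 0 < m ∧
      (X.Amin.toReal / omega n) ^ (((n : ℝ) - 2) / (n - 1)) / 2 ≤ m ∧
      (Outermost X → (X.Amin.toReal / omega n) ^ (((n : ℝ) - 2) / (n - 1)) / 2 = m →
        IsSlice m X.g X.K {x | B.R < len x}) := by
  have hd : Dich B G X.g X.K := dich92 (by omega) h hB.toFits0 (fun i j => (X.smooth i j).2)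
    (fun x _ i j => (X.symm x i j).2) hK
  obtain ⟨h1, h2, h3⟩ := penroseX hn (stX3 hn) (stX4 (by omega)) h hB hL hAF hDEC hT hm hR hd
  exact ⟨h1, h2, h3, fun hO heq => rigidX hn (stEmb (by omega)) (stX3 hn) (stX6 hn) (stX7 hn)
    h hB hL hAF hDEC hT hm hR hd hO heq hround⟩

/-- **Class X.** -/
theorem finalX (hn : 3 ≤ n) {X : Exterior n} (hAF : X.IsAF)
    (hDEC : X.DEC) (hT : X.Trapped) {m : ℝ} (hm : X.IsEnergy m) {R₁ : ℝ}
    (hR : IsGreatest {r | ∃ x, X.F x = 0 ∧ len x = r} R₁)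
    (hperp : ∀ x, R₁ ≤ len x → ∀ i, ∑ j, X.g x i j * x j = radial X.g x * x i)
    (hleaf : (∃ Γ, TransGroup n Γ ∧ InvUnder Γ R₁ (spherical X.g)) ∨
      ∃ ρ : ℝ → ℝ, (∀ r, R₁ ≤ r → 0 < ρ r) ∧
        (∀ x, R₁ ≤ len x →
          (mat (unitLapse X.g) x).det = (ρ (len x) / len x) ^ (2 * (n - 1))) ∧
        ∀ r, R₁ < r → sph (vol n) r (sphereScal X.g) / omega n ≤
          ((n : ℝ) - 1) * ((n : ℝ) - 2) / ρ r ^ 2)
    (hK : TorsionCond X.g X.K R₁) :
    X.Amin ≠ ⊤ ∧ 0 < m ∧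
      (X.Amin.toReal / omega n) ^ (((n : ℝ) - 2) / (n - 1)) / 2 ≤ m ∧
      (Outermost X → (X.Amin.toReal / omega n) ^ (((n : ℝ) - 2) / (n - 1)) / 2 = m →
        IsSlice m X.g X.K {x | R₁ < len x}) := by
  have hout := Vale.Agent.C92.outside_nonneg (by omega) X hR
  have hR0 : 0 < R₁ :=
    (Vale.Agent.P366.Bridge.toRaw X).R1_pos (by omega) (Vale.Agent.P366.Bridge.raw_R1 X hR)
  have hpos : ∀ x, R₁ ≤ len x → (mat X.g x).PosDef := fun x hx => X.pos x (hout x hx)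
  have hgs : ∀ i j, Smooth (fun x => X.g x i j) := fun i j => (X.smooth i j).1
  have hgsy : ∀ x i j, X.g x i j = X.g x j i := fun x i j => (X.symm x i j).1
  have hp : PerpAt R₁ X.g := hperp
  have hl : Lapse (bgF R₁ X.g) X.g R₁ := lapse_bgF hR0 hgs hgsy hpos (hp.nx hR0)
  have hll : Lapse (bgF R₁ X.g) (bgF R₁ X.g) R₁ :=
    lapse_self hR0 hl.Gs hl.symm hl.pos hl.unit
  rcases hleaf with ⟨Γ, hΓ, htan⟩ | ⟨ρ, hρ, hdens, hcurv⟩
  · have hinv : InvUnder Γ R₁ (bgF R₁ X.g) := by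
      refine inv_bgF hR0 hΓ.orth ?_
      rw [← spherical_eq]
      exact htan
    obtain ⟨B, rfl, hB, hL, hE⟩ := exists_bg_trans hn hΓ hl.hR hl.Gs (bgF_symm hgsy) hl.pos
      hl.unit hinv
    exact bothX hn hl (hB.toFitsW (by omega)) hL hAF hDEC hT hm hR hK
      (fun h1 _ => ⟨fun x hx i j => (hE _ hx (h1 _ hx).1).2 x rfl i j,
        fun r hr => (hE r hr (h1 r hr).1).1⟩)
  · have hd : ∀ x, R₁ ≤ len x → (mat (bgF R₁ X.g) x).det =
        (fun r => (ρ r / r) ^ (2 * (n - 1))) (len x) := by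
      intro x hx
      simp only
      rw [← hdens x hx]
      unfold mat
      rw [unitLapse_eq hR0 hx]
    have hc : ∀ r, R₁ < r → av (leafScal (bgF R₁ X.g)) r ≤ ((n : ℝ) - 1) * ((n : ℝ) - 2) /
        (r ^ 2 * (fun r => (ρ r / r) ^ (2 * (n - 1))) r ^ (1 / ((n : ℝ) - 1))) := by
      intro r hr
      have hr0 : 0 < r := hR0.trans hr
      have h1 := hcurv r hr
      have e1 : av (leafScal (bgF R₁ X.g)) r = sph (vol n) r (sphereScal X.g) / omega n := by
        rw [sph_eq_sphI, Vale.Agent.P366.omega_eq]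
        unfold av
        congr 1
        refine sphI_congr hr0.le fun x hx => ?_
        exact (sphereScal_eq hll (by unfold len; rw [hx]; exact hr)).symm
      have e2 : ((ρ r / r) ^ (2 * (n - 1))) ^ (1 / ((n : ℝ) - 1)) = (ρ r / r) ^ 2 := by
        have hq : 0 < ρ r / r := div_pos (hρ r hr.le) hr0
        have h3 : ((n - 1 : ℕ) : ℝ) = (n : ℝ) - 1 := by
          rw [Nat.cast_sub (by omega)]; push_cast; ring
        rw [pow_mul, ← h3, one_div]
        exact Real.pow_rpow_inv_natCast (by positivity) (by omega)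
      rw [e1]
      refine h1.trans (le_of_eq ?_)
      simp only [e2]
      congr 1
      field_simp
    obtain ⟨B, rfl, hB, hL, hII2, hlam⟩ := fitsW_of_density' (by omega) hl hd hc
    refine bothX hn hl hB hL hAF hDEC hT hm hR hK
      (fun _ hII => ⟨roundAt_of_umbilic' hn hl hB.toFits0 hAF fun x hx => ?_,
        fun r hr => hlam r hr.le⟩)
    rw [hII x hx, hII2]

/-- the old condition implies the new one -/
theorem torsion_of_radial (hn : 3 ≤ n) {X : Exterior n} (hAF : X.IsAF) {R₁ : ℝ}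
    (hR : IsGreatest {r | ∃ x, X.F x = 0 ∧ len x = r} R₁)
    (hperp : ∀ x, R₁ ≤ len x → ∀ i, ∑ j, X.g x i j * x j = radial X.g x * x i)
    (hleaf : (∃ Γ, TransGroup n Γ ∧ InvUnder Γ R₁ (spherical X.g)) ∨
      ∃ ρ : ℝ → ℝ, (∀ r, R₁ ≤ r → 0 < ρ r) ∧
        (∀ x, R₁ ≤ len x →
          (mat (unitLapse X.g) x).det = (ρ (len x) / len x) ^ (2 * (n - 1))) ∧
        ∀ r, R₁ < r → sph (vol n) r (sphereScal X.g) / omega n ≤
          ((n : ℝ) - 1) * ((n : ℝ) - 2) / ρ r ^ 2) {κ : ℝ → ℝ}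
    (hκ : ∀ x, R₁ ≤ len x → √(radial X.g x) * trS X.g X.K len x = κ (len x)) :
    TorsionCond X.g X.K R₁ := by
  have hout := Vale.Agent.C92.outside_nonneg (by omega) X hR
  have hR0 : 0 < R₁ :=
    (Vale.Agent.P366.Bridge.toRaw X).R1_pos (by omega) (Vale.Agent.P366.Bridge.raw_R1 X hR)
  have hpos : ∀ x, R₁ ≤ len x → (mat X.g x).PosDef := fun x hx => X.pos x (hout x hx)
  have hgs : ∀ i j, Smooth (fun x => X.g x i j) := fun i j => (X.smooth i j).1
  have hgsy : ∀ x i j, X.g x i j = X.g x j i := fun x i j => (X.symm x i j).1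
  have hp : PerpAt R₁ X.g := hperp
  have hl : Lapse (bgF R₁ X.g) X.g R₁ := lapse_bgF hR0 hgs hgsy hpos (hp.nx hR0)
  have hll : Lapse (bgF R₁ X.g) (bgF R₁ X.g) R₁ :=
    lapse_self hR0 hl.Gs hl.symm hl.pos hl.unit
  have hκ' : ∀ x, R₁ ≤ len x → √(rad X.g x) * trT (bgF R₁ X.g) X.K x = κ (len x) := by
    intro x hx
    rw [← radial_eq, ← hl.trS_len hx]
    exact hκ x hx
  rcases hleaf with ⟨Γ, hΓ, htan⟩ | ⟨ρ, hρ, hdens, hcurv⟩
  · have hinv : InvUnder Γ R₁ (bgF R₁ X.g) := by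
      refine inv_bgF hR0 hΓ.orth ?_
      rw [← spherical_eq]
      exact htan
    obtain ⟨B, rfl, hB, hL, hE⟩ := exists_bg_trans hn hΓ hl.hR hl.Gs (bgF_symm hgsy) hl.pos
      hl.unit hinv
    exact torsionCond_of_radial92 (by omega) hl hB.toFits0 (fun i j => (X.smooth i j).2)
      (fun x _ i j => (X.symm x i j).2) hκ'
  · have hd : ∀ x, R₁ ≤ len x → (mat (bgF R₁ X.g) x).det =
        (fun r => (ρ r / r) ^ (2 * (n - 1))) (len x) := by
      intro x hx
      simp only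
      rw [← hdens x hx]
      unfold mat
      rw [unitLapse_eq hR0 hx]
    have hc : ∀ r, R₁ < r → av (leafScal (bgF R₁ X.g)) r ≤ ((n : ℝ) - 1) * ((n : ℝ) - 2) /
        (r ^ 2 * (fun r => (ρ r / r) ^ (2 * (n - 1))) r ^ (1 / ((n : ℝ) - 1))) := by
      intro r hr
      have hr0 : 0 < r := hR0.trans hr
      have h1 := hcurv r hr
      have e1 : av (leafScal (bgF R₁ X.g)) r = sph (vol n) r (sphereScal X.g) / omega n := by
        rw [sph_eq_sphI, Vale.Agent.P366.omega_eq]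
        unfold av
        congr 1
        refine sphI_congr hr0.le fun x hx => ?_
        exact (sphereScal_eq hll (by unfold len; rw [hx]; exact hr)).symm
      have e2 : ((ρ r / r) ^ (2 * (n - 1))) ^ (1 / ((n : ℝ) - 1)) = (ρ r / r) ^ 2 := by
        have hq : 0 < ρ r / r := div_pos (hρ r hr.le) hr0
        have h3 : ((n - 1 : ℕ) : ℝ) = (n : ℝ) - 1 := by
          rw [Nat.cast_sub (by omega)]; push_cast; ring
        rw [pow_mul, ← h3, one_div]
        exact Real.pow_rpow_inv_natCast (by positivity) (by omega)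
      rw [e1]
      refine h1.trans (le_of_eq ?_)
      simp only [e2]
      congr 1
      field_simp
    obtain ⟨B, rfl, hB, hL, hII2, hlam⟩ := fitsW_of_density' (by omega) hl hd hc
    exact torsionCond_of_radial92 (by omega) hl hB.toFits0 (fun i j => (X.smooth i j).2)
      (fun x _ i j => (X.symm x i j).2) hκ'

end Vale.Agent.T4
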